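import Mathlib

/-! Partial derivatives on Euclidean space and integration by parts. -/

noncomputable section

namespace Vale.Agent.P098

open MeasureTheory Set Filter Topology
open scoped ContDiff

variable {d : ℕ}

/-- Partial derivative in the `i`-th coordinate direction. -/
def pd (i : Fin d) (f : EuclideanSpace ℝ (Fin d) → ℝ) (x : EuclideanSpace ℝ (Fin d)) : ℝ :=
  fderiv ℝ f x (EuclideanSpace.single i 1)

/-- Divergence of a vector field given by its components. -/
def dvg (Y : Fin d → EuclideanSpace ℝ (Fin d) → ℝ) (x : EuclideanSpace ℝ (Fin d)) : ℝ :=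
  ∑ i, pd i (Y i) x

variable {f g : EuclideanSpace ℝ (Fin d) → ℝ} {x : EuclideanSpace ℝ (Fin d)}
  {W : Set (EuclideanSpace ℝ (Fin d))}

theorem fderiv_eq_sum_pd (f : EuclideanSpace ℝ (Fin d) → ℝ) (x v : EuclideanSpace ℝ (Fin d)) :
    fderiv ℝ f x v = ∑ i, v i * pd i f x := by
  conv_lhs => rw [← (EuclideanSpace.basisFun (Fin d) ℝ).sum_repr v]
  simp [pd]

theorem pd_congr {i : Fin d} (h : f =ᶠ[𝓝 x] g) : pd i f x = pd i g x := by
  simp only [pd, h.fderiv_eq]

theorem pd_const {i : Fin d} (c : ℝ) : pd i (fun _ => c) x = 0 := by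
  simp [pd]

theorem pd_add {i : Fin d} (hf : DifferentiableAt ℝ f x) (hg : DifferentiableAt ℝ g x) :
    pd i (fun y => f y + g y) x = pd i f x + pd i g x := by
  simp [pd, fderiv_fun_add hf hg]

theorem pd_sub {i : Fin d} (hf : DifferentiableAt ℝ f x) (hg : DifferentiableAt ℝ g x) :
    pd i (fun y => f y - g y) x = pd i f x - pd i g x := by
  simp [pd, fderiv_fun_sub hf hg]

theorem pd_neg {i : Fin d} : pd i (fun y => - f y) x = - pd i f x := by
  simp [pd, fderiv_fun_neg]

theorem pd_mul {i : Fin d} (hf : DifferentiableAt ℝ f x) (hg : DifferentiableAt ℝ g x) :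
    pd i (fun y => f y * g y) x = f x * pd i g x + pd i f x * g x := by
  simp [pd, fderiv_fun_mul hf hg, mul_comm]

theorem pd_const_mul {i : Fin d} (c : ℝ) (hf : DifferentiableAt ℝ f x) :
    pd i (fun y => c * f y) x = c * pd i f x := by
  simp [pd, fderiv_const_mul hf c]

theorem pd_comp {i : Fin d} {φ : ℝ → ℝ} (hφ : DifferentiableAt ℝ φ (f x))
    (hf : DifferentiableAt ℝ f x) : pd i (fun y => φ (f y)) x = deriv φ (f x) * pd i f x := by
  have h := (hφ.hasDerivAt.comp_hasFDerivAt x hf.hasFDerivAt).fderiv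
  simp only [pd]
  rw [show (fun y => φ (f y)) = φ ∘ f from rfl, h]
  simp

theorem pd_sum {ι : Type*} (s : Finset ι) {F : ι → EuclideanSpace ℝ (Fin d) → ℝ} {i : Fin d}
    (h : ∀ a ∈ s, DifferentiableAt ℝ (F a) x) :
    pd i (fun y => ∑ a ∈ s, F a y) x = ∑ a ∈ s, pd i (F a) x := by
  simp [pd, fderiv_fun_sum h]

theorem pd_apply {i j : Fin d} :
    pd i (fun y : EuclideanSpace ℝ (Fin d) => y j) x = if j = i then 1 else 0 := by
  have h : HasFDerivAt (fun y : EuclideanSpace ℝ (Fin d) => y j)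
      (EuclideanSpace.proj (𝕜 := ℝ) (ι := Fin d) j) x :=
    (EuclideanSpace.proj (𝕜 := ℝ) (ι := Fin d) j).hasFDerivAt
  simp [pd, h.fderiv, EuclideanSpace.single_apply]

theorem contDiffOn_pd {i : Fin d} {n m : ℕ∞ω} (hW : IsOpen W) (hf : ContDiffOn ℝ n f W)
    (h : m + 1 ≤ n) : ContDiffOn ℝ m (pd i f) W :=
  (hf.fderiv_of_isOpen hW h).clm_apply contDiffOn_const

theorem contDiff_pd {i : Fin d} {n m : ℕ∞ω} (hf : ContDiff ℝ n f) (h : m + 1 ≤ n) :
    ContDiff ℝ m (pd i f) :=
  (hf.fderiv_right h).clm_apply contDiff_const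

theorem pd_comm {i j : Fin d} {n : ℕ∞ω} (hW : IsOpen W) (hf : ContDiffOn ℝ n f W) (hx : x ∈ W)
    (hn : 2 ≤ n) : pd i (pd j f) x = pd j (pd i f) x := by
  have h2 : ContDiffAt ℝ n f x := hf.contDiffAt (hW.mem_nhds hx)
  have hd : DifferentiableAt ℝ (fderiv ℝ f) x :=
    (h2.fderiv_right (m := 1) hn).differentiableAt one_ne_zero
  have hs := h2.isSymmSndFDerivAt (by simpa using hn)
  have key : ∀ v w : EuclideanSpace ℝ (Fin d),
      fderiv ℝ (fun y => fderiv ℝ f y v) x w = fderiv ℝ (fderiv ℝ f) x w v := fun v w => by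
    simp [fderiv_clm_apply hd (differentiableAt_const v)]
  simp only [pd]
  rw [show (pd j f) = fun y => fderiv ℝ f y (EuclideanSpace.single j 1) from rfl,
    show (pd i f) = fun y => fderiv ℝ f y (EuclideanSpace.single i 1) from rfl, key, key]
  exact hs _ _

theorem contDiff_of_tsupport {E F : Type*} [NormedAddCommGroup E] [NormedSpace ℝ E]
    [NormedAddCommGroup F] [NormedSpace ℝ F] {n : ℕ∞ω} {h : E → F} {V : Set E}
    (hV : IsOpen V) (hh : ContDiffOn ℝ n h V) (hs : tsupport h ⊆ V) : ContDiff ℝ n h := by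
  rw [contDiff_iff_contDiffAt]
  intro y
  by_cases hy : y ∈ tsupport h
  · exact hh.contDiffAt (hV.mem_nhds (hs hy))
  · exact contDiffAt_const.congr_of_eventuallyEq (notMem_tsupport_iff_eventuallyEq.1 hy)

theorem hasCompactSupport_pd {i : Fin d} (hf : HasCompactSupport f) :
    HasCompactSupport (pd i f) :=
  hf.fderiv_apply ℝ _

theorem integral_pd_eq_zero {i : Fin d} (hf : ContDiff ℝ 1 f) (hs : HasCompactSupport f) :
    ∫ x, pd i f x = 0 := by
  have hc : Continuous (pd i f) := (contDiff_pd (m := 0) hf le_rfl).continuous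
  have h := integral_mul_fderiv_eq_neg_fderiv_mul_of_integrable (μ := volume)
    (f := fun _ : EuclideanSpace ℝ (Fin d) => (1 : ℝ)) (g := f)
    (v := EuclideanSpace.single i 1) (by simp)
    (by simp only [one_mul]; exact hc.integrable_of_hasCompactSupport (hasCompactSupport_pd hs))
    (by simpa using hf.continuous.integrable_of_hasCompactSupport hs)
    (fun _ _ => differentiableAt_const _) (fun y _ => hf.differentiable one_ne_zero y)
  simpa [pd] using h

theorem integral_dvg_eq_zero {Y : Fin d → EuclideanSpace ℝ (Fin d) → ℝ}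
    (hY : ∀ i, ContDiff ℝ 1 (Y i)) (hs : ∀ i, HasCompactSupport (Y i)) :
    ∫ x, dvg Y x = 0 := by
  unfold dvg
  rw [integral_finsetSum _ fun i _ => (contDiff_pd (m := 0) (hY i) le_rfl).continuous
    |>.integrable_of_hasCompactSupport (hasCompactSupport_pd (hs i))]
  exact Finset.sum_eq_zero fun i _ => integral_pd_eq_zero (hY i) (hs i)

theorem exists_cutoff {S V : Set (EuclideanSpace ℝ (Fin d))} (hS : IsCompact S) (hV : IsOpen V)
    (h : S ⊆ V) : ∃ χ : EuclideanSpace ℝ (Fin d) → ℝ, ContDiff ℝ ∞ χ ∧ HasCompactSupport χ ∧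
      tsupport χ ⊆ V ∧ (∀ y, χ y ∈ Icc (0 : ℝ) 1) ∧ ∀ᶠ y in 𝓝ˢ S, χ y = 1 := by
  obtain ⟨L, hL, hSL, hLV⟩ := exists_compact_between hS hV h
  obtain ⟨χ, h1, h0, h01⟩ := exists_contMDiffMap_one_nhds_of_subset_interior
    (modelWithCornersSelf ℝ (EuclideanSpace ℝ (Fin d))) (n := ⊤) hS.isClosed hSL
  have hsupp : tsupport (χ : EuclideanSpace ℝ (Fin d) → ℝ) ⊆ L :=
    closure_minimal (fun y hy => by_contra fun hyL => hy (h0 y hyL)) hL.isClosed
  exact ⟨χ, χ.contMDiff.contDiff, hL.of_isClosed_subset isClosed_closure hsupp,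
    hsupp.trans hLV, h01, h1⟩

end Vale.Agent.P098
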