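import Vale.Agent.P098.Calc

/-! One-homogeneous one-phase solutions with smooth cross-section: definitions and basic facts. -/

noncomputable section

namespace Vale.Agent.P098

open MeasureTheory Set Filter Topology
open scoped ContDiff

variable {d : ℕ}

/-- Squared Euclidean length of the gradient. -/
def gradSq (f : EuclideanSpace ℝ (Fin d) → ℝ) (x : EuclideanSpace ℝ (Fin d)) : ℝ :=
  ∑ i, pd i f x ^ 2

/-- The one-phase Bernoulli energy of `v` on the ball with centre `c` and radius `R`. -/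
def energy (v : EuclideanSpace ℝ (Fin d) → ℝ) (c : EuclideanSpace ℝ (Fin d)) (R : ℝ) : ℝ :=
  ∫ x in Metric.ball c R, (gradSq v x + {y | 0 < v y}.indicator (fun _ => (1 : ℝ)) x)

/-- Minimality among nonnegative Lipschitz competitors that differ from `u` only on a compact
subset of the punctured ball. -/
def LipMin (u : EuclideanSpace ℝ (Fin d) → ℝ) : Prop :=
  ∀ (c : EuclideanSpace ℝ (Fin d)) (R : ℝ), ∀ v : EuclideanSpace ℝ (Fin d) → ℝ,
    (∃ K, LipschitzWith K v) → (∀ x, 0 ≤ v x) →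
    ∀ S : Set (EuclideanSpace ℝ (Fin d)), IsCompact S → S ⊆ Metric.ball c R \ {0} →
      (∀ x, x ∉ S → v x = u x) → energy u c R ≤ energy v c R

/-- A one-homogeneous solution with smooth cross-section, after shrinking the neighbourhood. -/
structure Cone (d : ℕ) where
  /-- the solution -/
  u : EuclideanSpace ℝ (Fin d) → ℝ
  /-- its smooth extension -/
  U : EuclideanSpace ℝ (Fin d) → ℝ
  /-- domain of the extension -/
  N : Set (EuclideanSpace ℝ (Fin d))
  cont : Continuous u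
  nonneg : ∀ x, 0 ≤ u x
  homog : ∀ r : ℝ, 0 < r → ∀ x, u (r • x) = r * u x
  isOpen_N : IsOpen N
  zero_notMem : (0 : EuclideanSpace ℝ (Fin d)) ∉ N
  closure_sub : ∀ x ∈ closure {x | 0 < u x}, x ≠ 0 → x ∈ N
  smooth : ContDiffOn ℝ 8 U N
  eq_u : ∀ x, 0 < u x → U x = u x
  harmonic : ∀ x, 0 < u x → ∑ i, pd i (pd i U) x = 0
  grad_one : ∀ x ∈ frontier {x | 0 < u x}, x ≠ 0 → gradSq U x = 1
  grad_ne : ∀ x ∈ N, gradSq U x ≠ 0

theorem euler_pos {u U : EuclideanSpace ℝ (Fin d) → ℝ} (hc : Continuous u)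
    (hh : ∀ r : ℝ, 0 < r → ∀ x, u (r • x) = r * u x) (he : ∀ x, 0 < u x → U x = u x)
    {x : EuclideanSpace ℝ (Fin d)} (hx : 0 < u x) (hU : DifferentiableAt ℝ U x) :
    fderiv ℝ U x x = u x := by
  have h0 : HasDerivAt (fun t : ℝ => t • x) x 1 := by
    simpa using (hasDerivAt_id (1 : ℝ)).smul_const x
  have h1 : HasDerivAt (fun t : ℝ => U (t • x)) (fderiv ℝ U x x) 1 := by
    have := HasFDerivAt.comp_hasDerivAt (f := fun t : ℝ => t • x) 1
      (by simpa using hU.hasFDerivAt) h0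
    exact this
  have hev : (fun t : ℝ => U (t • x)) =ᶠ[𝓝 1] fun t => t * u x := by
    have : ∀ᶠ t : ℝ in 𝓝 1, 0 < t ∧ 0 < u (t • x) :=
      (lt_mem_nhds one_pos).and ((hc.comp (continuous_id.smul continuous_const)).tendsto 1
        |>.eventually (lt_mem_nhds (by simpa using hx)))
    filter_upwards [this] with t ht
    rw [he _ ht.2, hh t ht.1]
  have h2 : HasDerivAt (fun t : ℝ => U (t • x)) (u x) 1 := by
    have := (hasDerivAt_id (1 : ℝ)).mul_const (u x)
    simp only [id, one_mul] at this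
    exact this.congr_of_eventuallyEq hev
  exact h1.unique h2

/-- Build a `Cone` from the hypotheses of the main statement. -/
def Cone.ofData {u U : EuclideanSpace ℝ (Fin d) → ℝ} {N : Set (EuclideanSpace ℝ (Fin d))}
    (hc : Continuous u) (h0 : ∀ x, 0 ≤ u x) (hh : ∀ r : ℝ, 0 < r → ∀ x, u (r • x) = r * u x)
    (hN : IsOpen N) (hcl : ∀ x ∈ closure {x | 0 < u x}, x ≠ 0 → x ∈ N)
    (hs : ContDiffOn ℝ 8 U N) (he : ∀ x, 0 < u x → U x = u x)
    (hl : ∀ x, 0 < u x → ∑ i, pd i (pd i U) x = 0)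
    (h1 : ∀ x ∈ frontier {x | 0 < u x}, x ≠ 0 → gradSq U x = 1) : Cone d where
  u := u
  U := U
  N := N \ {0} ∩ {x | gradSq U x ≠ 0}
  cont := hc
  nonneg := h0
  homog := hh
  isOpen_N := by
    have hp : ContinuousOn (gradSq U) (N \ {0}) := by
      unfold gradSq
      exact continuousOn_finsetSum _ fun i _ =>
        ((contDiffOn_pd (m := 7) hN hs (by norm_num)).continuousOn.mono diff_subset).pow 2
    exact hp.isOpen_inter_preimage (hN.sdiff isClosed_singleton) isOpen_ne
  zero_notMem := fun h => h.1.2 rfl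
  closure_sub := fun x hx hne => by
    refine ⟨⟨hcl x hx hne, hne⟩, ?_⟩
    by_cases hp : 0 < u x
    · intro hg
      have hd : DifferentiableAt ℝ U x :=
        (hs.contDiffAt (hN.mem_nhds (hcl x hx hne))).differentiableAt (by simp)
      have hz : ∀ i, pd i U x = 0 := by
        intro i
        simpa using (Finset.sum_eq_zero_iff_of_nonneg (fun j _ => sq_nonneg (pd j U x))).1 hg i
          (Finset.mem_univ i)
      have := euler_pos hc hh he hp hd
      rw [fderiv_eq_sum_pd] at this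
      simp [hz] at this
      linarith
    · have : x ∈ frontier {x | 0 < u x} := by
        rw [(isOpen_lt continuous_const hc).frontier_eq]
        exact ⟨hx, hp⟩
      show gradSq U x ≠ 0
      rw [h1 x this hne]; norm_num
  smooth := hs.mono fun x hx => hx.1.1
  eq_u := he
  harmonic := hl
  grad_one := h1
  grad_ne := fun x hx => hx.2

namespace Cone

variable (C : Cone d) {x : EuclideanSpace ℝ (Fin d)}

/-- The positivity set. -/
def Ω : Set (EuclideanSpace ℝ (Fin d)) := {x | 0 < C.u x}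

theorem isOpen_Ω : IsOpen C.Ω := isOpen_lt continuous_const C.cont

theorem u_zero : C.u 0 = 0 := by
  have := C.homog 2 two_pos 0
  simp at this
  linarith

theorem ne_zero_of_mem (hx : x ∈ C.Ω) : x ≠ 0 := by
  rintro rfl
  have : 0 < C.u 0 := hx
  rw [C.u_zero] at this
  exact lt_irrefl _ this

theorem Ω_sub : C.Ω ⊆ C.N := fun x hx =>
  C.closure_sub x (subset_closure hx) (C.ne_zero_of_mem hx)

theorem u_eq_zero (hx : x ∉ C.Ω) : C.u x = 0 :=
  le_antisymm (not_lt.1 hx) (C.nonneg x)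

theorem U_eq (hx : x ∈ closure C.Ω) (hN : x ∈ C.N) : C.U x = C.u x := by
  have hU : ContinuousAt C.U x := C.smooth.continuousOn.continuousAt (C.isOpen_N.mem_nhds hN)
  have : (𝓝[C.Ω] x).NeBot := mem_closure_iff_nhdsWithin_neBot.1 hx
  have h1 : Tendsto C.U (𝓝[C.Ω] x) (𝓝 (C.U x)) := hU.mono_left nhdsWithin_le_nhds
  have h2 : Tendsto C.U (𝓝[C.Ω] x) (𝓝 (C.u x)) :=
    ((C.cont.tendsto x).mono_left nhdsWithin_le_nhds).congr'
      (eventually_nhdsWithin_of_forall fun y hy => (C.eq_u y hy).symm)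
  exact tendsto_nhds_unique h1 h2

theorem mem_frontier (hx : x ∈ closure C.Ω) (h : x ∉ C.Ω) : x ∈ frontier C.Ω := by
  rw [C.isOpen_Ω.frontier_eq]
  exact ⟨hx, h⟩

theorem smooth_at (hx : x ∈ C.N) : ContDiffAt ℝ 8 C.U x :=
  C.smooth.contDiffAt (C.isOpen_N.mem_nhds hx)

/-- Components of the gradient. -/
def P (i : Fin d) : EuclideanSpace ℝ (Fin d) → ℝ := pd i C.U

/-- Components of the Hessian. -/
def A (i j : Fin d) : EuclideanSpace ℝ (Fin d) → ℝ := pd i (C.P j)

/-- Components of the third derivative. -/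
def T (i j k : Fin d) : EuclideanSpace ℝ (Fin d) → ℝ := pd i (C.A j k)

theorem contDiffOn_P (i : Fin d) : ContDiffOn ℝ 7 (C.P i) C.N :=
  contDiffOn_pd C.isOpen_N C.smooth (by norm_num)

theorem contDiffOn_A (i j : Fin d) : ContDiffOn ℝ 6 (C.A i j) C.N :=
  contDiffOn_pd C.isOpen_N (C.contDiffOn_P j) (by norm_num)

theorem contDiffOn_T (i j k : Fin d) : ContDiffOn ℝ 5 (C.T i j k) C.N :=
  contDiffOn_pd C.isOpen_N (C.contDiffOn_A j k) (by norm_num)

theorem diffAt {f : EuclideanSpace ℝ (Fin d) → ℝ} {n : ℕ∞ω}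
    (hf : ContDiffOn ℝ n f C.N) (hx : x ∈ C.N) (hn : n ≠ 0) : DifferentiableAt ℝ f x :=
  (hf.contDiffAt (C.isOpen_N.mem_nhds hx)).differentiableAt hn

theorem A_symm (i j : Fin d) (hx : x ∈ C.N) : C.A i j x = C.A j i x :=
  pd_comm C.isOpen_N C.smooth hx (by norm_num)

theorem T_symm_right (i j k : Fin d) (hx : x ∈ C.N) : C.T i j k x = C.T i k j x :=
  pd_congr (eventually_of_mem (C.isOpen_N.mem_nhds hx) fun _ hy => C.A_symm j k hy)

theorem T_symm_left (i j k : Fin d) (hx : x ∈ C.N) : C.T i j k x = C.T j i k x :=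
  pd_comm C.isOpen_N (C.contDiffOn_P k) hx (by norm_num)

theorem gradSq_eq : gradSq C.U x = ∑ i, C.P i x ^ 2 := rfl

end Cone

end Vale.Agent.P098
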