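import Vale.Agent.P098.Cone

/-! Euler relations and homogeneity on the positivity set and its closure. -/

noncomputable section

namespace Vale.Agent.P098

open MeasureTheory Set Filter Topology
open scoped ContDiff NNReal

variable {d : ℕ}

namespace Cone

variable (C : Cone d) {x : EuclideanSpace ℝ (Fin d)}

theorem eq_on_closure {f g : EuclideanSpace ℝ (Fin d) → ℝ} (hf : ContinuousOn f C.N)
    (hg : ContinuousOn g C.N) (h : ∀ y ∈ C.Ω, f y = g y) (hx : x ∈ closure C.Ω) (hN : x ∈ C.N) :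
    f x = g x := by
  have : (𝓝[C.Ω] x).NeBot := mem_closure_iff_nhdsWithin_neBot.1 hx
  have h1 : Tendsto f (𝓝[C.Ω] x) (𝓝 (f x)) :=
    ((hf.continuousAt (C.isOpen_N.mem_nhds hN)).tendsto).mono_left nhdsWithin_le_nhds
  have h2 : Tendsto g (𝓝[C.Ω] x) (𝓝 (g x)) :=
    ((hg.continuousAt (C.isOpen_N.mem_nhds hN)).tendsto).mono_left nhdsWithin_le_nhds
  exact tendsto_nhds_unique (h1.congr' (eventually_nhdsWithin_of_forall h)) h2

theorem contDiff_coord {n : ℕ∞ω} (i : Fin d) :
    ContDiff ℝ n fun y : EuclideanSpace ℝ (Fin d) => y i :=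
  (EuclideanSpace.proj (𝕜 := ℝ) (ι := Fin d) i).contDiff

theorem euler0 (hx : x ∈ C.Ω) : ∑ i, x i * C.P i x = C.U x := by
  have := euler_pos C.cont C.homog C.eq_u hx (C.diffAt C.smooth (C.Ω_sub hx) (by simp))
  rw [fderiv_eq_sum_pd] at this
  rw [C.eq_u x hx]
  exact this

theorem euler1 (hx : x ∈ C.Ω) (j : Fin d) : ∑ i, x i * C.A i j x = 0 := by
  have hN := C.Ω_sub hx
  have hev : (fun y => ∑ i, y i * C.P i y) =ᶠ[𝓝 x] C.U :=
    eventually_of_mem (C.isOpen_Ω.mem_nhds hx) fun y hy => C.euler0 hy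
  have hd : ∀ i, DifferentiableAt ℝ (fun y => y i * C.P i y) x := fun i =>
    ((contDiff_coord (n := 1) i).differentiable one_ne_zero x).mul (C.diffAt (C.contDiffOn_P i) hN (by simp))
  have h := pd_congr (i := j) hev
  rw [pd_sum _ (fun i _ => hd i)] at h
  rw [Finset.sum_congr rfl fun i _ => pd_mul ((contDiff_coord (n := 1) i).differentiable
    one_ne_zero x) (C.diffAt (C.contDiffOn_P i) hN (by simp))] at h
  simp only [pd_apply, Finset.sum_add_distrib, ite_mul, one_mul, zero_mul, Finset.sum_ite_eq',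
    Finset.mem_univ, if_true] at h
  have h' : C.P j x = pd j C.U x := rfl
  have : ∑ i, x i * C.A i j x = ∑ i, x i * pd j (C.P i) x :=
    Finset.sum_congr rfl fun i _ => by rw [C.A_symm i j hN]; rfl
  rw [this]
  linarith

theorem euler2 (hx : x ∈ C.Ω) (j k : Fin d) : ∑ i, x i * C.T i j k x = -C.A j k x := by
  have hN := C.Ω_sub hx
  have hev : (fun y => ∑ i, y i * C.A i k y) =ᶠ[𝓝 x] fun _ => 0 :=
    eventually_of_mem (C.isOpen_Ω.mem_nhds hx) fun y hy => C.euler1 hy k
  have hd : ∀ i, DifferentiableAt ℝ (fun y => y i * C.A i k y) x := fun i =>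
    ((contDiff_coord (n := 1) i).differentiable one_ne_zero x).mul (C.diffAt (C.contDiffOn_A i k) hN (by simp))
  have h := pd_congr (i := j) hev
  rw [pd_sum _ (fun i _ => hd i), pd_const] at h
  rw [Finset.sum_congr rfl fun i _ => pd_mul ((contDiff_coord (n := 1) i).differentiable
    one_ne_zero x) (C.diffAt (C.contDiffOn_A i k) hN (by simp))] at h
  simp only [pd_apply, Finset.sum_add_distrib, ite_mul, one_mul, zero_mul, Finset.sum_ite_eq',
    Finset.mem_univ, if_true] at h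
  have : ∑ i, x i * C.T i j k x = ∑ i, x i * pd j (C.A i k) x :=
    Finset.sum_congr rfl fun i _ => by rw [C.T_symm_left i j k hN]; rfl
  rw [this]
  linarith

theorem euler0' (hx : x ∈ closure C.Ω) (hN : x ∈ C.N) : ∑ i, x i * C.P i x = C.U x :=
  C.eq_on_closure (continuousOn_finsetSum _ fun i _ =>
    (contDiff_coord (n := 1) i).continuous.continuousOn.mul (C.contDiffOn_P i).continuousOn)
    C.smooth.continuousOn (fun _ hy => C.euler0 hy) hx hN

theorem euler1' (hx : x ∈ closure C.Ω) (hN : x ∈ C.N) (j : Fin d) :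
    ∑ i, x i * C.A i j x = 0 :=
  C.eq_on_closure (continuousOn_finsetSum _ fun i _ =>
    (contDiff_coord (n := 1) i).continuous.continuousOn.mul (C.contDiffOn_A i j).continuousOn)
    (g := fun _ => 0) continuousOn_const (fun _ hy => C.euler1 hy j) hx hN

theorem euler2' (hx : x ∈ closure C.Ω) (hN : x ∈ C.N) (j k : Fin d) :
    ∑ i, x i * C.T i j k x = -C.A j k x :=
  C.eq_on_closure (continuousOn_finsetSum _ fun i _ =>
    (contDiff_coord (n := 1) i).continuous.continuousOn.mul (C.contDiffOn_T i j k).continuousOn)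
    (g := fun y => -C.A j k y) (C.contDiffOn_A j k).continuousOn.neg
    (fun _ hy => C.euler2 hy j k) hx hN

theorem trace_A (hx : x ∈ closure C.Ω) (hN : x ∈ C.N) : ∑ i, C.A i i x = 0 :=
  C.eq_on_closure (continuousOn_finsetSum _ fun i _ => (C.contDiffOn_A i i).continuousOn)
    (g := fun _ => 0) continuousOn_const (fun y hy => C.harmonic y hy) hx hN

theorem trace_T (hx : x ∈ closure C.Ω) (hN : x ∈ C.N) (j : Fin d) :
    ∑ i, C.T j i i x = 0 := by
  refine C.eq_on_closure (continuousOn_finsetSum _ fun i _ =>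
    (C.contDiffOn_T j i i).continuousOn) (g := fun _ => 0) continuousOn_const ?_ hx hN
  intro y hy
  have hev : (fun z => ∑ i, C.A i i z) =ᶠ[𝓝 y] fun _ => 0 :=
    eventually_of_mem (C.isOpen_Ω.mem_nhds hy) fun z hz => C.harmonic z hz
  have h := pd_congr (i := j) hev
  rw [pd_sum _ (fun i _ => C.diffAt (C.contDiffOn_A i i) (C.Ω_sub hy) (by simp)), pd_const] at h
  exact h

theorem smul_mem (hx : x ∈ C.Ω) {r : ℝ} (hr : 0 < r) : r • x ∈ C.Ω := by
  show 0 < C.u (r • x)
  rw [C.homog r hr]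
  exact mul_pos hr hx

theorem smul_mem_closure (hx : x ∈ closure C.Ω) {r : ℝ} (hr : 0 < r) : r • x ∈ closure C.Ω :=
  map_mem_closure (continuous_const_smul r) hx fun _ hy => C.smul_mem hy hr

theorem P_smul (hx : x ∈ C.Ω) {r : ℝ} (hr : 0 < r) (j : Fin d) : C.P j (r • x) = C.P j x := by
  have hU : DifferentiableAt ℝ C.U (r • x) := C.diffAt C.smooth (C.Ω_sub (C.smul_mem hx hr)) (by simp)
  have hev : (fun y => C.U (r • y)) =ᶠ[𝓝 x] fun y => r * C.U y :=
    eventually_of_mem (C.isOpen_Ω.mem_nhds hx) fun y hy => by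
      show C.U (r • y) = r * C.U y
      rw [C.eq_u _ (C.smul_mem hy hr), C.eq_u _ hy, C.homog r hr]
  have h1 : pd j (fun y => C.U (r • y)) x = r * C.P j (r • x) := by
    have hs : HasFDerivAt (fun y : EuclideanSpace ℝ (Fin d) => r • y)
        (r • ContinuousLinearMap.id ℝ (EuclideanSpace ℝ (Fin d))) x :=
      (hasFDerivAt_id x).const_smul r
    have hc : HasFDerivAt (fun y => C.U (r • y))
        ((fderiv ℝ C.U (r • x)).comp (r • ContinuousLinearMap.id ℝ _)) x :=
      HasFDerivAt.comp x hU.hasFDerivAt hs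
    simp [pd, hc.fderiv, Cone.P]
  rw [pd_congr hev, pd_const_mul r (C.diffAt C.smooth (C.Ω_sub hx) (by simp))] at h1
  exact mul_left_cancel₀ hr.ne' h1.symm

theorem closureΩ_sphere_compact :
    IsCompact (closure C.Ω ∩ Metric.sphere (0 : EuclideanSpace ℝ (Fin d)) 1) :=
  (isCompact_sphere _ _).inter_left isClosed_closure

theorem closureΩ_sphere_sub :
    closure C.Ω ∩ Metric.sphere (0 : EuclideanSpace ℝ (Fin d)) 1 ⊆ C.N := by
  rintro y ⟨hy, hy1⟩
  exact C.closure_sub y hy (by rintro rfl; simp at hy1)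

theorem exists_P_bound : ∃ M : ℝ, 0 ≤ M ∧ ∀ y ∈ C.Ω, gradSq C.U y ≤ M := by
  obtain ⟨M, hM⟩ := (C.closureΩ_sphere_compact).exists_bound_of_continuousOn
    (f := gradSq C.U) (by
      exact (continuousOn_finsetSum _ fun i _ => ((C.contDiffOn_P i).continuousOn).pow 2).mono
        C.closureΩ_sphere_sub)
  refine ⟨max M 0, le_max_right _ _, fun y hy => ?_⟩
  have hne := C.ne_zero_of_mem hy
  have hr : 0 < ‖y‖⁻¹ := inv_pos.2 (norm_pos_iff.2 hne)
  have : gradSq C.U y = gradSq C.U (‖y‖⁻¹ • y) := by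
    rw [C.gradSq_eq, C.gradSq_eq]
    exact Finset.sum_congr rfl fun i _ => by rw [C.P_smul hy hr i]
  rw [this]
  refine le_trans (le_trans (le_abs_self _) ?_) (le_max_left _ _)
  exact hM _ ⟨subset_closure (C.smul_mem hy hr), by simp [norm_smul, hne]⟩

theorem lipschitz_u : ∃ K, LipschitzWith K C.u := by
  obtain ⟨M, hM0, hM⟩ := C.exists_P_bound
  refine ⟨(Real.sqrt M).toNNReal, LipschitzWith.of_dist_le_mul fun a b => ?_⟩
  rw [Real.coe_toNNReal _ (Real.sqrt_nonneg _), Real.dist_eq, dist_eq_norm]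
  suffices ∀ a b, C.u a - C.u b ≤ Real.sqrt M * ‖a - b‖ from
    abs_sub_le_iff.2 ⟨this a b, by rw [norm_sub_rev]; exact this b a⟩
  clear a b
  intro a b
  have hbd : ∀ y ∈ C.Ω, ∀ v : EuclideanSpace ℝ (Fin d),
      |fderiv ℝ C.U y v| ≤ Real.sqrt M * ‖v‖ := by
    intro y hy v
    rw [fderiv_eq_sum_pd, EuclideanSpace.norm_eq]
    simp only [Real.norm_eq_abs, sq_abs]
    have h := Finset.sum_mul_sq_le_sq_mul_sq Finset.univ (fun i => v i) (fun i => pd i C.U y)
    rw [← Real.sqrt_sq_eq_abs, ← Real.sqrt_mul hM0]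
    refine Real.sqrt_le_sqrt (h.trans ?_)
    rw [mul_comm M]
    exact mul_le_mul_of_nonneg_left (hM y hy) (Finset.sum_nonneg fun i _ => sq_nonneg _)
  by_cases ha : a ∈ C.Ω
  swap
  · rw [C.u_eq_zero ha]
    have := C.nonneg b
    have h2 : 0 ≤ Real.sqrt M * ‖a - b‖ := by positivity
    linarith
  let γ : ℝ → EuclideanSpace ℝ (Fin d) := fun t => a + t • (b - a)
  have hγc : Continuous γ := by fun_prop
  let S := Icc (0 : ℝ) 1 ∩ γ ⁻¹' C.Ωᶜ ∪ {1}
  have hS : IsCompact S := by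
    refine IsCompact.union ?_ isCompact_singleton
    exact isCompact_Icc.inter_right (C.isOpen_Ω.isClosed_compl.preimage hγc)
  obtain ⟨τ, hτS, hτ⟩ := hS.exists_isLeast ⟨1, Or.inr rfl⟩
  have hτ01 : τ ∈ Icc (0 : ℝ) 1 := by
    rcases hτS with h | h
    · exact h.1
    · rw [mem_singleton_iff.1 h]; exact ⟨zero_le_one, le_rfl⟩
  have hin : ∀ t ∈ Ico (0 : ℝ) τ, γ t ∈ C.Ω := fun t ht => by
    by_contra h
    exact absurd (hτ (Or.inl ⟨⟨ht.1, ht.2.le.trans hτ01.2⟩, h⟩)) (not_le.2 ht.2)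
  have hend : C.u (γ τ) ≤ C.u b := by
    rcases hτS with h | h
    · rw [C.u_eq_zero h.2]; exact C.nonneg b
    · rw [mem_singleton_iff.1 h]; simp [γ]
  have hg : ∀ t ∈ Ico (0 : ℝ) τ,
      HasDerivWithinAt (fun s => C.u (γ s)) (fderiv ℝ C.U (γ t) (b - a)) (Ici t) t := by
    intro t ht
    have hy := hin t ht
    have h1 : HasDerivAt γ (b - a) t := by
      simpa [γ] using ((hasDerivAt_id t).smul_const (b - a)).const_add a
    have h2 := (C.diffAt C.smooth (C.Ω_sub hy) (by simp)).hasFDerivAt.comp_hasDerivAt t h1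
    refine (h2.congr_of_eventuallyEq ?_).hasDerivWithinAt
    filter_upwards [hγc.continuousAt.preimage_mem_nhds (C.isOpen_Ω.mem_nhds hy)] with s hs
    exact (C.eq_u _ hs).symm
  have key := norm_image_sub_le_of_norm_deriv_right_le_segment (a := 0) (b := τ)
    (C := Real.sqrt M * ‖b - a‖) (C.cont.comp hγc).continuousOn hg
    (fun t ht => by rw [Real.norm_eq_abs]; exact hbd _ (hin t ht) _) τ
    ⟨hτ01.1, le_rfl⟩
  simp only [sub_zero, Real.norm_eq_abs, Function.comp] at key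
  have h3 : C.u a - C.u (γ τ) ≤ Real.sqrt M * ‖b - a‖ * τ := by
    have := neg_le_of_abs_le key
    have hz : γ 0 = a := by simp [γ]
    rw [hz] at this
    linarith
  have h4 : Real.sqrt M * ‖b - a‖ * τ ≤ Real.sqrt M * ‖a - b‖ := by
    rw [norm_sub_rev b a]
    exact mul_le_of_le_one_right (by positivity) hτ01.2
  linarith

end Cone

end Vale.Agent.P098
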