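import Vale.Agent.P098.Strip
import Vale.Agent.P098.Homog

/-! Local integrability of `|A|^(2a-2) |T|^2` on the positivity set for `a > 1/2`. -/

noncomputable section

namespace Vale.Agent.P098

open MeasureTheory Set Filter Topology
open scoped ContDiff

variable {d : ℕ}

namespace Cone

variable (C : Cone d)

/-- Squared norm of the Hessian. -/
def sA (x : EuclideanSpace ℝ (Fin d)) : ℝ := ∑ i, ∑ j, C.A i j x ^ 2

/-- Squared norm of the third derivative. -/
def sT (x : EuclideanSpace ℝ (Fin d)) : ℝ := ∑ k, ∑ i, ∑ j, C.T k i j x ^ 2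

theorem sA_nonneg (x : EuclideanSpace ℝ (Fin d)) : 0 ≤ C.sA x :=
  Finset.sum_nonneg fun _ _ => Finset.sum_nonneg fun _ _ => sq_nonneg _

theorem sT_nonneg (x : EuclideanSpace ℝ (Fin d)) : 0 ≤ C.sT x :=
  Finset.sum_nonneg fun _ _ => Finset.sum_nonneg fun _ _ => Finset.sum_nonneg fun _ _ => sq_nonneg _

theorem contDiffOn_sA : ContDiffOn ℝ 6 C.sA C.N :=
  ContDiffOn.sum fun i _ => ContDiffOn.sum fun j _ => (C.contDiffOn_A i j).pow 2

theorem contDiffOn_sT : ContDiffOn ℝ 5 C.sT C.N :=
  ContDiffOn.sum fun k _ => ContDiffOn.sum fun i _ => ContDiffOn.sum fun j _ =>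
    (C.contDiffOn_T k i j).pow 2

theorem pd_sA {x : EuclideanSpace ℝ (Fin d)} (hx : x ∈ C.N) (k : Fin d) :
    pd k C.sA x = 2 * ∑ i, ∑ j, C.A i j x * C.T k i j x := by
  have hd : ∀ i j, DifferentiableAt ℝ (C.A i j) x := fun i j => C.diffAt (C.contDiffOn_A i j) hx (by simp)
  unfold sA
  rw [pd_sum _ (fun i _ => DifferentiableAt.fun_sum fun j _ => (hd i j).fun_pow 2), Finset.mul_sum]
  refine Finset.sum_congr rfl fun i _ => ?_
  rw [pd_sum _ (fun j _ => (hd i j).fun_pow 2), Finset.mul_sum]
  refine Finset.sum_congr rfl fun j _ => ?_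
  simp only [sq]
  rw [pd_mul (hd i j) (hd i j)]
  show C.A i j x * C.T k i j x + C.T k i j x * C.A i j x = _
  ring

theorem pd_sA_sq {x : EuclideanSpace ℝ (Fin d)} (hx : x ∈ C.N) :
    ∑ k, pd k C.sA x ^ 2 ≤ 4 * C.sA x * C.sT x := by
  rw [sT, Finset.mul_sum]
  refine Finset.sum_le_sum fun k _ => ?_
  rw [C.pd_sA hx k, mul_pow]
  have := Finset.sum_mul_sq_le_sq_mul_sq (Finset.univ ×ˢ Finset.univ)
    (fun p : Fin d × Fin d => C.A p.1 p.2 x) (fun p => C.T k p.1 p.2 x)
  simp only [Finset.sum_product] at this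
  unfold sA
  linarith

theorem lap_sA {x : EuclideanSpace ℝ (Fin d)} (hx : x ∈ C.Ω) :
    ∑ k, pd k (fun y => pd k C.sA y) x = 2 * C.sT x := by
  have hN := C.Ω_sub hx
  have hA : ∀ i j, DifferentiableAt ℝ (C.A i j) x := fun i j => C.diffAt (C.contDiffOn_A i j) hN (by simp)
  have hT : ∀ k i j, DifferentiableAt ℝ (C.T k i j) x := fun k i j =>
    C.diffAt (C.contDiffOn_T k i j) hN (by simp)
  have hz : ∀ i j, ∑ k, pd k (C.T k i j) x = 0 := by
    intro i j
    have h1 : ∀ k, pd k (C.T k i j) x = pd i (C.T j k k) x := fun k => by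
      have e1 : C.T k i j =ᶠ[𝓝 x] C.T i k j :=
        eventually_of_mem (C.isOpen_N.mem_nhds hN) fun y hy => C.T_symm_left k i j hy
      have e2 : C.T k k j =ᶠ[𝓝 x] C.T j k k :=
        eventually_of_mem (C.isOpen_N.mem_nhds hN) fun y hy => by
          rw [C.T_symm_right k k j hy, C.T_symm_left k j k hy]
      rw [pd_congr e1, show C.T i k j = pd i (C.A k j) from rfl,
        pd_comm C.isOpen_N (C.contDiffOn_A k j) hN (by norm_num)]
      exact pd_congr e2
    rw [Finset.sum_congr rfl fun k _ => h1 k, ← pd_sum _ fun k _ => hT j k k,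
      pd_congr (g := fun _ => (0 : ℝ)) (eventually_of_mem (C.isOpen_Ω.mem_nhds hx) fun y hy =>
        C.trace_T (subset_closure hy) (C.Ω_sub hy) j), pd_const]
  have he : ∀ k, pd k (fun y => pd k C.sA y) x
      = ∑ i, ∑ j, (2 * C.T k i j x ^ 2 + 2 * C.A i j x * pd k (C.T k i j) x) := fun k => by
    have : (fun y => pd k C.sA y) =ᶠ[𝓝 x] fun y => ∑ i, ∑ j, 2 * (C.A i j y * C.T k i j y) :=
      eventually_of_mem (C.isOpen_N.mem_nhds hN) fun y hy => by
        show pd k C.sA y = _
        rw [C.pd_sA hy k]; simp only [Finset.mul_sum]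
    rw [pd_congr this, pd_sum _ (fun i _ => DifferentiableAt.fun_sum fun j _ =>
      ((hA i j).fun_mul (hT k i j)).const_mul 2)]
    refine Finset.sum_congr rfl fun i _ => ?_
    rw [pd_sum _ (fun j _ => ((hA i j).fun_mul (hT k i j)).const_mul 2)]
    refine Finset.sum_congr rfl fun j _ => ?_
    rw [pd_const_mul 2 ((hA i j).fun_mul (hT k i j)), pd_mul (hA i j) (hT k i j)]
    show 2 * (C.A i j x * pd k (C.T k i j) x + C.T k i j x * C.T k i j x) = _
    ring
  rw [Finset.sum_congr rfl fun k _ => he k]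
  simp only [Finset.sum_add_distrib, sT, Finset.mul_sum]
  have : ∑ k, ∑ i, ∑ j, 2 * C.A i j x * pd k (C.T k i j) x = 0 := by
    rw [Finset.sum_comm]
    refine Finset.sum_eq_zero fun i _ => ?_
    rw [Finset.sum_comm]
    refine Finset.sum_eq_zero fun j _ => ?_
    rw [← Finset.mul_sum, hz, mul_zero]
  rw [this, add_zero]

/-- Local integrability of the weighted third derivative. -/
theorem energy_bound {α : ℝ} (ha : 1 / 2 < α) (ha1 : α < 1)
    {χ : EuclideanSpace ℝ (Fin d) → ℝ} (hχ : ContDiff ℝ 2 χ) (hc : HasCompactSupport χ)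
    (hs : tsupport χ ⊆ C.N) (h0 : ∀ x, 0 ≤ χ x) :
    IntegrableOn (fun x => χ x * (C.sA x ^ (α - 1) * C.sT x)) C.Ω := by
  classical
  obtain ⟨Y0, h0c1, h0cs, h0s, h0nn, h01⟩ := C.exists_unit_field hc hs
  have hcd : 0 < 2 * α * (2 * α - 1) := mul_pos (by linarith) (by linarith)
  -- uniform bounds on the compact support
  obtain ⟨M1, hM1⟩ := hc.exists_bound_of_continuousOn
    ((C.contDiffOn_sA.continuousOn.add continuousOn_const (f := C.sA) (g := fun _ => (1 : ℝ))).mono hs)
  obtain ⟨M2, hM2⟩ := hc.exists_bound_of_continuousOn (C.contDiffOn_sT.continuousOn.mono hs)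
  obtain ⟨M3, hM3⟩ := hc.exists_bound_of_continuousOn
    ((continuousOn_finsetSum Finset.univ fun i _ => (C.contDiffOn_P i).continuousOn.pow 2).mono hs)
  obtain ⟨M4, hM4⟩ := hc.exists_bound_of_continuousOn
    (f := fun x => ∑ i, pd i χ x ^ 2) (continuousOn_finsetSum Finset.univ fun i _ =>
      ((contDiff_pd (m := 1) hχ (by norm_num)).continuous.pow 2).continuousOn)
  have hχb : ∃ M5, ∀ x, ‖χ x‖ ≤ M5 := hc.exists_bound_of_continuous hχ.continuous
  obtain ⟨M5, hM5⟩ := hχb
  set Q := |M1| ^ (2 * α - 1) * |M2| * 4 with hQ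
  set K1 := Real.sqrt (α ^ 2 * Q) * (Real.sqrt |M3| * |M5|) with hK1
  set K2 := Real.sqrt (α ^ 2 * Q) * Real.sqrt |M4| with hK2
  -- the gradient of the regularised power is uniformly bounded
  have hgrad : ∀ ε : ℝ, 0 < ε → ε ≤ 1 → ∀ x ∈ tsupport χ,
      ∑ k, (α * (C.sA x + ε) ^ (α - 1) * pd k C.sA x) ^ 2 ≤ α ^ 2 * Q := by
    intro ε hε hε1 x hx
    have hpos : 0 < C.sA x + ε := by have := C.sA_nonneg x; linarith
    have h1 : C.sA x + ε ≤ |M1| := by
      have := hM1 x hx
      simp only [Pi.add_apply, Real.norm_eq_abs] at this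
      linarith [le_abs_self (C.sA x + 1), le_abs_self M1]
    have h2 : C.sT x ≤ |M2| := by
      have := hM2 x hx
      simp only [Real.norm_eq_abs] at this
      linarith [le_abs_self (C.sT x), le_abs_self M2]
    simp only [mul_pow, ← Finset.mul_sum]
    rw [mul_assoc]
    refine mul_le_mul_of_nonneg_left ?_ (sq_nonneg α)
    refine (mul_le_mul_of_nonneg_left (C.pd_sA_sq (hs hx)) (sq_nonneg _)).trans ?_
    have e : ((C.sA x + ε) ^ (α - 1)) ^ 2 * (C.sA x + ε) = (C.sA x + ε) ^ (2 * α - 1) := by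
      rw [← Real.rpow_natCast _ 2, ← Real.rpow_mul hpos.le, ← Real.rpow_add_one hpos.ne']
      congr 1; push_cast; ring
    calc ((C.sA x + ε) ^ (α - 1)) ^ 2 * (4 * C.sA x * C.sT x)
        ≤ ((C.sA x + ε) ^ (α - 1)) ^ 2 * (4 * (C.sA x + ε) * C.sT x) := by
          refine mul_le_mul_of_nonneg_left ?_ (sq_nonneg _)
          nlinarith [C.sT_nonneg x]
      _ = (C.sA x + ε) ^ (2 * α - 1) * C.sT x * 4 := by rw [← e]; ring
      _ ≤ Q := by
          refine mul_le_mul_of_nonneg_right ?_ (by norm_num)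
          exact mul_le_mul (Real.rpow_le_rpow hpos.le h1 (by linarith)) h2 (C.sT_nonneg x)
            (Real.rpow_nonneg (abs_nonneg _) _)
  -- integral bound for each positive regularisation
  set E0 := |∫ x in C.Ω, dvg Y0 x| with hE0
  set B := (K1 * E0 + K2 * (volume (tsupport χ)).toReal) / (2 * α * (2 * α - 1)) with hB
  have hbound : ∀ ε : ℝ, 0 < ε → ε ≤ 1 →
      IntegrableOn (fun x => χ x * ((C.sA x + ε) ^ (α - 1) * C.sT x)) C.Ω ∧
        ∫ x in C.Ω, χ x * ((C.sA x + ε) ^ (α - 1) * C.sT x) ≤ B := by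
    intro ε hε hε1
    have hposN : ∀ x, C.sA x + ε ≠ 0 := fun x => by have := C.sA_nonneg x; linarith
    let Y : Fin d → EuclideanSpace ℝ (Fin d) → ℝ := fun k y =>
      χ y * (α * (C.sA y + ε) ^ (α - 1) * pd k C.sA y)
    have hpd : ∀ k, ContDiffOn ℝ 1 (pd k C.sA) C.N := fun k =>
      contDiffOn_pd C.isOpen_N C.contDiffOn_sA (by norm_num)
    have hpow : ContDiffOn ℝ 1 (fun y => (C.sA y + ε) ^ (α - 1)) C.N :=
      ((C.contDiffOn_sA.of_le (by norm_num)).add contDiffOn_const).rpow_const_of_ne
        fun x _ => hposN x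
    have hYs : ∀ k, tsupport (Y k) ⊆ tsupport χ := fun k => tsupport_mul_subset_left
    have hY : ∀ k, ContDiff ℝ 1 (Y k) := fun k =>
      contDiff_of_tsupport C.isOpen_N (((hχ.of_le (by norm_num)).contDiffOn).mul
        ((contDiffOn_const.mul hpow).mul (hpd k))) ((hYs k).trans hs)
    have hYc : ∀ k, HasCompactSupport (Y k) := fun k => hc.mul_right
    let Z : Fin d → EuclideanSpace ℝ (Fin d) → ℝ := fun k y => Y k y + K1 * Y0 k y
    have hZ : ∀ k, ContDiff ℝ 1 (Z k) := fun k => (hY k).add (contDiff_const.mul (h0c1 k))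
    have hstrip := C.strip (Y := Z) hZ (fun k => (hYc k).add (h0cs k).mul_left)
      (fun k => (tsupport_add _ _).trans
        (union_subset ((hYs k).trans hs) (tsupport_mul_subset_right.trans (h0s k))))
      (fun x hxN _ => by
        simp only [Z, add_mul, Finset.sum_add_distrib, mul_assoc, ← Finset.mul_sum]
        by_cases hx : x ∈ tsupport χ
        · rw [h01 x hx, mul_one]
          have h3 : ∑ i, C.P i x ^ 2 ≤ |M3| := by
            have := hM3 x hx
            simp only [Real.norm_eq_abs, Pi.pow_apply] at this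
            linarith [le_abs_self (∑ i, C.P i x ^ 2), le_abs_self M3]
          have hcs := Finset.sum_mul_sq_le_sq_mul_sq Finset.univ
            (fun k => α * (C.sA x + ε) ^ (α - 1) * pd k C.sA x) (fun k => C.P k x)
          have hb : |∑ k, α * (C.sA x + ε) ^ (α - 1) * pd k C.sA x * C.P k x|
              ≤ Real.sqrt (α ^ 2 * Q) * Real.sqrt |M3| := by
            rw [← Real.sqrt_sq_eq_abs, ← Real.sqrt_mul' _ (abs_nonneg _)]
            refine Real.sqrt_le_sqrt (hcs.trans ?_)
            exact mul_le_mul (hgrad ε hε hε1 x hx) h3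
              (Finset.sum_nonneg fun i _ => sq_nonneg _)
              ((Finset.sum_nonneg fun i _ => sq_nonneg _).trans (hgrad ε hε hε1 x hx))
          have hχ5 : χ x ≤ |M5| := by
            have := hM5 x
            simp only [Real.norm_eq_abs] at this
            linarith [le_abs_self (χ x), le_abs_self M5]
          have heq : ∑ i, Y i x * C.P i x
              = χ x * ∑ k, α * (C.sA x + ε) ^ (α - 1) * pd k C.sA x * C.P k x := by
            rw [Finset.mul_sum]; exact Finset.sum_congr rfl fun k _ => by simp only [Y]; ring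
          rw [heq, hK1]
          have h4 := mul_le_mul hχ5 hb (abs_nonneg _) (abs_nonneg _)
          have h5 := neg_abs_le (∑ k, α * (C.sA x + ε) ^ (α - 1) * pd k C.sA x * C.P k x)
          have h6 := mul_le_mul_of_nonneg_left h5 (h0 x)
          nlinarith
        · have : ∀ i, Y i x = 0 := fun i => by simp [Y, image_eq_zero_of_notMem_tsupport hx]
          simp only [this, zero_mul, Finset.sum_const_zero, zero_add]
          exact mul_nonneg (by positivity) (h0nn x))
    have hdI : ∀ {W : Fin d → EuclideanSpace ℝ (Fin d) → ℝ}, (∀ i, ContDiff ℝ 1 (W i)) →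
        (∀ i, HasCompactSupport (W i)) → Integrable (dvg W) := fun hW hWc =>
      integrable_finsetSum _ fun i _ => (contDiff_pd (m := 0) (hW i) le_rfl).continuous
        |>.integrable_of_hasCompactSupport (hasCompactSupport_pd (hWc i))
    have hZd : dvg Z = fun x => dvg Y x + K1 * dvg Y0 x := by
      funext x
      simp only [dvg, Finset.mul_sum, ← Finset.sum_add_distrib]
      exact Finset.sum_congr rfl fun i _ => by
        rw [pd_add ((hY i).differentiable one_ne_zero x)
          (((h0c1 i).differentiable one_ne_zero x).const_mul K1),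
          pd_const_mul K1 ((h0c1 i).differentiable one_ne_zero x)]
    rw [hZd, integral_add (hdI hY hYc).integrableOn ((hdI h0c1 h0cs).const_mul K1).integrableOn,
      integral_const_mul] at hstrip
    have hcont : ContinuousOn (fun x => χ x * ((C.sA x + ε) ^ (α - 1) * C.sT x)) C.N :=
      hχ.continuous.continuousOn.mul (hpow.continuousOn.mul C.contDiffOn_sT.continuousOn)
    have hi : IntegrableOn (fun x => χ x * ((C.sA x + ε) ^ (α - 1) * C.sT x)) C.Ω := by
      have h1 : IntegrableOn (fun x => χ x * ((C.sA x + ε) ^ (α - 1) * C.sT x)) (tsupport χ) :=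
        (hcont.mono hs).integrableOn_compact hc
      refine (h1.integrable_indicator (isClosed_tsupport χ).measurableSet |>.congr
        (Eventually.of_forall fun x => ?_)).integrableOn
      by_cases hx : x ∈ tsupport χ
      · simp [hx]
      · simp [hx, image_eq_zero_of_notMem_tsupport hx]
    refine ⟨hi, ?_⟩
    have hlow : ∀ x ∈ C.Ω, 2 * α * (2 * α - 1) * (χ x * ((C.sA x + ε) ^ (α - 1) * C.sT x))
        - (tsupport χ).indicator (fun _ => K2) x ≤ dvg Y x := by
      intro x hx
      have hN := C.Ω_sub hx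
      have hsd : DifferentiableAt ℝ C.sA x := C.diffAt C.contDiffOn_sA hN (by simp)
      have hp1 : DifferentiableAt ℝ (fun y => (C.sA y + ε) ^ (α - 1)) x :=
        (hpow.contDiffAt (C.isOpen_N.mem_nhds hN)).differentiableAt one_ne_zero
      have hp2 : ∀ k, DifferentiableAt ℝ (pd k C.sA) x := fun k =>
        ((hpd k).contDiffAt (C.isOpen_N.mem_nhds hN)).differentiableAt one_ne_zero
      have hdp : ∀ k, pd k (fun y => (C.sA y + ε) ^ (α - 1)) x
          = (α - 1) * (C.sA x + ε) ^ (α - 2) * pd k C.sA x := fun k => by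
        have hh := Real.hasDerivAt_rpow_const (x := C.sA x + ε) (p := α - 1) (Or.inl (hposN x))
        rw [pd_comp (f := fun y => C.sA y + ε) (φ := fun s : ℝ => s ^ (α - 1)) hh.differentiableAt
          (hsd.add_const ε), hh.deriv,
          pd_add hsd (differentiableAt_const ε), pd_const, show α - 1 - 1 = α - 2 by ring]
        ring
      have hdY : dvg Y x = (∑ k, pd k χ x * (α * (C.sA x + ε) ^ (α - 1) * pd k C.sA x))
          + χ x * (α * (α - 1) * (C.sA x + ε) ^ (α - 2) * ∑ k, pd k C.sA x ^ 2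
            + α * (C.sA x + ε) ^ (α - 1) * (2 * C.sT x)) := by
        rw [← C.lap_sA hx]
        simp only [dvg, Finset.mul_sum, mul_add, ← Finset.sum_add_distrib]
        refine Finset.sum_congr rfl fun k _ => ?_
        simp only [Y]
        rw [pd_mul (hχ.differentiable two_ne_zero x) ((hp1.const_mul α).fun_mul (hp2 k)),
          pd_mul (hp1.const_mul α) (hp2 k), pd_const_mul α hp1, hdp]
        ring
      rw [hdY]
      have hpos : 0 < C.sA x + ε := by have := C.sA_nonneg x; linarith
      have e : (C.sA x + ε) ^ (α - 2) * (C.sA x + ε) = (C.sA x + ε) ^ (α - 1) := by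
        rw [← Real.rpow_add_one hpos.ne']; congr 1; ring
      have hq : 4 * α * (α - 1) * (C.sA x + ε) ^ (α - 1) * C.sT x
          ≤ α * (α - 1) * (C.sA x + ε) ^ (α - 2) * ∑ k, pd k C.sA x ^ 2 := by
        have h1 : ∑ k, pd k C.sA x ^ 2 ≤ 4 * (C.sA x + ε) * C.sT x := by
          have := C.pd_sA_sq hN
          nlinarith [C.sT_nonneg x]
        have h2 : α * (α - 1) * (C.sA x + ε) ^ (α - 2) ≤ 0 :=
          mul_nonpos_of_nonpos_of_nonneg (mul_nonpos_of_nonneg_of_nonpos (by linarith) (by linarith))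
            (Real.rpow_nonneg hpos.le _)
        refine le_trans (le_of_eq ?_) (mul_le_mul_of_nonpos_left h1 h2)
        rw [← e]; ring
      by_cases hxs : x ∈ tsupport χ
      · rw [indicator_of_mem hxs]
        have h4 : ∑ i, pd i χ x ^ 2 ≤ |M4| := by
          have := hM4 x hxs
          simp only [Real.norm_eq_abs] at this
          linarith [le_abs_self (∑ i, pd i χ x ^ 2), le_abs_self M4]
        have hcs := Finset.sum_mul_sq_le_sq_mul_sq Finset.univ
          (fun k => α * (C.sA x + ε) ^ (α - 1) * pd k C.sA x) (fun k => pd k χ x)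
        have hb : |∑ k, pd k χ x * (α * (C.sA x + ε) ^ (α - 1) * pd k C.sA x)| ≤ K2 := by
          rw [hK2, ← Real.sqrt_sq_eq_abs, ← Real.sqrt_mul' _ (abs_nonneg _)]
          refine Real.sqrt_le_sqrt ?_
          rw [Finset.sum_congr rfl fun k _ => mul_comm (pd k χ x) _]
          exact hcs.trans (mul_le_mul (hgrad ε hε hε1 x hxs) h4
            (Finset.sum_nonneg fun i _ => sq_nonneg _)
            ((Finset.sum_nonneg fun i _ => sq_nonneg _).trans (hgrad ε hε hε1 x hxs)))
        have h7 := neg_abs_le (∑ k, pd k χ x * (α * (C.sA x + ε) ^ (α - 1) * pd k C.sA x))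
        have h8 := mul_le_mul_of_nonneg_left (add_le_add hq (le_refl
          (α * (C.sA x + ε) ^ (α - 1) * (2 * C.sT x)))) (h0 x)
        nlinarith
      · rw [indicator_of_notMem hxs, image_eq_zero_of_notMem_tsupport hxs]
        have : ∀ k, pd k χ x = 0 := fun k => by
          rw [pd_congr (g := fun _ => (0 : ℝ)) (notMem_tsupport_iff_eventuallyEq.1 hxs), pd_const]
        simp [this]
    have hI2 : Integrable ((tsupport χ).indicator fun _ => K2) :=
      (integrableOn_const hc.measure_ne_top).integrable_indicator (isClosed_tsupport χ).measurableSet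
    have hmono := setIntegral_mono_on ((hi.const_mul _).sub hI2.integrableOn)
      (hdI hY hYc).integrableOn C.isOpen_Ω.measurableSet hlow
    simp only [Pi.sub_apply] at hmono
    rw [integral_sub (hi.const_mul _) hI2.integrableOn, integral_const_mul] at hmono
    have hI3 : ∫ x in C.Ω, (tsupport χ).indicator (fun _ => K2) x ≤ K2 * (volume (tsupport χ)).toReal := by
      refine (setIntegral_le_integral hI2 (Eventually.of_forall fun x =>
        indicator_nonneg (fun _ _ => by positivity) x)).trans (le_of_eq ?_)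
      rw [integral_indicator_const _ (isClosed_tsupport χ).measurableSet, smul_eq_mul, mul_comm]
      rfl
    have hK1n : 0 ≤ K1 := by positivity
    have := mul_le_mul_of_nonneg_left (neg_abs_le (∫ x in C.Ω, dvg Y0 x)) hK1n
    rw [hB, le_div_iff₀ hcd, hE0]
    linarith
  -- pass to the limit
  have hB0 : 0 ≤ B := by
    rw [hB]
    exact div_nonneg (by positivity) hcd.le
  let g : ℕ → EuclideanSpace ℝ (Fin d) → ℝ := fun n x =>
    χ x * ((C.sA x + 1 / (n + 1)) ^ (α - 1) * C.sT x)
  let g' : ℕ → EuclideanSpace ℝ (Fin d) → ℝ := fun n => {x | 0 < C.sA x}.indicator (g n)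
  have hm : ∀ {f : EuclideanSpace ℝ (Fin d) → ℝ}, ContinuousOn f C.N →
      AEMeasurable f (volume.restrict C.Ω) := fun hf =>
    ((hf.mono C.Ω_sub).aestronglyMeasurable C.isOpen_Ω.measurableSet).aemeasurable
  have hgm : AEStronglyMeasurable (fun x => χ x * (C.sA x ^ (α - 1) * C.sT x))
      (volume.restrict C.Ω) :=
    ((hm hχ.continuous.continuousOn).mul (((hm C.contDiffOn_sA.continuousOn).pow_const _).mul
      (hm C.contDiffOn_sT.continuousOn))).aestronglyMeasurable
  refine ⟨hgm, ?_⟩
  rw [hasFiniteIntegral_iff_norm]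
  have hn : ∀ n : ℕ, 0 < (1 : ℝ) / (n + 1) ∧ (1 : ℝ) / (n + 1) ≤ 1 := fun n =>
    ⟨by positivity, by
      rw [div_le_one (by positivity)]
      linarith [n.cast_nonneg (α := ℝ)]⟩
  have hgn : ∀ n x, 0 ≤ g n x := fun n x => mul_nonneg (h0 x)
    (mul_nonneg (Real.rpow_nonneg (by linarith [C.sA_nonneg x, (hn n).1]) _) (C.sT_nonneg x))
  calc ∫⁻ x in C.Ω, ENNReal.ofReal ‖χ x * (C.sA x ^ (α - 1) * C.sT x)‖
      ≤ ∫⁻ x in C.Ω, liminf (fun n => ENNReal.ofReal (g' n x)) atTop := by
        refine lintegral_mono fun x => ?_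
        by_cases hx : 0 < C.sA x
        · have h2 : Tendsto (fun n : ℕ => g' n x) atTop
              (𝓝 (χ x * (C.sA x ^ (α - 1) * C.sT x))) := by
            simp only [g', indicator_of_mem (show x ∈ {x | 0 < C.sA x} from hx), g]
            refine (Tendsto.mul_const _ ?_).const_mul _
            refine Tendsto.rpow_const ?_ (Or.inl hx.ne')
            simpa using (tendsto_const_nhds (x := C.sA x)).add
              (tendsto_one_div_add_atTop_nhds_zero_nat (𝕜 := ℝ))
          have h3 : Tendsto (fun n : ℕ => ENNReal.ofReal (g' n x)) atTop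
              (𝓝 (ENNReal.ofReal (χ x * (C.sA x ^ (α - 1) * C.sT x)))) :=
            (ENNReal.continuous_ofReal.tendsto _).comp h2
          rw [h3.liminf_eq, Real.norm_eq_abs,
            abs_of_nonneg (mul_nonneg (h0 x)
              (mul_nonneg (Real.rpow_nonneg (C.sA_nonneg x) _) (C.sT_nonneg x)))]
        · have h2 : C.sA x = 0 := le_antisymm (not_lt.1 hx) (C.sA_nonneg x)
          simp [h2, Real.zero_rpow (show α - 1 ≠ 0 by linarith)]
    _ ≤ liminf (fun n => ∫⁻ x in C.Ω, ENNReal.ofReal (g' n x)) atTop :=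
        lintegral_liminf_le' fun n => ((((hbound _ (hn n).1 (hn n).2).1).aestronglyMeasurable
          |>.aemeasurable).indicator₀ (nullMeasurableSet_lt aemeasurable_const
            (hm C.contDiffOn_sA.continuousOn))).ennreal_ofReal
    _ ≤ ENNReal.ofReal B := by
        refine liminf_le_of_le (by isBoundedDefault) fun b hb => ?_
        obtain ⟨n, hn'⟩ := hb.exists
        refine hn'.trans ((lintegral_mono fun x => ENNReal.ofReal_le_ofReal
          (indicator_le_self' (fun y _ => hgn n y) x)).trans ?_)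
        rw [← ofReal_integral_eq_lintegral_ofReal (hbound _ (hn n).1 (hn n).2).1
          (Eventually.of_forall fun x => hgn n x)]
        exact ENNReal.ofReal_le_ofReal (hbound _ (hn n).1 (hn n).2).2
    _ < ⊤ := ENNReal.ofReal_lt_top

end Cone

end Vale.Agent.P098
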