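import Vale.Agent.P098.Calc

/-! Second-order expansion of a determinant with a continuous remainder. -/

noncomputable section

namespace Vale.Agent.P098

open Filter Topology Matrix

variable {E : Type*} [TopologicalSpace E]

/-- Second-order expansion in the first variable with a continuous remainder. -/
def Exp2 (f : ℝ × E → ℝ) : Prop :=
  ∃ (a b : E → ℝ) (c : ℝ × E → ℝ), Continuous a ∧ Continuous b ∧ Continuous c ∧
    ∀ p, f p = a p.2 + p.1 * b p.2 + p.1 ^ 2 * c p

theorem Exp2.affine {a b : E → ℝ} (ha : Continuous a) (hb : Continuous b) :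
    Exp2 fun p : ℝ × E => a p.2 + p.1 * b p.2 :=
  ⟨a, b, fun _ => 0, ha, hb, continuous_const, fun p => by simp⟩

theorem Exp2.const (r : ℝ) : Exp2 fun _ : ℝ × E => r :=
  ⟨fun _ => r, fun _ => 0, fun _ => 0, continuous_const, continuous_const, continuous_const,
    fun p => by simp⟩

theorem Exp2.add {f g : ℝ × E → ℝ} (hf : Exp2 f) (hg : Exp2 g) : Exp2 fun p => f p + g p := by
  obtain ⟨a, b, c, ha, hb, hc, hf⟩ := hf
  obtain ⟨a', b', c', ha', hb', hc', hg⟩ := hg
  exact ⟨_, _, _, ha.add ha', hb.add hb', hc.add hc', fun p => by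
    simp only [hf, hg, Pi.add_apply]; ring⟩

theorem Exp2.mul {f g : ℝ × E → ℝ} (hf : Exp2 f) (hg : Exp2 g) : Exp2 fun p => f p * g p := by
  obtain ⟨a, b, c, ha, hb, hc, hf⟩ := hf
  obtain ⟨a', b', c', ha', hb', hc', hg⟩ := hg
  refine ⟨fun x => a x * a' x, fun x => a x * b' x + b x * a' x,
    fun p => a p.2 * c' p + b p.2 * b' p.2 + c p * a' p.2
      + p.1 * (b p.2 * c' p + c p * b' p.2) + p.1 ^ 2 * (c p * c' p),
    ha.mul ha', (ha.mul hb').add (hb.mul ha'), by fun_prop, fun p => ?_⟩
  simp only [hf, hg]; ring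

theorem Exp2.sum {ι : Type*} (s : Finset ι) {f : ι → ℝ × E → ℝ} (h : ∀ i ∈ s, Exp2 (f i)) :
    Exp2 fun p => ∑ i ∈ s, f i p := by
  classical
  induction s using Finset.induction with
  | empty => simpa using Exp2.const (E := E) 0
  | insert a s ha ih =>
    simp only [Finset.sum_insert ha]
    exact (h a (Finset.mem_insert_self a s)).add
      (ih fun i hi => h i (Finset.mem_insert_of_mem hi))

theorem Exp2.prod {ι : Type*} (s : Finset ι) {f : ι → ℝ × E → ℝ} (h : ∀ i ∈ s, Exp2 (f i)) :
    Exp2 fun p => ∏ i ∈ s, f i p := by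
  classical
  induction s using Finset.induction with
  | empty => simpa using Exp2.const (E := E) 1
  | insert a s ha ih =>
    simp only [Finset.prod_insert ha]
    exact (h a (Finset.mem_insert_self a s)).mul
      (ih fun i hi => h i (Finset.mem_insert_of_mem hi))

theorem det_exp_aux {n : ℕ} {B : E → Matrix (Fin n) (Fin n) ℝ} (hB : Continuous B) :
    ∃ c : ℝ × E → ℝ, Continuous c ∧
      ∀ p : ℝ × E, (1 + p.1 • B p.2).det = 1 + p.1 * (B p.2).trace + p.1 ^ 2 * c p := by
  have he : Exp2 fun p : ℝ × E => (1 + p.1 • B p.2).det := by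
    simp only [Matrix.det_apply']
    refine Exp2.sum _ fun σ _ => (Exp2.const _).mul (Exp2.prod _ fun i _ => ?_)
    simp only [Matrix.add_apply, Matrix.smul_apply, smul_eq_mul]
    exact Exp2.affine continuous_const (hB.matrix_elem _ _)
  obtain ⟨a, b, c, ha, hb, hc, h⟩ := he
  refine ⟨c, hc, fun p => ?_⟩
  obtain ⟨t, x⟩ := p
  have ha1 : a x = 1 := by simpa using (h (0, x)).symm
  obtain ⟨R, hR⟩ : ∃ R : ℝ → ℝ, Continuous R ∧ ∀ s : ℝ,
      (1 + s • B x).det = 1 + (B x).trace * s + R s * s ^ 2 :=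
    ⟨_, Polynomial.continuous _, fun s => Matrix.det_one_add_smul s (B x)⟩
  have hb1 : b x = (B x).trace := by
    have key : (fun s : ℝ => b x + s * c (s, x)) = fun s => (B x).trace + s * R s := by
      refine Continuous.ext_on (dense_compl_singleton (0 : ℝ))
        (continuous_const.add (continuous_id.mul (hc.comp (continuous_id.prodMk continuous_const))))
        (continuous_const.add (continuous_id.mul hR.1)) fun s hs => ?_
      have h1 := h (s, x)
      simp only [hR.2 s, ha1] at h1
      refine mul_left_cancel₀ (hs : s ≠ 0) ?_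
      linear_combination (-1 : ℝ) * h1
    simpa using congrFun key 0
  have := h (t, x)
  simp only [ha1, hb1] at this
  exact this

theorem det_exp {n : ℕ} {B : E → Matrix (Fin n) (Fin n) ℝ} (hB : Continuous B) :
    ∃ c : ℝ × E → ℝ, Continuous c ∧
      (∀ p : ℝ × E, (1 + p.1 • B p.2).det = 1 + p.1 * (B p.2).trace + p.1 ^ 2 * c p) ∧
      ∀ x, c (0, x) = ((B x).trace ^ 2 - (B x * B x).trace) / 2 := by
  obtain ⟨c, hc, h⟩ := det_exp_aux hB
  obtain ⟨c', hc', h'⟩ := det_exp_aux (B := fun x => -(B x * B x)) (hB.matrix_mul hB).neg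
  refine ⟨c, hc, h, fun x => ?_⟩
  set τ := (B x).trace
  have key : (fun t : ℝ => c (t, x) + c (-t, x) - τ ^ 2 + t * (τ * (c (-t, x) - c (t, x)))
      + t ^ 2 * (c (t, x) * c (-t, x))) = fun t => -(B x * B x).trace + t ^ 2 * c' (t ^ 2, x) := by
    refine Continuous.ext_on (dense_compl_singleton (0 : ℝ)) (by fun_prop) (by fun_prop)
      fun t ht => ?_
    have hM : (1 + t • B x) * (1 + (-t) • B x) = 1 + t ^ 2 • -(B x * B x) := by
      simp only [add_mul, mul_add, one_mul, mul_one, smul_mul_assoc, mul_smul_comm]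
      module
    have h1 := congrArg Matrix.det hM
    rw [Matrix.det_mul, h (t, x), h (-t, x), h' (t ^ 2, x)] at h1
    simp only [Matrix.trace_neg] at h1
    refine mul_left_cancel₀ (pow_ne_zero 2 (ht : t ≠ 0)) ?_
    linear_combination h1
  have := congrFun key 0
  simp at this
  linarith

end Vale.Agent.P098
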