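import Vale.Agent.P098.Cone

/-! The strip lemma: the sign of a flux on the free boundary controls the integral of the
divergence over the positivity set, without surface measure. -/

noncomputable section

namespace Vale.Agent.P098

open MeasureTheory Set Filter Topology
open scoped ContDiff

variable {d : ℕ}

/-- A smooth step: zero below `1/2`, one above `1`. -/
def step (s : ℝ) : ℝ := Real.smoothTransition (2 * s - 1)

theorem step_contDiff {n : ℕ∞} : ContDiff ℝ n step :=
  Real.smoothTransition.contDiff.comp (by fun_prop)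

theorem step_zero {s : ℝ} (h : s ≤ 1 / 2) : step s = 0 :=
  Real.smoothTransition.zero_of_nonpos (by linarith)

theorem step_one {s : ℝ} (h : 1 ≤ s) : step s = 1 :=
  Real.smoothTransition.one_of_one_le (by linarith)

theorem step_mem (s : ℝ) : step s ∈ Icc (0 : ℝ) 1 :=
  ⟨Real.smoothTransition.nonneg _, Real.smoothTransition.le_one _⟩

theorem step_mono : Monotone step := fun a b h =>
  Real.smoothTransition.monotone (by linarith)

theorem deriv_step_nonneg (s : ℝ) : 0 ≤ deriv step s := step_mono.deriv_nonneg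

theorem deriv_step_zero_of_one_lt {s : ℝ} (h : 1 < s) : deriv step s = 0 := by
  have : step =ᶠ[𝓝 s] fun _ => (1 : ℝ) :=
    eventually_of_mem (Ioi_mem_nhds h) fun t ht => step_one (le_of_lt ht)
  simp [this.deriv_eq]

namespace Cone

variable (C : Cone d)

/-- The cutoff vanishing on an `e`-strip at the free boundary. -/
def cut (e : ℝ) : EuclideanSpace ℝ (Fin d) → ℝ := C.Ω.indicator fun x => step (C.U x / e)

theorem cut_mul_contDiff {e : ℝ} (he : 0 < e) {f : EuclideanSpace ℝ (Fin d) → ℝ}
    (hf : ContDiff ℝ 1 f) (hs : tsupport f ⊆ C.N) :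
    ContDiff ℝ 1 (fun x => C.cut e x * f x) := by
  rw [contDiff_iff_contDiffAt]
  intro x
  by_cases hx : x ∈ C.Ω
  · have hev : (fun y => C.cut e y * f y) =ᶠ[𝓝 x] fun y => step (C.U y / e) * f y :=
      eventually_of_mem (C.isOpen_Ω.mem_nhds hx) fun y hy => by simp [cut, hy]
    refine ContDiffAt.congr_of_eventuallyEq ?_ hev
    have hU : ContDiffAt ℝ 1 C.U x := (C.smooth_at (C.Ω_sub hx)).of_le (by norm_num)
    exact (((step_contDiff (n := 1)).contDiffAt).comp x (hU.div_const e)).mul hf.contDiffAt
  · have hev : (fun y => C.cut e y * f y) =ᶠ[𝓝 x] fun _ => 0 := by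
      by_cases hxf : x ∈ tsupport f
      · have hxN := hs hxf
        by_cases hcl : x ∈ closure C.Ω
        · have hU0 : C.U x = 0 := by rw [C.U_eq hcl hxN, C.u_eq_zero hx]
          have hc : ∀ᶠ y in 𝓝 x, C.U y < e / 2 :=
            ((C.smooth_at hxN).continuousAt.tendsto).eventually
              (gt_mem_nhds (by rw [hU0]; linarith))
          filter_upwards [hc] with y hy
          simp only [cut]
          by_cases hyΩ : y ∈ C.Ω
          · rw [indicator_of_mem hyΩ, step_zero, zero_mul]
            rw [div_le_iff₀ he]; linarith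
          · simp [hyΩ]
        · filter_upwards [isClosed_closure.isOpen_compl.mem_nhds hcl] with y hy
          have : y ∉ C.Ω := fun h => hy (subset_closure h)
          simp [cut, this]
      · filter_upwards [notMem_tsupport_iff_eventuallyEq.1 hxf] with y hy
        simp [hy]
    exact contDiffAt_const.congr_of_eventuallyEq hev

theorem cut_aesm (e : ℝ) : AEStronglyMeasurable (C.cut e) volume :=
  (aestronglyMeasurable_indicator_iff C.isOpen_Ω.measurableSet).2
    (((step_contDiff (n := 1)).continuous.comp_continuousOn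
      ((C.smooth.continuousOn.mono C.Ω_sub).div_const _)).aestronglyMeasurable
        C.isOpen_Ω.measurableSet)

/-- The flux density on the strip. -/
def flux (e : ℝ) (Y : Fin d → EuclideanSpace ℝ (Fin d) → ℝ) (x : EuclideanSpace ℝ (Fin d)) : ℝ :=
  C.Ω.indicator (fun y => deriv step (C.U y / e) / e * ∑ i, Y i y * C.P i y) x

theorem integrable_comp_indicator {f : EuclideanSpace ℝ (Fin d) → ℝ} (hf : Continuous f)
    (hs : HasCompactSupport f) : Integrable (C.Ω.indicator f) :=
  (hf.integrable_of_hasCompactSupport hs).indicator C.isOpen_Ω.measurableSet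

theorem dvg_cut {e : ℝ} (he : 0 < e) {Y : Fin d → EuclideanSpace ℝ (Fin d) → ℝ}
    (hY : ∀ i, ContDiff ℝ 1 (Y i)) (hs : ∀ i, tsupport (Y i) ⊆ C.N)
    (x : EuclideanSpace ℝ (Fin d)) :
    dvg (fun i y => C.cut e y * Y i y) x = C.cut e x * dvg Y x + C.flux e Y x := by
  by_cases hx : x ∈ C.Ω
  · have hU : DifferentiableAt ℝ C.U x := C.diffAt C.smooth (C.Ω_sub hx) (by simp)
    have hst : DifferentiableAt ℝ (fun y => step (C.U y / e)) x :=
      DifferentiableAt.comp (g := step) (f := fun y => C.U y / e) x
        ((step_contDiff (n := 1)).differentiable one_ne_zero _) (by fun_prop)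
    have hev : ∀ i, (fun y => C.cut e y * Y i y) =ᶠ[𝓝 x] fun y => step (C.U y / e) * Y i y :=
      fun i => eventually_of_mem (C.isOpen_Ω.mem_nhds hx) fun y hy => by simp [cut, hy]
    rw [show C.cut e x = step (C.U x / e) by simp [cut, hx]]
    simp only [dvg, flux, indicator_of_mem hx, Finset.mul_sum, ← Finset.sum_add_distrib]
    refine Finset.sum_congr rfl fun i _ => ?_
    rw [pd_congr (hev i), pd_mul hst ((hY i).differentiable one_ne_zero x),
      pd_comp (f := fun y => C.U y / e) ((step_contDiff (n := 1)).differentiable one_ne_zero _)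
        (by fun_prop)]
    have : pd i (fun y => C.U y / e) x = C.P i x / e := by
      simp only [div_eq_inv_mul]
      exact pd_const_mul _ hU
    rw [this]
    ring
  · have hz : ∀ i, pd i (fun y => C.cut e y * Y i y) x = 0 := by
      intro i
      have hev : ∀ᶠ y in 𝓝 x, C.cut e y * Y i y = 0 := by
        by_cases hxf : x ∈ tsupport (Y i)
        · have hxN := hs i hxf
          by_cases hcl : x ∈ closure C.Ω
          · have hU0 : C.U x = 0 := by rw [C.U_eq hcl hxN, C.u_eq_zero hx]
            have hc : ∀ᶠ y in 𝓝 x, C.U y < e / 2 :=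
              ((C.smooth_at hxN).continuousAt.tendsto).eventually
                (gt_mem_nhds (by rw [hU0]; linarith))
            filter_upwards [hc] with y hy
            simp only [cut]
            by_cases hyΩ : y ∈ C.Ω
            · rw [indicator_of_mem hyΩ, step_zero, zero_mul]
              rw [div_le_iff₀ he]; linarith
            · simp [hyΩ]
          · filter_upwards [isClosed_closure.isOpen_compl.mem_nhds hcl] with y hy
            have : y ∉ C.Ω := fun h => hy (subset_closure h)
            simp [cut, this]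
        · filter_upwards [notMem_tsupport_iff_eventuallyEq.1 hxf] with y hy
          simp [hy]
      rw [pd_congr (g := fun _ => (0 : ℝ)) hev, pd_const]
    rw [show dvg (fun i y => C.cut e y * Y i y) x = 0 from Finset.sum_eq_zero fun i _ => hz i]
    simp [flux, cut, hx]

theorem step_ibp {e : ℝ} (he : 0 < e) {Y : Fin d → EuclideanSpace ℝ (Fin d) → ℝ}
    (hY : ∀ i, ContDiff ℝ 1 (Y i)) (hc : ∀ i, HasCompactSupport (Y i))
    (hs : ∀ i, tsupport (Y i) ⊆ C.N) :
    Integrable (C.flux e Y) ∧
      ∫ x, C.flux e Y x = - ∫ x, C.cut e x * dvg Y x := by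
  have hZ : ∀ i, ContDiff ℝ 1 (fun y => C.cut e y * Y i y) :=
    fun i => C.cut_mul_contDiff he (hY i) (hs i)
  have hZc : ∀ i, HasCompactSupport (fun y => C.cut e y * Y i y) := fun i => (hc i).mul_left
  have h0 := integral_dvg_eq_zero hZ hZc
  have hdc : Continuous (dvg Y) := by
    unfold dvg
    exact continuous_finsetSum _ fun i _ => (contDiff_pd (m := 0) (hY i) le_rfl).continuous
  have hi1 : Integrable (fun x => C.cut e x * dvg Y x) := by
    have hint : Integrable (dvg Y) := by
      unfold dvg
      exact integrable_finsetSum _ fun i _ => (contDiff_pd (m := 0) (hY i) le_rfl).continuous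
        |>.integrable_of_hasCompactSupport (hasCompactSupport_pd (hc i))
    refine hint.bdd_mul (c := 1) ?_ (Eventually.of_forall fun x => ?_)
    · exact C.cut_aesm e
    · rw [Real.norm_eq_abs, abs_le]
      by_cases hy : x ∈ C.Ω <;> simp [cut, hy]
      have := step_mem (C.U x / e)
      exact ⟨by linarith [this.1], this.2⟩
  have hi2 : Integrable (dvg (fun i y => C.cut e y * Y i y)) := by
    unfold dvg
    exact integrable_finsetSum _ fun i _ => (contDiff_pd (m := 0) (hZ i) le_rfl).continuous
      |>.integrable_of_hasCompactSupport (hasCompactSupport_pd (hZc i))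
  have hfl : C.flux e Y = fun x => dvg (fun i y => C.cut e y * Y i y) x - C.cut e x * dvg Y x := by
    funext x
    rw [C.dvg_cut he hY hs x]; ring
  rw [hfl]
  refine ⟨hi2.sub hi1, ?_⟩
  rw [integral_sub hi2 hi1, h0, zero_sub]

/-- A smooth field with unit flux against the gradient near a compact set. -/
theorem exists_unit_field {S : Set (EuclideanSpace ℝ (Fin d))} (hS : IsCompact S) (hSN : S ⊆ C.N) :
    ∃ Y : Fin d → EuclideanSpace ℝ (Fin d) → ℝ, (∀ i, ContDiff ℝ 1 (Y i)) ∧
      (∀ i, HasCompactSupport (Y i)) ∧ (∀ i, tsupport (Y i) ⊆ C.N) ∧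
      (∀ x, 0 ≤ ∑ i, Y i x * C.P i x) ∧ ∀ x ∈ S, ∑ i, Y i x * C.P i x = 1 := by
  obtain ⟨χ, hχ, hχc, hχN, hχ01, hχ1⟩ := exists_cutoff hS C.isOpen_N hSN
  refine ⟨fun i x => χ x * (C.P i x / gradSq C.U x), fun i => ?_, fun i => hχc.mul_right,
    fun i => (tsupport_mul_subset_left).trans hχN, fun x => ?_, fun x hx => ?_⟩
  · refine contDiff_of_tsupport C.isOpen_N ?_ ((tsupport_mul_subset_left).trans hχN)
    refine (hχ.of_le (WithTop.coe_le_coe.2 le_top)).contDiffOn.mul ?_
    refine ((C.contDiffOn_P i).of_le (by norm_num)).div ?_ C.grad_ne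
    exact ContDiffOn.sum fun j _ => ((C.contDiffOn_P j).of_le (by norm_num)).pow 2
  · by_cases hx : x ∈ C.N
    · have : ∑ i, χ x * (C.P i x / gradSq C.U x) * C.P i x = χ x := by
        rw [show ∑ i, χ x * (C.P i x / gradSq C.U x) * C.P i x
          = χ x / gradSq C.U x * ∑ i, C.P i x ^ 2 by
            rw [Finset.mul_sum]; exact Finset.sum_congr rfl fun i _ => by ring, ← C.gradSq_eq]
        field_simp [C.grad_ne x hx]
      rw [this]; exact (hχ01 x).1
    · have : χ x = 0 := by
        by_contra h
        exact hx (hχN (subset_tsupport _ h))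
      simp [this]
  · have hx1 : χ x = 1 := hχ1.self_of_nhdsSet x hx
    simp only [hx1, one_mul]
    rw [show ∑ i, C.P i x / gradSq C.U x * C.P i x = (∑ i, C.P i x ^ 2) / gradSq C.U x by
      rw [Finset.sum_div]; exact Finset.sum_congr rfl fun i _ => by ring, ← C.gradSq_eq]
    exact div_self (C.grad_ne x (hSN hx))

theorem tendsto_cut {f : EuclideanSpace ℝ (Fin d) → ℝ} (hf : Integrable f) :
    Tendsto (fun n : ℕ => ∫ x, C.cut (1 / (n + 1)) x * f x) atTop
      (𝓝 (∫ x in C.Ω, f x)) := by
  rw [← integral_indicator C.isOpen_Ω.measurableSet]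
  refine tendsto_integral_of_dominated_convergence (fun x => |f x|) (fun n => ?_) hf.abs
    (fun n => Eventually.of_forall fun x => ?_) (Eventually.of_forall fun x => ?_)
  · exact (C.cut_aesm _).mul hf.aestronglyMeasurable
  · rw [Real.norm_eq_abs, abs_mul]
    refine mul_le_of_le_one_left (abs_nonneg _) ?_
    by_cases hy : x ∈ C.Ω <;> simp [cut, hy]
    have := step_mem (C.U x / (n + 1 : ℝ)⁻¹)
    rw [abs_le]
    exact ⟨by simp at this; linarith [this.1], by simpa using this.2⟩
  · by_cases hx : x ∈ C.Ω
    · have hpos : 0 < C.U x := by rw [C.eq_u x hx]; exact hx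
      refine tendsto_const_nhds.congr' ?_
      obtain ⟨m, hm⟩ := exists_nat_gt (1 / C.U x)
      filter_upwards [eventually_ge_atTop m] with n hn
      simp only [cut, indicator_of_mem hx]
      rw [step_one, one_mul]
      rw [le_div_iff₀ (by positivity), one_mul, div_le_iff₀ (by positivity)]
      rw [div_lt_iff₀ hpos] at hm
      have : (m : ℝ) ≤ n := by exact_mod_cast hn
      nlinarith
    · simp [cut, hx]

/-- **Strip lemma.** A field whose flux is nonnegative on the free boundary has nonpositive
divergence integral over the positivity set. -/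
theorem strip {Y : Fin d → EuclideanSpace ℝ (Fin d) → ℝ}
    (hY : ∀ i, ContDiff ℝ 1 (Y i)) (hc : ∀ i, HasCompactSupport (Y i))
    (hs : ∀ i, tsupport (Y i) ⊆ C.N)
    (hb : ∀ x ∈ C.N, x ∈ frontier C.Ω → 0 ≤ ∑ i, Y i x * C.P i x) :
    ∫ x in C.Ω, dvg Y x ≤ 0 := by
  classical
  set S : Set (EuclideanSpace ℝ (Fin d)) := ⋃ i, tsupport (Y i) with hSdef
  have hS : IsCompact S := isCompact_iUnion fun i => hc i
  have hSN : S ⊆ C.N := iUnion_subset hs
  obtain ⟨Y0, h0, h0c, h0s, h0nn, h01⟩ := C.exists_unit_field hS hSN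
  have hd0 : Integrable (dvg Y0) := by
    unfold dvg
    exact integrable_finsetSum _ fun i _ => (contDiff_pd (m := 0) (h0 i) le_rfl).continuous
      |>.integrable_of_hasCompactSupport (hasCompactSupport_pd (h0c i))
  have hd : Integrable (dvg Y) := by
    unfold dvg
    exact integrable_finsetSum _ fun i _ => (contDiff_pd (m := 0) (hY i) le_rfl).continuous
      |>.integrable_of_hasCompactSupport (hasCompactSupport_pd (hc i))
  have hlim := C.tendsto_cut hd
  have hlim0 := C.tendsto_cut hd0
  have key : ∀ η : ℝ, 0 < η → ∀ᶠ n : ℕ in atTop,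
      ∫ x, C.cut (1 / (n + 1)) x * dvg Y x ≤ η * -∫ x, C.cut (1 / (n + 1)) x * dvg Y0 x := by
    intro η hη
    set B := closure C.Ω ∩ S ∩ (fun x => ∑ i, Y i x * C.P i x) ⁻¹' Iic (-η) with hB
    have hcont : ContinuousOn (fun x => ∑ i, Y i x * C.P i x) C.N :=
      continuousOn_finsetSum _ fun i _ =>
        (hY i).continuous.continuousOn.mul (C.contDiffOn_P i).continuousOn
    have hBc : IsCompact B :=
      hS.of_isClosed_subset
        (((hcont.mono hSN).mono inter_subset_right).preimage_isClosed_of_isClosed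
          (isClosed_closure.inter hS.isClosed) isClosed_Iic)
        (inter_subset_left.trans inter_subset_right)
    have hpos : ∀ x ∈ B, 0 < C.U x := by
      rintro x ⟨⟨hxc, hxS⟩, hx⟩
      by_cases hxΩ : x ∈ C.Ω
      · rw [C.eq_u x hxΩ]; exact hxΩ
      · have := hb x (hSN hxS) (C.mem_frontier hxc hxΩ)
        simp at hx
        linarith
    obtain ⟨m, hm0, hm⟩ : ∃ m : ℝ, 0 < m ∧ ∀ x ∈ B, m ≤ C.U x :=
      hBc.exists_forall_le' (C.smooth.continuousOn.mono fun x hx => hSN hx.1.2) hpos
    obtain ⟨k, hk⟩ := exists_nat_gt (1 / m)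
    filter_upwards [eventually_ge_atTop k] with n hn
    have he : (0 : ℝ) < 1 / (n + 1) := by positivity
    have hem : (1 : ℝ) / (n + 1) < m := by
      rw [div_lt_iff₀ (by positivity)]
      rw [div_lt_iff₀ hm0] at hk
      have : (k : ℝ) ≤ n := by exact_mod_cast hn
      nlinarith
    obtain ⟨hi, hI⟩ := C.step_ibp he hY hc hs
    obtain ⟨hi0, hI0⟩ := C.step_ibp he h0 h0c h0s
    have hle : ∫ x, -C.flux (1 / (n + 1)) Y x ≤ ∫ x, η * C.flux (1 / (n + 1)) Y0 x := by
      refine integral_mono hi.neg (hi0.const_mul η) fun x => ?_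
      simp only [flux]
      by_cases hx : x ∈ C.Ω
      · simp only [indicator_of_mem hx]
        have hnn : 0 ≤ deriv step (C.U x / (1 / (n + 1))) / (1 / (n + 1)) :=
          div_nonneg (deriv_step_nonneg _) he.le
        set D := deriv step (C.U x / (1 / (n + 1))) / (1 / (n + 1))
        by_cases hxS : x ∈ S
        · rw [h01 x hxS, mul_one]
          by_cases hU : C.U x ≤ 1 / (n + 1)
          · have : -η < ∑ i, Y i x * C.P i x := by
              by_contra hcon
              have := hm x ⟨⟨subset_closure hx, hxS⟩, not_lt.1 hcon⟩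
              linarith
            nlinarith
          · have : D = 0 := by
              simp only [D]
              rw [deriv_step_zero_of_one_lt, zero_div]
              rw [one_lt_div he]; linarith
            simp [this]
        · have : ∀ i, Y i x = 0 := fun i => by_contra fun h =>
            hxS (mem_iUnion.2 ⟨i, subset_tsupport _ h⟩)
          simp only [this, zero_mul, Finset.sum_const_zero, mul_zero, neg_zero]
          exact mul_nonneg hη.le (mul_nonneg hnn (h0nn x))
      · simp [hx]
    rw [integral_neg, integral_const_mul, hI, hI0] at hle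
    simpa using hle
  refine le_of_forall_pos_le_add fun η hη => ?_
  set M := |∫ x in C.Ω, dvg Y0 x| + 1 with hM
  have hMpos : 0 < M := by positivity
  have h2 : Tendsto (fun n : ℕ => η / M * -∫ x, C.cut (1 / (n + 1)) x * dvg Y0 x) atTop
      (𝓝 (η / M * -∫ x in C.Ω, dvg Y0 x)) := (hlim0.neg).const_mul _
  have h3 := le_of_tendsto_of_tendsto hlim h2 (key (η / M) (by positivity))
  refine h3.trans ?_
  rw [zero_add, div_mul_eq_mul_div, div_le_iff₀ hMpos]
  have := neg_le_abs (∫ x in C.Ω, dvg Y0 x)
  nlinarith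

/-- A field tangent to the free boundary has vanishing divergence integral. -/
theorem strip_eq {Y : Fin d → EuclideanSpace ℝ (Fin d) → ℝ}
    (hY : ∀ i, ContDiff ℝ 1 (Y i)) (hc : ∀ i, HasCompactSupport (Y i))
    (hs : ∀ i, tsupport (Y i) ⊆ C.N)
    (hb : ∀ x ∈ C.N, x ∈ frontier C.Ω → ∑ i, Y i x * C.P i x = 0) :
    ∫ x in C.Ω, dvg Y x = 0 := by
  refine le_antisymm (C.strip hY hc hs fun x h1 h2 => (hb x h1 h2).ge) ?_
  have := C.strip (Y := fun i x => -Y i x) (fun i => (hY i).neg) (fun i => (hc i).neg)
    (fun i => by simpa [tsupport, Function.support_fun_neg] using hs i)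
    (fun x h1 h2 => by simp [Finset.sum_neg_distrib, hb x h1 h2])
  have hd : (fun x => dvg (fun i x => -Y i x) x) = fun x => -dvg Y x := by
    funext x; simp [dvg, pd_neg]
  rw [hd, integral_neg] at this
  linarith

end Cone

end Vale.Agent.P098
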