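import Vale.Agent.P098.Identity
import Vale.Agent.P098.Strip
import Vale.Agent.P098.Expand

/-! Minimality against inner variations gives the stability inequality. -/

noncomputable section

namespace Vale.Agent.P098

open MeasureTheory Set Filter Topology Matrix
open scoped ContDiff NNReal

variable {d : ℕ}

namespace Cone

variable {C : Cone d} {X : Fin d → EuclideanSpace ℝ (Fin d) → ℝ}

/-- Jacobian matrix of a field. -/
def bMat (X : Fin d → EuclideanSpace ℝ (Fin d) → ℝ) (x : EuclideanSpace ℝ (Fin d)) :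
    Matrix (Fin d) (Fin d) ℝ := Matrix.of fun i j => bX X i j x

/-- Gradient of the pulled back solution. -/
def qVec (C : Cone d) (X : Fin d → EuclideanSpace ℝ (Fin d) → ℝ)
    (p : ℝ × EuclideanSpace ℝ (Fin d)) : Fin d → ℝ :=
  (fun i => C.P i p.2) ᵥ* (1 + p.1 • bMat X p.2)⁻¹

/-- Transformed energy density. -/
def dens (C : Cone d) (X : Fin d → EuclideanSpace ℝ (Fin d) → ℝ)
    (p : ℝ × EuclideanSpace ℝ (Fin d)) : ℝ :=
  (∑ j, qVec C X p j ^ 2 + 1) * (1 + p.1 • bMat X p.2).det

theorem continuous_bMat (hX : ∀ i, ContDiff ℝ 2 (X i)) : Continuous (bMat X) :=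
  continuous_matrix fun i j => (contDiff_pd (m := 1) (hX i) (by norm_num)).continuous

theorem bMat_zero {x : EuclideanSpace ℝ (Fin d)} (hx : ∀ i, x ∉ tsupport (X i)) :
    bMat X x = 0 := by
  ext i j
  show pd j (X i) x = 0
  rw [pd_congr (g := fun _ => (0 : ℝ)) (notMem_tsupport_iff_eventuallyEq.1 (hx i)), pd_const]

theorem dens_zero (x : EuclideanSpace ℝ (Fin d)) : dens C X (0, x) = gradSq C.U x + 1 := by
  simp [dens, qVec, C.gradSq_eq]

theorem dens_expand (hX : ∀ i, ContDiff ℝ 2 (X i)) :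
    ∃ H : ℝ × EuclideanSpace ℝ (Fin d) → ℝ,
      ContinuousOn H {p | p.2 ∈ C.N ∧ (1 + p.1 • bMat X p.2).det ≠ 0
        ∧ (1 + (-p.1) • bMat X p.2).det ≠ 0} ∧
      (∀ p : ℝ × EuclideanSpace ℝ (Fin d), (1 + p.1 • bMat X p.2).det ≠ 0 →
        (1 + (-p.1) • bMat X p.2).det ≠ 0 →
        dens C X p + dens C X (-p.1, p.2) - 2 * dens C X (0, p.2) = p.1 ^ 2 * H p) ∧
      ∀ x, H (0, x) = 2 * C.secondVar X x := by
  obtain ⟨e, he, hdet, he0⟩ := det_exp (continuous_bMat hX)
  let pb : EuclideanSpace ℝ (Fin d) → Fin d → ℝ := fun x => (fun i => C.P i x) ᵥ* bMat X x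
  let rv : ℝ × EuclideanSpace ℝ (Fin d) → Fin d → ℝ := fun p =>
    (qVec C X p ᵥ* bMat X p.2) ᵥ* bMat X p.2
  let a : EuclideanSpace ℝ (Fin d) → ℝ := fun x => ∑ i, C.P i x ^ 2 + 1
  let b : EuclideanSpace ℝ (Fin d) → ℝ := fun x => -2 * ∑ i, C.P i x * pb x i
  let c : ℝ × EuclideanSpace ℝ (Fin d) → ℝ := fun p => ∑ i, (2 * (C.P i p.2 * rv p i)
    + pb p.2 i ^ 2 - 2 * p.1 * (pb p.2 i * rv p i) + p.1 ^ 2 * rv p i ^ 2)
  let m : ℝ × EuclideanSpace ℝ (Fin d) → ℝ × EuclideanSpace ℝ (Fin d) := fun p => (-p.1, p.2)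
  refine ⟨fun p => c p + c (m p) + a p.2 * (e p + e (m p)) + 2 * b p.2 * (bMat X p.2).trace
    + p.1 * (b p.2 * (e p - e (m p)) + (bMat X p.2).trace * (c p - c (m p)))
    + p.1 ^ 2 * (c p * e p + c (m p) * e (m p)), ?_, ?_, ?_⟩
  · have hPc : ∀ i, ContinuousOn (fun p : ℝ × EuclideanSpace ℝ (Fin d) => C.P i p.2)
        {p | p.2 ∈ C.N} := fun i =>
      (C.contDiffOn_P i).continuousOn.comp continuous_snd.continuousOn fun p hp => hp
    have hBc : ∀ i j, Continuous fun p : ℝ × EuclideanSpace ℝ (Fin d) => bMat X p.2 i j :=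
      fun i j => ((continuous_bMat hX).matrix_elem i j).comp continuous_snd
    set D := {p : ℝ × EuclideanSpace ℝ (Fin d) | p.2 ∈ C.N ∧ (1 + p.1 • bMat X p.2).det ≠ 0
        ∧ (1 + (-p.1) • bMat X p.2).det ≠ 0} with hD
    have hM : Continuous fun p : ℝ × EuclideanSpace ℝ (Fin d) => 1 + p.1 • bMat X p.2 :=
      continuous_const.add (continuous_fst.smul ((continuous_bMat hX).comp continuous_snd))
    have hq : ∀ j, ContinuousOn (fun p => qVec C X p j)
        {p | p.2 ∈ C.N ∧ (1 + p.1 • bMat X p.2).det ≠ 0} := fun j => by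
      have : ∀ p, qVec C X p j = ∑ i, C.P i p.2 *
          ((1 + p.1 • bMat X p.2).det⁻¹ * (1 + p.1 • bMat X p.2).adjugate i j) := fun p => by
        simp [qVec, Matrix.vecMul, dotProduct, Matrix.inv_def, Ring.inverse_eq_inv']
      simp only [this]
      exact continuousOn_finsetSum _ fun i _ => ((hPc i).mono fun p hp => hp.1).mul
        ((hM.matrix_det.continuousOn.inv₀ fun p hp => hp.2).mul
          (hM.matrix_adjugate.matrix_elem i j).continuousOn)
    have hrv : ∀ j, ContinuousOn (fun p => rv p j)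
        {p | p.2 ∈ C.N ∧ (1 + p.1 • bMat X p.2).det ≠ 0} := fun j => by
      simp only [rv, Matrix.vecMul, dotProduct]
      exact continuousOn_finsetSum _ fun i _ => (continuousOn_finsetSum _ fun l _ =>
        (hq l).mul (hBc l i).continuousOn).mul (hBc i j).continuousOn
    have hpb : ∀ j, ContinuousOn (fun p : ℝ × EuclideanSpace ℝ (Fin d) => pb p.2 j) D := fun j => by
      simp only [pb, Matrix.vecMul, dotProduct]
      exact continuousOn_finsetSum _ fun i _ =>
        ((hPc i).mono fun p hp => hp.1).mul (hBc i j).continuousOn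
    have hP' : ∀ i, ContinuousOn (fun p : ℝ × EuclideanSpace ℝ (Fin d) => C.P i p.2) D :=
      fun i => (hPc i).mono fun p hp => hp.1
    have hm : Continuous m := (continuous_fst.neg).prodMk continuous_snd
    have hcD : ContinuousOn c D := continuousOn_finsetSum _ fun i _ =>
      ((((continuousOn_const.mul ((hP' i).mul ((hrv i).mono fun p hp => ⟨hp.1, hp.2.1⟩))).add
        ((hpb i).pow 2)).sub ((continuousOn_const.mul continuous_fst.continuousOn).mul
          ((hpb i).mul ((hrv i).mono fun p hp => ⟨hp.1, hp.2.1⟩)))).add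
        ((continuous_fst.continuousOn.pow 2).mul
          (((hrv i).mono fun p hp => ⟨hp.1, hp.2.1⟩).pow 2)))
    have hcm : ContinuousOn (fun p => c (m p)) D :=
      hcD.comp hm.continuousOn fun p hp => ⟨hp.1, hp.2.2, by simpa [m] using hp.2.1⟩
    have haD : ContinuousOn (fun p : ℝ × EuclideanSpace ℝ (Fin d) => a p.2) D :=
      (continuousOn_finsetSum _ fun i _ => (hP' i).pow 2).add continuousOn_const
    have hbD : ContinuousOn (fun p : ℝ × EuclideanSpace ℝ (Fin d) => b p.2) D :=
      continuousOn_const.mul (continuousOn_finsetSum _ fun i _ => (hP' i).mul (hpb i))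
    have htD : ContinuousOn (fun p : ℝ × EuclideanSpace ℝ (Fin d) => (bMat X p.2).trace) D :=
      ((continuous_bMat hX).comp continuous_snd).matrix_trace.continuousOn
    have heD : ContinuousOn e D := he.continuousOn
    have hemD : ContinuousOn (fun p => e (m p)) D := (he.comp hm).continuousOn
    exact (((((hcD.add hcm).add (haD.mul (heD.add hemD))).add
      ((continuousOn_const.mul hbD).mul htD)).add (continuous_fst.continuousOn.mul
        ((hbD.mul (heD.sub hemD)).add (htD.mul (hcD.sub hcm))))).add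
      ((continuous_fst.continuousOn.pow 2).mul ((hcD.mul heD).add (hcm.mul hemD))))
  · intro p h1 h2
    have key : ∀ s x, (1 + s • bMat X x).det ≠ 0 →
        ∑ j, qVec C X (s, x) j ^ 2 + 1 = a x + s * b x + s ^ 2 * c (s, x) := by
      intro s x hs
      have hq : qVec C X (s, x) ᵥ* (1 + s • bMat X x) = fun i => C.P i x := by
        simp only [qVec, Matrix.vecMul_vecMul]
        rw [Matrix.nonsing_inv_mul _ (isUnit_iff_ne_zero.2 hs), Matrix.vecMul_one]
      rw [Matrix.vecMul_add, Matrix.vecMul_one, Matrix.vecMul_smul] at hq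
      have hqB : qVec C X (s, x) ᵥ* bMat X x = pb x - s • rv (s, x) := by
        simp only [pb, rv]
        rw [← hq, Matrix.add_vecMul, Matrix.smul_vecMul]
        simp
      have hq' : ∀ i, qVec C X (s, x) i = C.P i x - s * pb x i + s ^ 2 * rv (s, x) i := fun i => by
        have e1 := congrFun hq i
        have e2 := congrFun hqB i
        simp only [Pi.add_apply, Pi.sub_apply, Pi.smul_apply, smul_eq_mul] at e1 e2
        linear_combination e1 - s * e2
      simp only [a, b, c, hq']
      simp only [Finset.mul_sum, ← Finset.sum_add_distrib, add_right_comm _ (1 : ℝ)]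
      congr 1
      exact Finset.sum_congr rfl fun i _ => by ring
    obtain ⟨t, x⟩ := p
    have h0 : dens C X (0, x) = a x := by rw [dens_zero, C.gradSq_eq]
    rw [h0, dens, dens, key t x h1, key (-t) x h2, hdet (t, x), hdet (-t, x)]
    simp only [m]
    ring
  · intro x
    have hq0 : qVec C X (0, x) = fun i => C.P i x := by simp [qVec]
    have hpb : ∀ j, pb x j = C.rX X j x := fun j => by
      simp only [pb, rX, Matrix.vecMul, dotProduct, bMat, Matrix.of_apply]
      exact Finset.sum_congr rfl fun i _ => mul_comm _ _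
    have hr : ∑ i, C.P i x * rv (0, x) i = ∑ i, C.rX X i x * C.qX X i x := by
      simp only [rv, hq0]
      have : ∀ i, ((fun i => C.P i x) ᵥ* bMat X x) i = C.rX X i x := hpb
      rw [show (fun i => C.P i x) ᵥ* bMat X x = fun i => C.rX X i x from funext this]
      simp only [Matrix.vecMul, dotProduct, qX, bMat, Matrix.of_apply, Finset.mul_sum]
      rw [Finset.sum_comm]
      exact Finset.sum_congr rfl fun i _ => Finset.sum_congr rfl fun j _ => by ring
    have hc0 : c (0, x) = 2 * ∑ i, C.rX X i x * C.qX X i x + ∑ i, C.rX X i x ^ 2 := by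
      simp only [c, hpb, Finset.sum_add_distrib, mul_zero, zero_mul, Finset.sum_sub_distrib,
        sub_zero, zero_pow two_ne_zero, add_zero, ← Finset.mul_sum, hr]
    have hb : b x = -2 * ∑ i, C.P i x * C.qX X i x := by
      simp only [b, hpb, rX, qX, Finset.mul_sum]
      rw [Finset.sum_comm]
      exact Finset.sum_congr rfl fun i _ => Finset.sum_congr rfl fun j _ => by ring
    have htB : (bMat X x).trace = trX X x := rfl
    have htB2 : (bMat X x * bMat X x).trace = ∑ i, ∑ j, bX X i j x * bX X j i x := rfl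
    simp only [m, neg_zero, hc0, hb, he0, htB, htB2, a, secondVar, C.gradSq_eq]
    ring

/-- The variation map. -/
def phi (X : Fin d → EuclideanSpace ℝ (Fin d) → ℝ) (t : ℝ) (x : EuclideanSpace ℝ (Fin d)) :
    EuclideanSpace ℝ (Fin d) :=
  x + t • WithLp.toLp 2 (fun i => X i x)

theorem phi_eq_self {t : ℝ} {x : EuclideanSpace ℝ (Fin d)} (hx : ∀ i, x ∉ tsupport (X i)) :
    phi X t x = x := by
  have : (fun i => X i x) = 0 := funext fun i => image_eq_zero_of_notMem_tsupport (hx i)
  simp [phi, this]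

theorem gradSq_congr {f g : EuclideanSpace ℝ (Fin d) → ℝ} {x : EuclideanSpace ℝ (Fin d)}
    (h : f =ᶠ[𝓝 x] g) : gradSq f x = gradSq g x :=
  Finset.sum_congr rfl fun i _ => by rw [pd_congr h]

theorem gradSq_of_min {f : EuclideanSpace ℝ (Fin d) → ℝ} {x : EuclideanSpace ℝ (Fin d)}
    (h0 : ∀ y, 0 ≤ f y) (hx : f x = 0) : gradSq f x = 0 := by
  have : IsLocalMin f x := Eventually.of_forall fun y => hx ▸ h0 y
  simp [gradSq, pd, this.fderiv_eq_zero]

theorem energy_u (C : Cone d) (R : ℝ) :
    energy C.u 0 R = ∫ x in Metric.ball 0 R ∩ C.Ω, (gradSq C.U x + 1) := by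
  rw [energy, ← setIntegral_indicator C.isOpen_Ω.measurableSet]
  refine setIntegral_congr_fun measurableSet_ball fun x _ => ?_
  by_cases hx : x ∈ C.Ω
  · have hev : C.u =ᶠ[𝓝 x] C.U :=
      eventually_of_mem (C.isOpen_Ω.mem_nhds hx) fun y hy => (C.eq_u y hy).symm
    rw [indicator_of_mem hx, indicator_of_mem (show x ∈ {y | 0 < C.u y} from hx), gradSq_congr hev]
  · rw [indicator_of_notMem hx, indicator_of_notMem (show x ∉ {y | 0 < C.u y} from hx),
      gradSq_of_min C.nonneg (C.u_eq_zero hx), add_zero]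

theorem energy_competitor (hmin : LipMin C.u) (hX : ∀ i, ContDiff ℝ 2 (X i))
    (hc : ∀ i, HasCompactSupport (X i)) (hs : ∀ i, tsupport (X i) ⊆ C.N) {R : ℝ}
    (hR : ∀ i, tsupport (X i) ⊆ Metric.ball 0 R) {K : ℝ≥0}
    (hK : LipschitzWith K fun x => WithLp.toLp 2 (fun i => X i x) (V := Fin d → ℝ)) {t : ℝ}
    (ht : |t| * K < 1) (hdet : ∀ x, 0 < (1 + t • bMat X x).det) :
    ∫ x in Metric.ball 0 R ∩ C.Ω, dens C X (0, x) ≤
      ∫ x in Metric.ball 0 R ∩ C.Ω, dens C X (t, x) := by
  classical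
  set V : EuclideanSpace ℝ (Fin d) → EuclideanSpace ℝ (Fin d) :=
    fun x => WithLp.toLp 2 (fun i => X i x) with hVdef
  have hlow : ∀ x y, (1 - |t| * K) * dist x y ≤ dist (phi X t x) (phi X t y) := fun x y => by
    have hL := hK.dist_le_mul x y
    have h1 : x - y = (phi X t x - phi X t y) - t • (V x - V y) := by
      simp only [phi, V, smul_sub]; abel
    have h2 : ‖x - y‖ ≤ ‖phi X t x - phi X t y‖ + |t| * ‖V x - V y‖ := by
      rw [h1]; exact (norm_sub_le _ _).trans_eq (by rw [norm_smul, Real.norm_eq_abs])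
    simp only [dist_eq_norm] at hL ⊢
    have := mul_le_mul_of_nonneg_left hL (abs_nonneg t)
    linarith
  have h1K : 0 < 1 - |t| * K := by linarith
  have hinj : Function.Injective (phi X t) := fun x y h => by
    have := hlow x y
    rw [h, dist_self] at this
    exact dist_le_zero.1 (nonpos_of_mul_nonpos_right this h1K)
  have hsur : Function.Surjective (phi X t) := fun y => by
    have hct : ContractingWith (‖t‖₊ * K) fun z => y - t • V z := by
      refine ⟨by rw [← NNReal.coe_lt_coe]; simpa using ht, LipschitzWith.of_dist_le_mul fun a b => ?_⟩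
      rw [dist_eq_norm, show y - t • V a - (y - t • V b) = t • (V b - V a) by rw [smul_sub]; abel,
        norm_smul, NNReal.coe_mul, coe_nnnorm, mul_assoc]
      refine mul_le_mul_of_nonneg_left ?_ (norm_nonneg _)
      rw [norm_sub_rev, ← dist_eq_norm]
      exact hK.dist_le_mul a b
    refine ⟨hct.fixedPoint _, ?_⟩
    have := hct.fixedPoint_isFixedPt
    simp only [Function.IsFixedPt] at this
    simp only [phi]
    conv_lhs => arg 1; rw [← this]
    simp [V]
  let σ := Function.surjInv hsur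
  have hσ : ∀ y, phi X t (σ y) = y := Function.surjInv_eq hsur
  have hσ' : ∀ x, σ (phi X t x) = x := fun x => hinj (hσ _)
  have hσL : LipschitzWith (Real.toNNReal (1 / (1 - |t| * K))) σ :=
    LipschitzWith.of_dist_le_mul fun a b => by
      rw [Real.coe_toNNReal _ (by positivity), div_mul_eq_mul_div, le_div_iff₀ h1K, one_mul,
        mul_comm]
      exact (hlow _ _).trans_eq (by rw [hσ, hσ])
  set S : Set (EuclideanSpace ℝ (Fin d)) := ⋃ i, tsupport (X i) with hSdef
  have hfix : ∀ x, x ∉ S → phi X t x = x := fun x hx =>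
    phi_eq_self fun i h => hx (mem_iUnion.2 ⟨i, h⟩)
  have hSball : S ⊆ Metric.ball 0 R := iUnion_subset hR
  obtain ⟨Ku, hKu⟩ := C.lipschitz_u
  let v : EuclideanSpace ℝ (Fin d) → ℝ := fun y => C.u (σ y)
  have hmain := hmin 0 R v ⟨_, hKu.comp hσL⟩ (fun y => C.nonneg _) S
    (isCompact_iUnion fun i => hc i)
    (fun y hy => ⟨hSball hy, fun h0 => C.zero_notMem (by
      obtain ⟨i, hi⟩ := mem_iUnion.1 hy
      rw [mem_singleton_iff.1 h0] at hi
      exact hs i hi)⟩)
    (fun y hy => by
      have : σ y = y := by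
        conv_lhs => rw [← hfix y hy]
        rw [hσ']
      simp [v, this])
  have himg : phi X t '' Metric.ball 0 R = Metric.ball 0 R := by
    refine Subset.antisymm ?_ ?_
    · rintro _ ⟨x, hx, rfl⟩
      by_contra hcon
      have : phi X t (phi X t x) = phi X t x := hfix _ fun h => hcon (hSball h)
      rw [hinj this] at hcon
      exact hcon hx
    · intro y hy
      refine ⟨σ y, ?_, hσ y⟩
      by_contra hcon
      have := hfix _ fun h => hcon (hSball h)
      rw [hσ] at this
      exact hcon (this ▸ hy)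
  have hXd : ∀ x i, DifferentiableAt ℝ (X i) x := fun x i => (hX i).differentiable two_ne_zero x
  have hVd : ∀ x, HasFDerivAt (phi X t) (fderiv ℝ (phi X t) x) x := fun x => by
    have hV : DifferentiableAt ℝ V x := (differentiableAt_euclidean).2 (hXd x)
    have : DifferentiableAt ℝ (fun z => z + t • V z) x := differentiableAt_id.add (hV.const_smul t)
    exact this.hasFDerivAt
  have hentry : ∀ x i j, fderiv ℝ (phi X t) x (EuclideanSpace.single j 1) i
      = (1 + t • bMat X x) i j := fun x i j => by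
    have h1 : HasFDerivAt (fun z => phi X t z i)
        ((EuclideanSpace.proj (𝕜 := ℝ) (ι := Fin d) i).comp (fderiv ℝ (phi X t) x)) x :=
      (EuclideanSpace.proj (𝕜 := ℝ) (ι := Fin d) i).hasFDerivAt.comp x (hVd x)
    have h2 : pd j (fun z => phi X t z i) x = fderiv ℝ (phi X t) x (EuclideanSpace.single j 1) i := by
      simp [pd, h1.fderiv]
    rw [← h2, show (fun z => phi X t z i) = fun z => z i + t * X i z from
      funext fun z => by simp [phi],
      pd_add ((contDiff_coord (n := 1) i).differentiable one_ne_zero x) ((hXd x i).const_mul t),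
      pd_const_mul t (hXd x i), pd_apply]
    simp [Matrix.one_apply, bMat, bX]
  have hdetD : ∀ x, (fderiv ℝ (phi X t) x).det = (1 + t • bMat X x).det := fun x => by
    rw [ContinuousLinearMap.det, ← LinearMap.det_toMatrix (EuclideanSpace.basisFun (Fin d) ℝ).toBasis]
    congr 1
    ext i j
    rw [LinearMap.toMatrix_apply]
    simpa using hentry x i j
  rw [show energy v 0 R = ∫ x in Metric.ball 0 R ∩ C.Ω, dens C X (t, x) from ?_, energy_u] at hmain
  · simpa only [dens_zero] using hmain
  rw [energy]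
  conv_lhs => rw [← himg]
  rw [integral_image_eq_integral_abs_det_fderiv_smul volume measurableSet_ball
    (fun x _ => (hVd x).hasFDerivWithinAt) hinj.injOn,
    ← setIntegral_indicator C.isOpen_Ω.measurableSet]
  refine setIntegral_congr_fun measurableSet_ball fun x _ => ?_
  simp only [smul_eq_mul, hdetD, abs_of_pos (hdet x)]
  have hv0 : v (phi X t x) = C.u x := by simp [v, hσ']
  by_cases hx : x ∈ C.Ω
  · rw [indicator_of_mem hx, indicator_of_mem (show phi X t x ∈ {y | 0 < v y} by
      show 0 < v _; rw [hv0]; exact hx)]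
    set L := fderiv ℝ (phi X t) x
    have hu : IsUnit (L : EuclideanSpace ℝ (Fin d) →ₗ[ℝ] EuclideanSpace ℝ (Fin d)) :=
      (LinearMap.isUnit_iff_isUnit_det _).2 (isUnit_iff_ne_zero.2 (by
        have := hdetD x; rw [ContinuousLinearMap.det] at this; rw [this]; exact (hdet x).ne'))
    let eL : EuclideanSpace ℝ (Fin d) ≃L[ℝ] EuclideanSpace ℝ (Fin d) :=
      (LinearEquiv.ofBijective (L : EuclideanSpace ℝ (Fin d) →ₗ[ℝ] _)
        ((Module.End.isUnit_iff _).1 hu)).toContinuousLinearEquiv
    have heL : (eL : EuclideanSpace ℝ (Fin d) →L[ℝ] EuclideanSpace ℝ (Fin d)) = L := by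
      ext z; rfl
    have hf : HasFDerivAt (phi X t) (eL : EuclideanSpace ℝ (Fin d) →L[ℝ] _) (σ (phi X t x)) := by
      rw [heL, hσ']; exact hVd x
    have hσd := hf.of_local_left_inverse hσL.continuous.continuousAt
      (Eventually.of_forall hσ)
    have hev : v =ᶠ[𝓝 (phi X t x)] fun y => C.U (σ y) := by
      have : ∀ᶠ y in 𝓝 (phi X t x), σ y ∈ C.Ω :=
        hσL.continuous.continuousAt.preimage_mem_nhds (C.isOpen_Ω.mem_nhds (by rw [hσ']; exact hx))
      filter_upwards [this] with y hy
      exact (C.eq_u _ hy).symm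
    have hUd : DifferentiableAt ℝ C.U (σ (phi X t x)) := by
      rw [hσ']; exact C.diffAt C.smooth (C.Ω_sub hx) (by simp)
    have hcomp : DifferentiableAt ℝ (fun y => C.U (σ y)) (phi X t x) :=
      hUd.comp (phi X t x) hσd.differentiableAt
    have hq : (fun i => pd i (fun y => C.U (σ y)) (phi X t x)) ᵥ* (1 + t • bMat X x)
        = fun j => C.P j x := by
      funext j
      have h1 : HasFDerivAt (fun z => C.U (σ (phi X t z)))
          ((fderiv ℝ (fun y => C.U (σ y)) (phi X t x)).comp L) x :=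
        HasFDerivAt.comp (g := fun y => C.U (σ y)) (f := phi X t) x hcomp.hasFDerivAt (hVd x)
      have h2 : (fun z => C.U (σ (phi X t z))) = C.U := funext fun z => by rw [hσ']
      rw [h2] at h1
      show _ = fderiv ℝ C.U x (EuclideanSpace.single j 1)
      rw [h1.fderiv, ContinuousLinearMap.comp_apply, fderiv_eq_sum_pd]
      simp only [Matrix.vecMul, dotProduct]
      exact Finset.sum_congr rfl fun i _ => by rw [mul_comm, ← hentry x i j]
    have hq' : qVec C X (t, x) = fun i => pd i v (phi X t x) := by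
      simp only [qVec]
      rw [← hq, Matrix.vecMul_vecMul,
        Matrix.mul_nonsing_inv _ (isUnit_iff_ne_zero.2 (hdet x).ne'), Matrix.vecMul_one]
      funext i
      exact (pd_congr hev).symm
    simp only [dens, hq', gradSq]
    ring
  · rw [indicator_of_notMem hx, indicator_of_notMem (show phi X t x ∉ {y | 0 < v y} by
      show ¬ 0 < v _; rw [hv0, C.u_eq_zero hx]; exact lt_irrefl _),
      gradSq_of_min (f := v) (fun y => C.nonneg _) (by rw [hv0, C.u_eq_zero hx])]
    simp

theorem secondVar_nonneg (hmin : LipMin C.u) (hX : ∀ i, ContDiff ℝ 2 (X i))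
    (hc : ∀ i, HasCompactSupport (X i)) (hs : ∀ i, tsupport (X i) ⊆ C.N) :
    0 ≤ ∫ x in C.Ω, C.secondVar X x := by
  classical
  set S : Set (EuclideanSpace ℝ (Fin d)) := ⋃ i, tsupport (X i) with hSdef
  have hSc : IsCompact S := isCompact_iUnion fun i => hc i
  obtain ⟨R, hR⟩ := hSc.isBounded.subset_ball 0
  have hV1 : ContDiff ℝ 1 (fun x => WithLp.toLp 2 (fun i => X i x) (V := Fin d → ℝ)) :=
    contDiff_euclidean.2 fun i => (hX i).of_le (by norm_num)
  have hVc : HasCompactSupport (fun x => WithLp.toLp 2 (fun i => X i x) (V := Fin d → ℝ)) := by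
    refine HasCompactSupport.intro hSc fun x hx => ?_
    have : (fun i => X i x) = 0 :=
      funext fun i => image_eq_zero_of_notMem_tsupport fun h => hx (mem_iUnion.2 ⟨i, h⟩)
    simp [this]
  obtain ⟨K, hK⟩ := ContDiff.lipschitzWith_of_hasCompactSupport hVc hV1 one_ne_zero
  have hM : Continuous fun p : ℝ × EuclideanSpace ℝ (Fin d) => (1 + p.1 • bMat X p.2).det :=
    (continuous_const.add (continuous_fst.smul ((continuous_bMat hX).comp continuous_snd))).matrix_det
  obtain ⟨δ, hδ, hδdet⟩ : ∃ δ : ℝ, 0 < δ ∧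
      ∀ t : ℝ, |t| ≤ δ → ∀ x, 0 < (1 + t • bMat X x).det := by
    have : ∀ᶠ t in 𝓝 (0 : ℝ), ∀ x ∈ S, 0 < (1 + t • bMat X x).det := by
      refine hSc.eventually_forall_of_forall_eventually fun x _ => ?_
      have h1 : (0 : ℝ) < (1 + ((0 : ℝ), x).1 • bMat X ((0 : ℝ), x).2).det := by simp
      exact (hM.tendsto ((0 : ℝ), x)).eventually (lt_mem_nhds h1)
    obtain ⟨δ, hδ, hh⟩ := Metric.nhds_basis_closedBall.eventually_iff.1 this
    refine ⟨δ, hδ, fun t ht x => ?_⟩
    by_cases hx : x ∈ S
    · exact hh (by simpa using ht) x hx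
    · rw [bMat_zero fun i h => hx (mem_iUnion.2 ⟨i, h⟩)]; simp
  obtain ⟨H, hH, hexp, hH0⟩ := dens_expand (C := C) hX
  set T0 : Set ℝ := Icc (-δ) δ
  set S' := closure C.Ω ∩ S
  have hS'N : S' ⊆ C.N := fun x hx => (iUnion_subset hs) hx.2
  have hsub : T0 ×ˢ S' ⊆ {p | p.2 ∈ C.N ∧ (1 + p.1 • bMat X p.2).det ≠ 0
        ∧ (1 + (-p.1) • bMat X p.2).det ≠ 0} := fun p hp =>
    ⟨hS'N hp.2, (hδdet _ (abs_le.2 hp.1) _).ne',
      (hδdet _ (by rw [abs_neg]; exact abs_le.2 hp.1) _).ne'⟩
  obtain ⟨B0, hB0⟩ := (isCompact_Icc.prod (hSc.inter_left isClosed_closure)).exists_bound_of_continuousOn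
    (hH.mono hsub)
  set G : ℕ → ℝ := fun n => min δ (1 / (K + 1)) / (n + 1)
  have hG : ∀ n, 0 < G n ∧ G n ≤ δ ∧ G n * K < 1 := fun n => by
    have h1 : 0 < min δ (1 / ((K : ℝ) + 1)) := lt_min hδ (by positivity)
    have hle : G n ≤ min δ (1 / ((K : ℝ) + 1)) :=
      div_le_self h1.le (by have : (0 : ℝ) ≤ n := Nat.cast_nonneg n; linarith)
    refine ⟨div_pos h1 (by positivity), hle.trans (min_le_left _ _), ?_⟩
    have h2 := mul_le_mul_of_nonneg_right (hle.trans (min_le_right _ _)) (NNReal.coe_nonneg K)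
    refine h2.trans_lt ?_
    rw [div_mul_eq_mul_div, one_mul, div_lt_one (by positivity)]
    linarith
  have hGlim : Tendsto G atTop (𝓝 0) :=
    (tendsto_const_nhds (x := min δ (1 / ((K : ℝ) + 1)))).div_atTop
      (tendsto_natCast_atTop_atTop.atTop_add tendsto_const_nhds)
  set W := Metric.ball (0 : EuclideanSpace ℝ (Fin d)) R ∩ C.Ω
  have hWm : MeasurableSet W := measurableSet_ball.inter C.isOpen_Ω.measurableSet
  have hWfin : volume W < ⊤ :=
    (measure_mono inter_subset_left).trans_lt measure_ball_lt_top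
  have hWN : W ⊆ C.N := fun x hx => C.Ω_sub hx.2
  have hdensC : ∀ t : ℝ, |t| ≤ δ → ContinuousOn (fun x => dens C X (t, x)) C.N := fun t ht => by
    have hMt : Continuous fun x : EuclideanSpace ℝ (Fin d) => 1 + t • bMat X x :=
      continuous_const.add ((continuous_bMat hX).const_smul t)
    simp only [dens]
    refine ((continuousOn_finsetSum _ fun j _ => ?_).add continuousOn_const).mul
      hMt.matrix_det.continuousOn
    have : ∀ x, qVec C X (t, x) j = ∑ i, C.P i x *
        ((1 + t • bMat X x).det⁻¹ * (1 + t • bMat X x).adjugate i j) := fun x => by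
      simp [qVec, Matrix.vecMul, dotProduct, Matrix.inv_def, Ring.inverse_eq_inv']
    simp only [this]
    exact (continuousOn_finsetSum _ fun i _ => (C.contDiffOn_P i).continuousOn.mul
      ((hMt.matrix_det.continuousOn.inv₀ fun x _ => (hδdet t ht x).ne').mul
        (hMt.matrix_adjugate.matrix_elem i j).continuousOn)).pow 2
  have hint : ∀ t : ℝ, |t| ≤ δ → IntegrableOn (fun x => dens C X (t, x)) W := fun t ht => by
    obtain ⟨M, hM0, hMP⟩ := C.exists_P_bound
    obtain ⟨B1, hB1⟩ := (hSc.inter_left isClosed_closure).exists_bound_of_continuousOn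
      ((hdensC t ht).mono hS'N)
    refine IntegrableOn.of_bound hWfin
      (((hdensC t ht).mono hWN).aestronglyMeasurable hWm) (max B1 (M + 1)) ?_
    refine (ae_restrict_iff' hWm).2 (Eventually.of_forall fun x hx => ?_)
    by_cases hxS : x ∈ S
    · exact (hB1 x ⟨subset_closure hx.2, hxS⟩).trans (le_max_left _ _)
    · have hb := bMat_zero (X := X) fun i h => hxS (mem_iUnion.2 ⟨i, h⟩)
      have : dens C X (t, x) = gradSq C.U x + 1 := by
        simp [dens, qVec, hb, C.gradSq_eq]
      rw [this, Real.norm_eq_abs, abs_of_nonneg (by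
        have : 0 ≤ gradSq C.U x := Finset.sum_nonneg fun i _ => sq_nonneg _
        linarith)]
      exact le_trans (by linarith [hMP x hx.2]) (le_max_right _ _)
  have hnn : ∀ n, 0 ≤ ∫ x in W, H (G n, x) := fun n => by
    obtain ⟨g1, g2, g3⟩ := hG n
    have ha : |G n| ≤ δ := by rwa [abs_of_pos g1]
    have hb : |-G n| ≤ δ := by rwa [abs_neg]
    have hR' : ∀ i, tsupport (X i) ⊆ Metric.ball 0 R := fun i =>
      (subset_iUnion (fun i => tsupport (X i)) i).trans hR
    have k1 := energy_competitor hmin hX hc hs hR' hK (t := G n)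
      (by rwa [abs_of_pos g1]) (hδdet _ ha)
    have k2 := energy_competitor hmin hX hc hs hR' hK (t := -G n)
      (by rwa [abs_neg, abs_of_pos g1]) (hδdet _ hb)
    have key : ∫ x in W, G n ^ 2 * H (G n, x)
        = (∫ x in W, dens C X (G n, x)) + (∫ x in W, dens C X (-G n, x))
          - 2 * ∫ x in W, dens C X (0, x) := by
      have i0 := hint 0 (by simpa using hδ.le)
      have i1 : IntegrableOn (fun x => dens C X (G n, x) + dens C X (-G n, x)) W :=
        (hint _ ha).add (hint _ hb)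
      rw [← integral_add (hint _ ha) (hint _ hb), ← integral_const_mul,
        ← integral_sub i1 (i0.const_mul 2)]
      refine setIntegral_congr_fun hWm fun x _ => ?_
      exact (hexp (G n, x) (hδdet _ ha x).ne' (hδdet _ hb x).ne').symm
    rw [integral_const_mul] at key
    refine nonneg_of_mul_nonneg_right ?_ (pow_pos g1 2)
    rw [mul_comm] at key
    rw [mul_comm]
    linarith
  have hlim : Tendsto (fun n => ∫ x in W, H (G n, x)) atTop
      (𝓝 (∫ x in W, 2 * C.secondVar X x)) := by
    refine tendsto_integral_of_dominated_convergence (fun _ => max B0 0) (fun n => ?_)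
      (integrableOn_const hWfin.ne) (fun n => ?_) ?_
    · obtain ⟨g1, g2, g3⟩ := hG n
      refine ContinuousOn.aestronglyMeasurable ?_ hWm
      refine hH.comp (continuous_const.prodMk continuous_id).continuousOn fun x hx => ?_
      exact ⟨hWN hx, (hδdet _ (by rwa [abs_of_pos g1]) x).ne',
        (hδdet _ (by rw [abs_neg]; rwa [abs_of_pos g1]) x).ne'⟩
    · refine (ae_restrict_iff' hWm).2 (Eventually.of_forall fun x hx => ?_)
      obtain ⟨g1, g2, g3⟩ := hG n
      by_cases hxS : x ∈ S
      · exact (hB0 (G n, x) ⟨⟨by linarith, g2⟩, subset_closure hx.2, hxS⟩).trans (le_max_left _ _)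
      · have hb := bMat_zero (X := X) fun i h => hxS (mem_iUnion.2 ⟨i, h⟩)
        have := hexp (G n, x) (by simp [hb]) (by simp [hb])
        have h2 : dens C X (G n, x) + dens C X (-G n, x) - 2 * dens C X (0, x) = 0 := by
          simp [dens, qVec, hb]; ring
        rw [h2] at this
        have h3 : H (G n, x) = 0 := by
          rcases mul_eq_zero.1 this.symm with h | h
          · exact absurd h (pow_ne_zero 2 g1.ne')
          · exact h
        rw [h3]; simp
    · refine (ae_restrict_iff' hWm).2 (Eventually.of_forall fun x hx => ?_)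
      rw [← hH0 x]
      have hmem : ((0 : ℝ), x) ∈ {p : ℝ × EuclideanSpace ℝ (Fin d) | p.2 ∈ C.N
          ∧ (1 + p.1 • bMat X p.2).det ≠ 0 ∧ (1 + (-p.1) • bMat X p.2).det ≠ 0} :=
        ⟨hWN hx, by simp, by simp⟩
      refine (hH _ hmem).tendsto.comp (tendsto_nhdsWithin_iff.2
        ⟨hGlim.prodMk_nhds tendsto_const_nhds, Eventually.of_forall fun n => ?_⟩)
      obtain ⟨g1, g2, g3⟩ := hG n
      exact ⟨hWN hx, (hδdet _ (by rwa [abs_of_pos g1]) x).ne',
        (hδdet _ (by rw [abs_neg]; rwa [abs_of_pos g1]) x).ne'⟩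
  have h0 := ge_of_tendsto' hlim hnn
  rw [integral_const_mul] at h0
  have : ∫ x in C.Ω, C.secondVar X x = ∫ x in W, C.secondVar X x := by
    refine setIntegral_eq_of_subset_of_forall_sdiff_eq_zero C.isOpen_Ω.measurableSet
      inter_subset_right fun x hx => ?_
    have hxS : x ∉ S := fun h => hx.2 ⟨hR h, hx.1⟩
    have hz : ∀ i j, bX X i j x = 0 := fun i j => by
      have := congrFun (congrFun (bMat_zero (X := X) fun i h => hxS (mem_iUnion.2 ⟨i, h⟩)) i) j
      simpa [bMat] using this
    simp [secondVar, rX, trX, hz]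
  rw [this]; linarith

theorem zX_contDiffOn (hX : ∀ i, ContDiff ℝ 2 (X i)) (i : Fin d) :
    ContDiffOn ℝ 1 (C.zX X i) C.N := by
  have hP1 : ∀ i, ContDiffOn ℝ 1 (C.P i) C.N := fun i =>
    (C.contDiffOn_P i).of_le (by norm_num)
  have hA1 : ∀ i j, ContDiffOn ℝ 1 (C.A i j) C.N := fun i j =>
    (C.contDiffOn_A i j).of_le (by norm_num)
  have hX1 : ∀ i, ContDiffOn ℝ 1 (X i) C.N := fun i =>
    ((hX i).of_le (by norm_num)).contDiffOn
  have hB1 : ∀ i j, ContDiffOn ℝ 1 (bX X i j) C.N := fun i j =>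
    (contDiff_pd (hX i) (by norm_num)).contDiffOn
  have hg1 : ContDiffOn ℝ 1 (gradSq C.U) C.N := ContDiffOn.sum fun j _ => (hP1 j).pow 2
  have hps : ContDiffOn ℝ 1 (C.psiX X) C.N := ContDiffOn.sum fun i _ => (hP1 i).mul (hX1 i)
  have htr : ContDiffOn ℝ 1 (trX X) C.N := ContDiffOn.sum fun i _ => hB1 i i
  have hm : ∀ i, ContDiffOn ℝ 1 (C.mX X i) C.N := fun i =>
    ContDiffOn.sum fun j _ => (hA1 i j).mul (hX1 j)
  unfold zX
  exact ((((((hg1.add contDiffOn_const).div_const 2).mul (((hX1 i).mul htr).sub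
      (ContDiffOn.sum fun j _ => (hB1 i j).mul (hX1 j)))).add
      (contDiffOn_const.mul (hps.mul (ContDiffOn.sum fun j _ => (hB1 i j).mul (hP1 j))))).sub
      (contDiffOn_const.mul ((hps.mul htr).mul (hP1 i)))).add
      ((ContDiffOn.sum fun j _ => (hP1 j).mul (hm j)).mul (hX1 i))).sub
      (contDiffOn_const.mul (hps.mul (hm i))) |>.sub
      ((ContDiffOn.sum fun j _ => (hX1 j).mul (hm j)).mul (hP1 i))

/-- **Stability inequality** derived from minimality. -/
theorem stability (hmin : LipMin C.u) {ψ : EuclideanSpace ℝ (Fin d) → ℝ} (hψ : ContDiff ℝ 2 ψ)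
    (hc : HasCompactSupport ψ) (hs : tsupport ψ ⊆ C.N) :
    0 ≤ ∫ x in C.Ω,
      (gradSq ψ x - dvg (fun i y => ψ y ^ 2 * ∑ j, C.A i j y * C.P j y) x) := by
  obtain ⟨X, hXdef⟩ : ∃ X : Fin d → EuclideanSpace ℝ (Fin d) → ℝ,
      ∀ i, X i = fun y => ψ y * (C.P i y / gradSq C.U y) := ⟨_, fun _ => rfl⟩
  have hgC : ContDiffOn ℝ 2 (gradSq C.U) C.N :=
    ContDiffOn.sum fun j _ => ((C.contDiffOn_P j).of_le (by norm_num)).pow 2
  have hXs : ∀ i, tsupport (X i) ⊆ tsupport ψ := fun i => by
    rw [hXdef i]; exact tsupport_mul_subset_left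
  have hX : ∀ i, ContDiff ℝ 2 (X i) := fun i => by
    refine contDiff_of_tsupport C.isOpen_N ?_ ((hXs i).trans hs)
    rw [hXdef i]
    exact hψ.contDiffOn.mul
      (((C.contDiffOn_P i).of_le (by norm_num)).div hgC C.grad_ne)
  have hXc : ∀ i, HasCompactSupport (X i) := fun i =>
    hc.of_isClosed_subset isClosed_closure (hXs i)
  have h2 := secondVar_nonneg hmin hX hXc fun i => (hXs i).trans hs
  let Yc : Fin d → EuclideanSpace ℝ (Fin d) → ℝ := fun i y => ψ y ^ 2 * ∑ j, C.A i j y * C.P j y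
  let Y : Fin d → EuclideanSpace ℝ (Fin d) → ℝ := fun i y => C.zX X i y + Yc i y
  have hzero : ∀ y, y ∉ tsupport ψ → ∀ i, C.zX X i y = 0 ∧ Yc i y = 0 := by
    intro y hy i
    have hXz : ∀ i, X i y = 0 := fun i => image_eq_zero_of_notMem_tsupport fun h => hy (hXs i h)
    have hBz : ∀ i j, bX X i j y = 0 := fun i j => by
      rw [bX, pd_congr (g := fun _ => (0 : ℝ))
        (notMem_tsupport_iff_eventuallyEq.1 fun h => hy (hXs i h)), pd_const]
    have : ψ y = 0 := image_eq_zero_of_notMem_tsupport hy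
    simp [zX, Yc, sX, qX, mX, aX, cX, psiX, hXz, hBz, this]
  have hYs : ∀ i, tsupport (Y i) ⊆ tsupport ψ := fun i =>
    closure_minimal (fun y hy => by_contra fun h => hy (by
      simp [Y, (hzero y h i).1, (hzero y h i).2])) (isClosed_tsupport ψ)
  have hYcs : ∀ i, tsupport (Yc i) ⊆ tsupport ψ := fun i =>
    closure_minimal (fun y hy => by_contra fun h => hy (hzero y h i).2) (isClosed_tsupport ψ)
  have hP1 : ∀ i, ContDiffOn ℝ 1 (C.P i) C.N := fun i =>
    (C.contDiffOn_P i).of_le (by norm_num)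
  have hA1 : ∀ i j, ContDiffOn ℝ 1 (C.A i j) C.N := fun i j =>
    (C.contDiffOn_A i j).of_le (by norm_num)
  have hψ1 : ContDiffOn ℝ 1 ψ C.N := (hψ.of_le (by norm_num)).contDiffOn
  have hYc1 : ∀ i, ContDiffOn ℝ 1 (Yc i) C.N := fun i =>
    (hψ1.pow 2).mul (ContDiffOn.sum fun j _ => (hA1 i j).mul (hP1 j))
  have hz1 : ∀ i, ContDiffOn ℝ 1 (C.zX X i) C.N := zX_contDiffOn hX
  have hY : ∀ i, ContDiff ℝ 1 (Y i) := fun i =>
    contDiff_of_tsupport C.isOpen_N ((hz1 i).add (hYc1 i)) ((hYs i).trans hs)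
  have hYcD : ∀ i, ContDiff ℝ 1 (Yc i) := fun i =>
    contDiff_of_tsupport C.isOpen_N (hYc1 i) ((hYcs i).trans hs)
  have hYcp : ∀ i, HasCompactSupport (Y i) := fun i =>
    hc.of_isClosed_subset isClosed_closure (hYs i)
  have hYccp : ∀ i, HasCompactSupport (Yc i) := fun i =>
    hc.of_isClosed_subset isClosed_closure (hYcs i)
  have hY0 : ∫ x in C.Ω, dvg Y x = 0 := by
    refine C.strip_eq hY hYcp (fun i => (hYs i).trans hs) fun x hxN hxf => ?_
    have h := zX_flux (X := X) hxN hxf.1 (C.grad_one x hxf fun h => C.zero_notMem (h ▸ hxN))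
      (hψ.differentiable two_ne_zero x) fun i => (hXdef i).symm ▸ EventuallyEq.rfl
    refine Eq.trans ?_ h
    simp only [Y, Yc, add_mul, Finset.sum_add_distrib, Finset.mul_sum, mul_assoc, Finset.sum_mul]
  have hid : ∀ x ∈ C.Ω, C.secondVar X x = (gradSq ψ x - dvg Yc x) + dvg Y x := fun x hx => by
    have hN := C.Ω_sub hx
    have hev : C.psiX X =ᶠ[𝓝 x] ψ :=
      eventually_of_mem (C.isOpen_N.mem_nhds hN) fun y hy => by
        simp only [psiX, hXdef]
        rw [show ∑ i, C.P i y * (ψ y * (C.P i y / gradSq C.U y))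
          = ψ y / gradSq C.U y * ∑ i, C.P i y ^ 2 by
            rw [Finset.mul_sum]; exact Finset.sum_congr rfl fun i _ => by ring, ← C.gradSq_eq]
        field_simp [C.grad_ne y hy]
    rw [secondVar_eq hX hx, gradSq_congr hev]
    have : dvg Y x = dvg (C.zX X) x + dvg Yc x := by
      simp only [dvg, ← Finset.sum_add_distrib]
      exact Finset.sum_congr rfl fun i _ => pd_add (((hz1 i).contDiffAt
        (C.isOpen_N.mem_nhds hN)).differentiableAt one_ne_zero)
        ((hYcD i).differentiable one_ne_zero x)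
    rw [this]; ring
  rw [setIntegral_congr_fun C.isOpen_Ω.measurableSet hid] at h2
  have hint : ∀ {Z : Fin d → EuclideanSpace ℝ (Fin d) → ℝ}, (∀ i, ContDiff ℝ 1 (Z i)) →
      (∀ i, HasCompactSupport (Z i)) → Integrable (dvg Z) := fun hZ hZc =>
    integrable_finsetSum _ fun i _ => (contDiff_pd (m := 0) (hZ i) le_rfl).continuous
      |>.integrable_of_hasCompactSupport (hasCompactSupport_pd (hZc i))
  have hgψ : Integrable (gradSq ψ) := by
    unfold gradSq
    refine integrable_finsetSum _ fun i _ => ?_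
    have hcont : Continuous fun x => pd i ψ x ^ 2 :=
      ((contDiff_pd (m := 1) hψ (by norm_num)).continuous).pow 2
    refine hcont.integrable_of_hasCompactSupport (HasCompactSupport.intro hc fun x hx => ?_)
    rw [pd_congr (g := fun _ => (0 : ℝ)) (notMem_tsupport_iff_eventuallyEq.1 hx), pd_const]
    ring
  have i2 : IntegrableOn (fun x => gradSq ψ x - dvg Yc x) C.Ω :=
    (hgψ.sub (hint hYcD hYccp)).integrableOn
  rw [integral_add i2 (hint hY hYcp).integrableOn, hY0, add_zero] at h2
  exact h2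

end Cone

end Vale.Agent.P098
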