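import Vale.Agent.P098.Pointwise
import Vale.Agent.P098.Variation
import Vale.Agent.P098.Energy

/-! Cutoff test functions built from the certificate and the limit inequality. -/

noncomputable section

namespace Vale.Agent.P098

open MeasureTheory Set Filter Topology
open scoped ContDiff

variable {d : ℕ}

/-- Squared norm of the matrix part of a jet. -/
def jsq (j : Jet d) : ℝ := ∑ i, ∑ k, j.1 i k ^ 2

theorem contDiff_jsq {n : ℕ∞ω} : ContDiff ℝ n (jsq (d := d)) :=
  ContDiff.sum fun i _ => ContDiff.sum fun k _ =>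
    ((contDiff_apply_apply ℝ ℝ i k).comp contDiff_fst).pow 2

theorem jsq_nonneg (j : Jet d) : 0 ≤ jsq j :=
  Finset.sum_nonneg fun _ _ => Finset.sum_nonneg fun _ _ => sq_nonneg _

theorem abs_le_norm_fst (A : Fin d → Fin d → ℝ) (i k : Fin d) : |A i k| ≤ ‖A‖ := by
  rw [← Real.norm_eq_abs]
  exact (norm_le_pi_norm (A i) k).trans (norm_le_pi_norm A i)

theorem jsq_le (j : Jet d) : jsq j ≤ (d : ℝ) ^ 2 * ‖j.1‖ ^ 2 := by
  calc jsq j ≤ ∑ _i : Fin d, ∑ _k : Fin d, ‖j.1‖ ^ 2 :=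
        Finset.sum_le_sum fun i _ => Finset.sum_le_sum fun k _ => by
          rw [← sq_abs]; exact pow_le_pow_left₀ (abs_nonneg _) (abs_le_norm_fst _ i k) 2
    _ = _ := by simp; ring

theorem norm_sq_le_jsq (j : Jet d) : ‖j.1‖ ^ 2 ≤ jsq j := by
  have : ‖j.1‖ ≤ Real.sqrt (jsq j) := by
    refine (pi_norm_le_iff_of_nonneg (Real.sqrt_nonneg _)).2 fun i =>
      (pi_norm_le_iff_of_nonneg (Real.sqrt_nonneg _)).2 fun k => ?_
    rw [Real.norm_eq_abs, ← Real.sqrt_sq_eq_abs]
    refine Real.sqrt_le_sqrt ?_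
    refine le_trans ?_ (Finset.single_le_sum (fun i _ => Finset.sum_nonneg fun k _ => sq_nonneg (j.1 i k))
      (Finset.mem_univ i))
    exact Finset.single_le_sum (f := fun k => j.1 i k ^ 2) (fun k _ => sq_nonneg _) (Finset.mem_univ k)
  exact (pow_le_pow_left₀ (norm_nonneg _) this 2).trans_eq (Real.sq_sqrt (jsq_nonneg j))

theorem jsq_pos {j : Jet d} (h : j.1 ≠ 0) : 0 < jsq j :=
  lt_of_lt_of_le (pow_pos (norm_pos_iff.2 h) 2) (norm_sq_le_jsq j)

theorem fst_ne_of_jsq {j : Jet d} (h : jsq j ≠ 0) : j.1 ≠ 0 := fun h0 => h (by simp [jsq, h0])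

theorem abs_fderiv_jsq (j q : Jet d) :
    |fderiv ℝ jsq j q| ≤ 2 * (d : ℝ) ^ 2 * (‖j.1‖ * ‖q.1‖) := by
  have hl : ∀ i k, HasFDerivAt (fun y : Jet d => y.1 i k)
      (((ContinuousLinearMap.proj (R := ℝ) (φ := fun _ : Fin d => ℝ) k).comp
        (ContinuousLinearMap.proj (R := ℝ) (φ := fun _ : Fin d => Fin d → ℝ) i)).comp
        (ContinuousLinearMap.fst ℝ (Fin d → Fin d → ℝ) ((Fin d → ℝ) × ℝ))) j := fun i k =>
    (((ContinuousLinearMap.proj (R := ℝ) (φ := fun _ : Fin d => ℝ) k).comp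
        (ContinuousLinearMap.proj (R := ℝ) (φ := fun _ : Fin d => Fin d → ℝ) i)).comp
        (ContinuousLinearMap.fst ℝ (Fin d → Fin d → ℝ) ((Fin d → ℝ) × ℝ))).hasFDerivAt
  have h := HasFDerivAt.fun_sum (u := Finset.univ) fun i _ =>
    HasFDerivAt.fun_sum (u := Finset.univ) fun k _ => (hl i k).fun_mul (hl i k)
  rw [show fderiv ℝ jsq j = _ from (h.congr_of_eventuallyEq (Filter.EventuallyEq.of_eq
    (funext fun y => by simp [jsq, sq]) : jsq =ᶠ[𝓝 j] _)).fderiv]
  simp only [FunLike.coe_sum, Finset.sum_apply]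
  refine (Finset.abs_sum_le_sum_abs _ _).trans ?_
  calc ∑ i, |∑ k, (j.1 i k * q.1 i k + j.1 i k * q.1 i k)|
      ≤ ∑ _i : Fin d, ∑ _k : Fin d, 2 * (‖j.1‖ * ‖q.1‖) :=
        Finset.sum_le_sum fun i _ => (Finset.abs_sum_le_sum_abs _ _).trans
          (Finset.sum_le_sum fun k _ => by
            rw [← two_mul, abs_mul, abs_of_pos (two_pos (α := ℝ)), abs_mul]
            exact mul_le_mul_of_nonneg_left (mul_le_mul (abs_le_norm_fst _ i k)
              (abs_le_norm_fst _ i k) (abs_nonneg _) (norm_nonneg _)) zero_le_two)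
    _ = _ := by simp; ring

theorem deriv_step_bound : ∃ D : ℝ, 0 ≤ D ∧ ∀ s, |deriv step s| ≤ D := by
  have hc : Continuous (deriv step) := (step_contDiff (n := 1)).continuous_deriv le_rfl
  obtain ⟨D, hD⟩ := (isCompact_Icc (a := (0 : ℝ)) (b := 2)).exists_bound_of_continuousOn
    hc.continuousOn
  refine ⟨max D 0, le_max_right _ _, fun s => ?_⟩
  rcases lt_or_ge s (1 / 2) with h | h
  · have : step =ᶠ[𝓝 s] fun _ => (0 : ℝ) :=
      eventually_of_mem (Iio_mem_nhds h) fun t ht => step_zero (le_of_lt ht)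
    simp [this.deriv_eq]
  · rcases lt_or_ge 1 s with h' | h'
    · simp [deriv_step_zero_of_one_lt h']
    · exact le_trans (hD s ⟨by linarith, by linarith⟩) (le_max_left _ _)

namespace Cone

variable (Γ : Cert d) (C : Cone d) {x : EuclideanSpace ℝ (Fin d)}

/-- The scale invariant size of the Hessian. -/
def sS (x : EuclideanSpace ℝ (Fin d)) : ℝ := jsq (C.jet x)

theorem contDiffAt_sS {n : ℕ∞ω} (hx : x ∈ C.N) (hn6 : n ≤ 6) :
    ContDiffAt ℝ n C.sS x :=
  contDiff_jsq.contDiffAt.comp x (C.contDiffAt_jet hx hn6)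

theorem sS_eq : C.sS x = ‖x‖ ^ 2 * C.sA x := by
  simp only [sS, jsq, jet, sA, Finset.mul_sum]
  exact Finset.sum_congr rfl fun i _ => Finset.sum_congr rfl fun k _ => by ring

theorem isOpen_sS_ne : IsOpen {y | y ∈ C.N ∧ C.sS y ≠ 0} :=
  ContinuousOn.isOpen_inter_preimage
    (fun _ hy => (C.contDiffAt_sS (n := 0) hy (by norm_num)).continuousAt.continuousWithinAt) C.isOpen_N isOpen_ne

theorem contDiffAt_G (hx : x ∈ C.N) (hA : (C.jet x).1 ≠ 0) : ContDiffAt ℝ 2 (C.G Γ) x :=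
  (Γ.smooth_K.contDiffAt ((isOpen_ne_fun continuous_fst continuous_const).mem_nhds hA)).comp x
    (C.contDiffAt_jet hx (by norm_num))

theorem contDiffAt_X0 (hx : x ∈ C.N) (hA : (C.jet x).1 ≠ 0) (k : Fin d) :
    ContDiffAt ℝ 1 (C.X0 Γ k) x := by
  have h1 : ContDiffAt ℝ 1 (fun y => Γ.om (C.jet y)) x :=
    (Γ.smooth_om.contDiffAt ((isOpen_ne_fun continuous_fst continuous_const).mem_nhds hA)).comp x
      (C.contDiffAt_jet hx (by norm_num))
  have h2 : ContDiffAt ℝ 1 (fun y => fderiv ℝ C.jet y (EuclideanSpace.single k 1)) x :=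
    ((C.contDiffAt_jet (n := 2) hx (by norm_num)).fderiv_right (m := 1) (by norm_num)).clm_apply contDiffAt_const
  refine (h1.clm_apply h2).congr_of_eventuallyEq ?_
  filter_upwards [C.isOpen_N.mem_nhds hx] with y hy
  simp only [X0, C.fderiv_jet hy k]

theorem pd_comp_jet {F : Jet d → ℝ} (hx : x ∈ C.N) (hF : DifferentiableAt ℝ F (C.jet x))
    (k : Fin d) : pd k (fun y => F (C.jet y)) x = fderiv ℝ F (C.jet x) (C.jet' k x) := by
  have h := hF.hasFDerivAt.comp x ((C.contDiffAt_jet (n := 1) hx (by norm_num)).differentiableAt one_ne_zero).hasFDerivAt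
  simp only [pd, ← C.fderiv_jet hx k]
  rw [show (fun y => F (C.jet y)) = F ∘ C.jet from rfl, h.fderiv]
  rfl

theorem radial_jet (L : Jet d →L[ℝ] ℝ) (hx : x ∈ closure C.Ω) (hN : x ∈ C.N) :
    ∑ k, x k * L (C.jet' k x) = 0 := by
  have := congrArg L (C.sum_smul_jet' hx hN)
  simpa [map_sum] using this

/-- The cutoff in the size of the Hessian. -/
def lam (ε : ℝ) (x : EuclideanSpace ℝ (Fin d)) : ℝ := step (C.sS x / ε)

/-- Common factor of the test function and the test field. -/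
def fac (χ : EuclideanSpace ℝ (Fin d) → ℝ) (η : ℝ → ℝ) (ε : ℝ) (x : EuclideanSpace ℝ (Fin d)) : ℝ :=
  χ x * η ‖x‖ * C.lam ε x

/-- The test function. -/
def testFn (χ : EuclideanSpace ℝ (Fin d) → ℝ) (η : ℝ → ℝ) (ε : ℝ) (x : EuclideanSpace ℝ (Fin d)) :
    ℝ := C.fac χ η ε x * Real.sqrt (C.G Γ x)

/-- The test field. -/
def testField (χ : EuclideanSpace ℝ (Fin d) → ℝ) (η : ℝ → ℝ) (ε : ℝ) (k : Fin d)
    (x : EuclideanSpace ℝ (Fin d)) : ℝ := C.fac χ η ε x ^ 2 * C.X0 Γ k x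

/-- Where the test objects are smooth. -/
def good (ε : ℝ) : Set (EuclideanSpace ℝ (Fin d)) :=
  {y | y ∈ C.N ∧ C.sS y < ε / 2} ∪ {y | (y ∈ C.N ∧ C.sS y ≠ 0) ∧ 0 < C.G Γ y}

theorem isOpen_good (ε : ℝ) : IsOpen (C.good Γ ε) := by
  refine (ContinuousOn.isOpen_inter_preimage (f := C.sS)
    (fun y hy => (C.contDiffAt_sS (n := 0) hy (by norm_num)).continuousAt.continuousWithinAt)
    C.isOpen_N isOpen_Iio).union ?_
  exact ContinuousOn.isOpen_inter_preimage (f := C.G Γ)
    (fun y hy => (C.contDiffAt_G Γ hy.1 (fst_ne_of_jsq hy.2)).continuousAt.continuousWithinAt)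
    C.isOpen_sS_ne isOpen_Ioi

theorem closure_sub_good (hd : 2 ≤ d) {ε : ℝ} (hε : 0 < ε) (hx : x ∈ closure C.Ω) (hN : x ∈ C.N) :
    x ∈ C.good Γ ε := by
  by_cases h : C.sS x = 0
  · exact Or.inl ⟨hN, by rw [h]; linarith⟩
  · exact Or.inr ⟨⟨hN, h⟩, C.G_pos Γ hd hx hN (fst_ne_of_jsq h)⟩

theorem lam_zero_near {ε : ℝ} (hε : 0 < ε) (hN : x ∈ C.N) (h : C.sS x < ε / 2) :
    ∀ᶠ y in 𝓝 x, C.lam ε y = 0 := by
  filter_upwards [(C.contDiffAt_sS (n := 0) hN (by norm_num)).continuousAt.tendsto.eventually (gt_mem_nhds h)]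
    with y hy
  refine step_zero ?_
  rw [div_le_iff₀ hε]; linarith

theorem contDiffAt_lam (ε : ℝ) (hN : x ∈ C.N) : ContDiffAt ℝ 2 (C.lam ε) x :=
  ((step_contDiff (n := 2)).contDiffAt).comp x ((C.contDiffAt_sS (n := 2) hN (by norm_num)).div_const ε)

theorem contDiffAt_fac {χ : EuclideanSpace ℝ (Fin d) → ℝ} (hχ : ContDiff ℝ ∞ χ) {η : ℝ → ℝ}
    (hη : ContDiff ℝ 2 η) (ε : ℝ) (hN : x ∈ C.N) : ContDiffAt ℝ 2 (C.fac χ η ε) x :=
  ((hχ.of_le (WithTop.coe_le_coe.2 le_top)).contDiffAt.mul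
    (hη.contDiffAt.comp x (contDiffAt_norm ℝ (C.ne_zero_N hN)))).mul (C.contDiffAt_lam ε hN)

variable {χ : EuclideanSpace ℝ (Fin d) → ℝ} {η : ℝ → ℝ} {ε : ℝ}

theorem tsupport_test (f : EuclideanSpace ℝ (Fin d) → ℝ) :
    tsupport (fun y => C.fac χ η ε y * f y) ⊆ tsupport χ :=
  (tsupport_mul_subset_left).trans (tsupport_mul_subset_left.trans tsupport_mul_subset_left)

theorem contDiff_testFn (hε : 0 < ε) (hχ : ContDiff ℝ ∞ χ) (hη : ContDiff ℝ 2 η)
    (hs : tsupport χ ⊆ C.good Γ ε) : ContDiff ℝ 2 (C.testFn Γ χ η ε) := by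
  refine contDiff_of_tsupport (C.isOpen_good Γ ε) (fun y hy => ?_) ((C.tsupport_test _).trans hs)
  refine ContDiffAt.contDiffWithinAt ?_
  rcases hy with ⟨hN, h⟩ | ⟨⟨hN, hne⟩, hG⟩
  · refine (contDiffAt_const (c := (0 : ℝ))).congr_of_eventuallyEq ?_
    filter_upwards [C.lam_zero_near hε hN h] with z hz
    simp [testFn, fac, hz]
  · exact (C.contDiffAt_fac hχ hη ε hN).mul
      ((C.contDiffAt_G Γ hN (fst_ne_of_jsq hne)).sqrt hG.ne')

theorem contDiff_testField (hε : 0 < ε) (hχ : ContDiff ℝ ∞ χ) (hη : ContDiff ℝ 2 η)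
    (hs : tsupport χ ⊆ C.good Γ ε) (k : Fin d) : ContDiff ℝ 1 (C.testField Γ χ η ε k) := by
  refine contDiff_of_tsupport (C.isOpen_good Γ ε) (fun y hy => ?_) ?_
  · refine ContDiffAt.contDiffWithinAt ?_
    rcases hy with ⟨hN, h⟩ | ⟨⟨hN, hne⟩, hG⟩
    · refine (contDiffAt_const (c := (0 : ℝ))).congr_of_eventuallyEq ?_
      filter_upwards [C.lam_zero_near hε hN h] with z hz
      simp [testField, fac, hz]
    · exact (((C.contDiffAt_fac hχ hη ε hN).of_le (by norm_num)).pow 2).mul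
        (C.contDiffAt_X0 Γ hN (fst_ne_of_jsq hne) k)
  · refine (tsupport_mul_subset_left).trans ?_
    have : (fun y => C.fac χ η ε y ^ 2) = fun y => C.fac χ η ε y * C.fac χ η ε y :=
      funext fun y => sq _
    rw [this]
    exact (C.tsupport_test _).trans hs

/-- Stability tested with the certificate. -/
theorem tested (hd : 2 ≤ d) (hmin : LipMin C.u) (hε : 0 < ε) (hχ : ContDiff ℝ ∞ χ)
    (hχc : HasCompactSupport χ) (hη : ContDiff ℝ 2 η) (hs : tsupport χ ⊆ C.good Γ ε) :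
    IntegrableOn (fun y => gradSq (C.testFn Γ χ η ε) y - dvg (C.testField Γ χ η ε) y) C.Ω ∧
    0 ≤ ∫ y in C.Ω, (gradSq (C.testFn Γ χ η ε) y - dvg (C.testField Γ χ η ε) y) := by
  have hgN : C.good Γ ε ⊆ C.N := fun y hy => hy.elim (fun h => h.1) fun h => h.1.1
  obtain ⟨ψ, hψdef⟩ : ∃ ψ, ψ = C.testFn Γ χ η ε := ⟨_, rfl⟩
  obtain ⟨Y, hYdef⟩ : ∃ Y, Y = C.testField Γ χ η ε := ⟨_, rfl⟩
  rw [← hψdef, ← hYdef]
  have hψ : ContDiff ℝ 2 ψ := hψdef ▸ C.contDiff_testFn Γ hε hχ hη hs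
  have hψs : tsupport ψ ⊆ tsupport χ := by rw [hψdef]; exact C.tsupport_test _
  have hψc : HasCompactSupport ψ := hχc.of_isClosed_subset isClosed_closure hψs
  have hY : ∀ k, ContDiff ℝ 1 (Y k) := fun k => hYdef ▸ C.contDiff_testField Γ hε hχ hη hs k
  have hYs : ∀ k, tsupport (Y k) ⊆ tsupport χ := fun k => by
    rw [hYdef]
    refine (tsupport_mul_subset_left).trans ?_
    have : (fun y => C.fac χ η ε y ^ 2) = fun y => C.fac χ η ε y * C.fac χ η ε y :=
      funext fun y => sq _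
    rw [this]
    exact C.tsupport_test _
  have hYc : ∀ k, HasCompactSupport (Y k) := fun k =>
    hχc.of_isClosed_subset isClosed_closure (hYs k)
  have hst := stability hmin hψ hψc ((hψs.trans hs).trans hgN)
  let Yc : Fin d → EuclideanSpace ℝ (Fin d) → ℝ := fun i y => ψ y ^ 2 * ∑ j, C.A i j y * C.P j y
  have hYcs : ∀ k, tsupport (Yc k) ⊆ tsupport χ := fun k => by
    refine (tsupport_mul_subset_left).trans ?_
    refine closure_minimal (fun y hy => hψs (subset_tsupport _ fun h => hy ?_)) (isClosed_tsupport χ)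
    show ψ y ^ 2 = 0
    rw [h]; ring
  have hYc1 : ∀ k, ContDiff ℝ 1 (Yc k) := fun k =>
    contDiff_of_tsupport C.isOpen_N (((hψ.of_le (by norm_num)).contDiffOn.pow 2).mul
      (ContDiffOn.sum fun j _ => ((C.contDiffOn_A k j).of_le (by norm_num)).mul
        ((C.contDiffOn_P j).of_le (by norm_num)))) ((hYcs k).trans (hs.trans hgN))
  have hYcc : ∀ k, HasCompactSupport (Yc k) := fun k =>
    hχc.of_isClosed_subset isClosed_closure (hYcs k)
  have hint : ∀ {W : Fin d → EuclideanSpace ℝ (Fin d) → ℝ}, (∀ i, ContDiff ℝ 1 (W i)) →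
      (∀ i, HasCompactSupport (W i)) → Integrable (dvg W) := fun hW hWc =>
    integrable_finsetSum _ fun i _ => (contDiff_pd (m := 0) (hW i) le_rfl).continuous
      |>.integrable_of_hasCompactSupport (hasCompactSupport_pd (hWc i))
  have hg : Integrable (gradSq ψ) := by
    unfold gradSq
    refine integrable_finsetSum _ fun i _ => ?_
    have hcont : Continuous fun y => pd i ψ y ^ 2 :=
      ((contDiff_pd (m := 1) hψ (by norm_num)).continuous).pow 2
    refine hcont.integrable_of_hasCompactSupport (HasCompactSupport.intro hψc fun y hy => ?_)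
    rw [pd_congr (g := fun _ => (0 : ℝ)) (notMem_tsupport_iff_eventuallyEq.1 hy), pd_const]
    ring
  refine ⟨(hg.sub (hint hY hYc)).integrableOn, ?_⟩
  have hstrip := C.strip (Y := fun k y => Y k y - Yc k y) (fun k => (hY k).sub (hYc1 k))
    (fun k => (hYc k).sub (hYcc k))
    (fun k => (tsupport_sub _ _).trans
      (union_subset (((hYs k).trans hs).trans hgN) (((hYcs k).trans hs).trans hgN)))
    (fun y hyN hyf => by
      by_cases hf : C.fac χ η ε y = 0
      · simp [hYdef, Yc, hψdef, testField, testFn, hf]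
      · have hl : C.lam ε y ≠ 0 := right_ne_zero_of_mul hf
        have hne : (C.jet y).1 ≠ 0 := fun h0 => hl (by
          have : C.sS y = 0 := by simp [sS, jsq, h0]
          simp [lam, this, step_zero])
        have hGp := C.G_pos Γ hd hyf.1 hyN hne
        have hfl := C.X0_boundary Γ hd hyf hyN hne
        have hAP : ∑ i, (∑ j, C.A i j y * C.P j y) * C.P i y = -C.Hf y := by
          simp only [C.front_A hyf hyN, mul_assoc, ← Finset.mul_sum]
          rw [show ∑ i, C.P i y * C.P i y = ∑ i, C.P i y ^ 2 by simp only [sq],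
            C.sum_P_sq_frontier hyf hyN, mul_one]
        have e : ∑ i, (Y i y - Yc i y) * C.P i y
            = C.fac χ η ε y ^ 2 * (∑ k, C.X0 Γ k y * C.P k y + C.Hf y * C.G Γ y) := by
          rw [← neg_neg (C.Hf y), ← hAP]
          have : ∀ i, (Y i y - Yc i y) * C.P i y = C.fac χ η ε y ^ 2 *
              (C.X0 Γ i y * C.P i y - (∑ j, C.A i j y * C.P j y) * C.P i y * C.G Γ y) := fun i => by
            simp only [hYdef, Yc, hψdef, testField, testFn, mul_pow, Real.sq_sqrt hGp.le]; ring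
          simp only [this, ← Finset.mul_sum, Finset.sum_sub_distrib, ← Finset.sum_mul]
          ring
        rw [e]
        exact mul_nonneg (sq_nonneg _) hfl)
  have hsub : (fun y => dvg (fun k y => Y k y - Yc k y) y) = fun y => dvg Y y - dvg Yc y := by
    funext y
    simp only [dvg, ← Finset.sum_sub_distrib]
    exact Finset.sum_congr rfl fun i _ =>
      pd_sub ((hY i).differentiable one_ne_zero y) ((hYc1 i).differentiable one_ne_zero y)
  rw [hsub, integral_sub (hint hY hYc).integrableOn (hint hYc1 hYcc).integrableOn] at hstrip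
  rw [integral_sub hg.integrableOn (hint hY hYc).integrableOn]
  have hst' : 0 ≤ ∫ y in C.Ω, (gradSq ψ y - dvg Yc y) := hst
  rw [integral_sub hg.integrableOn (hint hYc1 hYcc).integrableOn] at hst'
  linarith

/-- Weight of the radial test function. -/
def rad (η : ℝ → ℝ) (r : ℝ) : ℝ :=
  deriv η r ^ 2 - ((((d : ℝ) - 2) / 2) ^ 2 + Γ.δ) * η r ^ 2 / r ^ 2

/-- The density without the flat part. -/
def G0 (x : EuclideanSpace ℝ (Fin d)) : ℝ := if C.sS x = 0 then 0 else C.G Γ x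

/-- Error density of the cutoff. -/
def err (D : ℝ) (η : ℝ → ℝ) (x : EuclideanSpace ℝ (Fin d)) : ℝ :=
  η ‖x‖ ^ 2 * (D ^ 2 * |C.G Γ x| * ∑ k, pd k C.sS x ^ 2 / C.sS x ^ 2
    + D * ∑ k, |pd k C.sS x| / C.sS x * (|pd k (C.G Γ) x| + 2 * |C.X0 Γ k x|))

theorem err_nonneg {D : ℝ} (hD : 0 ≤ D) : 0 ≤ C.err Γ D η x := by
  have : 0 ≤ C.sS x := jsq_nonneg _
  unfold err
  positivity

theorem pointwise (hd : 2 ≤ d) (hε : 0 < ε) (hη : ContDiff ℝ 2 η) {D : ℝ} (hD : 0 ≤ D)
    (hDs : ∀ s, |deriv step s| ≤ D) {a b : ℝ} (hsupp : ∀ r, r ∉ Icc a b → η r = 0)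
    (hx : x ∈ C.Ω) (hχ1 : ‖x‖ ∈ Icc a b → χ =ᶠ[𝓝 x] fun _ => 1) :
    gradSq (C.testFn Γ χ η ε) x - dvg (C.testField Γ χ η ε) x
      ≤ rad Γ η ‖x‖ * (C.lam ε x ^ 2 * C.G0 Γ x)
        + {y | C.sS y ≤ ε}.indicator (C.err Γ D η) x := by
  have hN := C.Ω_sub hx
  have hne := C.ne_zero_N hN
  have hr : ‖x‖ ≠ 0 := norm_ne_zero_iff.2 hne
  have hnn : 0 ≤ {y | C.sS y ≤ ε}.indicator (C.err Γ D η) x :=
    indicator_nonneg (fun y _ => C.err_nonneg Γ hD) x
  have hz : (∀ᶠ y in 𝓝 x, C.fac χ η ε y = 0) →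
      gradSq (C.testFn Γ χ η ε) x - dvg (C.testField Γ χ η ε) x = 0 := fun h => by
    have h1 : C.testFn Γ χ η ε =ᶠ[𝓝 x] fun _ => 0 := by
      filter_upwards [h] with y hy; simp [testFn, hy]
    have h2 : ∀ k, C.testField Γ χ η ε k =ᶠ[𝓝 x] fun _ => 0 := fun k => by
      filter_upwards [h] with y hy; simp [testField, hy]
    simp [gradSq, dvg, pd_congr h1, pd_congr (h2 _), pd_const]
  by_cases hann : ‖x‖ ∈ Icc a b
  swap
  · have hev : ∀ᶠ r in 𝓝 ‖x‖, η r = 0 :=
      eventually_of_mem (isClosed_Icc.isOpen_compl.mem_nhds hann) fun r hr => hsupp r hr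
    have hd0 : deriv η ‖x‖ = 0 := by
      rw [Filter.EventuallyEq.deriv_eq (show η =ᶠ[𝓝 ‖x‖] fun _ => (0 : ℝ) from hev)]; simp
    rw [hz ((continuous_norm.tendsto x).eventually hev |>.mono fun y hy => by simp [fac, hy])]
    simp [rad, hd0, hev.self_of_nhds, hnn]
  · by_cases hs : C.sS x < ε / 2
    · rw [hz ((C.lam_zero_near hε hN hs).mono fun y hy => by simp [fac, hy]),
        show C.lam ε x = 0 from (C.lam_zero_near hε hN hs).self_of_nhds]
      simpa using hnn
    · have hspos : 0 < C.sS x := by linarith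
      have hA : (C.jet x).1 ≠ 0 := fst_ne_of_jsq hspos.ne'
      have hG := C.G_pos Γ hd (subset_closure hx) hN hA
      have hdiv := C.X0_interior Γ hd hx hA
      have hG0 : C.G0 Γ x = C.G Γ x := by simp [G0, hspos.ne']
      have dη : DifferentiableAt ℝ (fun y : EuclideanSpace ℝ (Fin d) => η ‖y‖) x :=
        (hη.contDiffAt.comp x (contDiffAt_norm ℝ hne)).differentiableAt two_ne_zero
      have dl : DifferentiableAt ℝ (C.lam ε) x :=
        (C.contDiffAt_lam ε hN).differentiableAt two_ne_zero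
      have dG : DifferentiableAt ℝ (C.G Γ) x :=
        (C.contDiffAt_G Γ hN hA).differentiableAt two_ne_zero
      have dg : DifferentiableAt ℝ (fun y => Real.sqrt (C.G Γ y)) x := dG.sqrt hG.ne'
      have dX : ∀ k, DifferentiableAt ℝ (C.X0 Γ k) x := fun k =>
        (C.contDiffAt_X0 Γ hN hA k).differentiableAt one_ne_zero
      have hd1 : ∀ k, pd k (fun y : EuclideanSpace ℝ (Fin d) => η ‖y‖) x
          = deriv η ‖x‖ * (x k / ‖x‖) := fun k => by
        rw [pd_comp (hη.differentiable two_ne_zero _)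
          ((contDiffAt_norm ℝ hne (n := 1)).differentiableAt one_ne_zero), pd_norm hne]
      have hd2 : ∀ k, pd k (C.lam ε) x = deriv step (C.sS x / ε) * (pd k C.sS x / ε) := fun k => by
        unfold lam
        have hsd : DifferentiableAt ℝ C.sS x :=
          (C.contDiffAt_sS (n := 1) hN (by norm_num)).differentiableAt one_ne_zero
        rw [pd_comp (f := fun y => C.sS y / ε) ((step_contDiff (n := 1)).differentiable one_ne_zero _)
          (by fun_prop)]
        congr 1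
        simp only [div_eq_inv_mul]
        exact pd_const_mul _ hsd
      have hd3 : ∀ k, pd k (fun y => Real.sqrt (C.G Γ y)) x
          = pd k (C.G Γ) x / (2 * Real.sqrt (C.G Γ x)) := fun k => by
        rw [pd_comp (Real.hasDerivAt_sqrt hG.ne').differentiableAt dG,
          (Real.hasDerivAt_sqrt hG.ne').deriv]
        ring
      have e1 : C.testFn Γ χ η ε =ᶠ[𝓝 x] fun y => η ‖y‖ * (C.lam ε y * Real.sqrt (C.G Γ y)) := by
        filter_upwards [hχ1 hann] with y hy
        simp [testFn, fac, hy]; ring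
      have e2 : ∀ k, C.testField Γ χ η ε k =ᶠ[𝓝 x]
          fun y => η ‖y‖ ^ 2 * (C.lam ε y ^ 2 * C.X0 Γ k y) := fun k => by
        filter_upwards [hχ1 hann] with y hy
        simp [testField, fac, hy]; ring
      have hrad : ∀ {F : Jet d → ℝ}, DifferentiableAt ℝ F (C.jet x) →
          ∑ k, x k * pd k (fun y => F (C.jet y)) x = 0 := fun {F} hF => by
        simp only [C.pd_comp_jet hN hF]
        exact C.radial_jet _ (subset_closure hx) hN
      have hxs : ∑ k, x k * pd k C.sS x = 0 :=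
        hrad ((contDiff_jsq (n := 1)).differentiable one_ne_zero _)
      have hxG : ∑ k, x k * pd k (C.G Γ) x = 0 := hrad
        ((Γ.smooth_K.contDiffAt ((isOpen_ne_fun continuous_fst continuous_const).mem_nhds hA))
          |>.differentiableAt two_ne_zero)
      have hxX : ∑ k, x k * C.X0 Γ k x = 0 := C.radial_jet _ (subset_closure hx) hN
      have hxx : ∑ k, (x k / ‖x‖) ^ 2 = 1 := by
        simp only [div_pow, ← Finset.sum_div]
        rw [← EuclideanSpace.real_norm_sq_eq, div_self (pow_ne_zero 2 hr)]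
      -- abbreviations
      obtain ⟨g, hgdef⟩ : ∃ g, g = Real.sqrt (C.G Γ x) := ⟨_, rfl⟩
      have hg2 : g ^ 2 = C.G Γ x := hgdef ▸ Real.sq_sqrt hG.le
      have hg0 : g ≠ 0 := hgdef ▸ (Real.sqrt_ne_zero'.2 hG)
      set l := C.lam ε x with hl
      set l' := deriv step (C.sS x / ε) / ε with hl'
      set e := η ‖x‖ with he
      set e' := deriv η ‖x‖ with he'
      have p1 : ∀ k, pd k (C.testFn Γ χ η ε) x = e' * (x k / ‖x‖) * (l * g)
          + e * (l' * pd k C.sS x * g + l * (pd k (C.G Γ) x / (2 * g))) := fun k => by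
        rw [pd_congr e1, pd_mul dη (dl.fun_mul dg), pd_mul dl dg, hd1, hd2, hd3, ← hgdef]
        simp only [hl, hl', he, he']; ring
      have p2 : ∀ k, pd k (C.testField Γ χ η ε k) x = 2 * e * e' * (x k / ‖x‖) * (l ^ 2 * C.X0 Γ k x)
          + e ^ 2 * (2 * l * l' * pd k C.sS x * C.X0 Γ k x + l ^ 2 * pd k (C.X0 Γ k) x) := fun k => by
        rw [pd_congr (e2 k), pd_mul (dη.fun_pow 2) ((dl.fun_pow 2).fun_mul (dX k))]
        simp only [sq]
        rw [pd_mul dη dη, pd_mul (dl.fun_mul dl) (dX k), pd_mul dl dl, hd1, hd2]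
        simp only [hl, hl', he, he']; ring
      have key : gradSq (C.testFn Γ χ η ε) x - dvg (C.testField Γ χ η ε) x
          = e' ^ 2 * l ^ 2 * C.G Γ x + e ^ 2 * (l ^ 2 * (∑ k, pd k (C.G Γ) x ^ 2 / (4 * C.G Γ x)
              - dvg (C.X0 Γ) x) + l' ^ 2 * C.G Γ x * ∑ k, pd k C.sS x ^ 2
              + l * l' * ∑ k, pd k C.sS x * (pd k (C.G Γ) x - 2 * C.X0 Γ k x)) := by
        have h1 : ∀ k, pd k (C.testFn Γ χ η ε) x ^ 2 - pd k (C.testField Γ χ η ε k) x
            = e' ^ 2 * l ^ 2 * C.G Γ x * (x k / ‖x‖) ^ 2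
              + 2 * e' * e * l * l' * C.G Γ x / ‖x‖ * (x k * pd k C.sS x)
              + e' * e * l ^ 2 / ‖x‖ * (x k * pd k (C.G Γ) x)
              - 2 * e * e' * l ^ 2 / ‖x‖ * (x k * C.X0 Γ k x)
              + e ^ 2 * (l ^ 2 * (pd k (C.G Γ) x ^ 2 / (4 * C.G Γ x) - pd k (C.X0 Γ k) x)
                + l' ^ 2 * C.G Γ x * pd k C.sS x ^ 2
                + l * l' * (pd k C.sS x * (pd k (C.G Γ) x - 2 * C.X0 Γ k x))) := fun k => by
          rw [p1, p2, ← hg2]
          field_simp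
          ring
        simp only [gradSq, dvg, ← Finset.sum_sub_distrib]
        rw [Finset.sum_congr rfl fun k _ => h1 k]
        simp only [Finset.sum_add_distrib, Finset.sum_sub_distrib, ← Finset.mul_sum, hxx, hxs, hxG,
          hxX, mul_zero, add_zero, sub_zero, mul_one]
      rw [key, hG0]
      have hl1 : l ^ 2 ≤ 1 ∧ |l| ≤ 1 := by
        have := step_mem (C.sS x / ε)
        rw [hl]; simp only [lam]
        exact ⟨by nlinarith [this.1, this.2], abs_le.2 ⟨by linarith [this.1], this.2⟩⟩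
      have hmain : e' ^ 2 * l ^ 2 * C.G Γ x + e ^ 2 * (l ^ 2 *
          (∑ k, pd k (C.G Γ) x ^ 2 / (4 * C.G Γ x) - dvg (C.X0 Γ) x))
          ≤ rad Γ η ‖x‖ * (l ^ 2 * C.G Γ x) := by
        have h1 : ∑ k, pd k (C.G Γ) x ^ 2 / (4 * C.G Γ x) - dvg (C.X0 Γ) x
            ≤ -(((((d : ℝ) - 2) / 2) ^ 2 + Γ.δ) * C.G Γ x / ‖x‖ ^ 2) := by linarith
        have := mul_le_mul_of_nonneg_left h1 (mul_nonneg (sq_nonneg e) (sq_nonneg l))
        have e3 : rad Γ η ‖x‖ * (l ^ 2 * C.G Γ x) = e' ^ 2 * l ^ 2 * C.G Γ x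
            - e ^ 2 * l ^ 2 * (((((d : ℝ) - 2) / 2) ^ 2 + Γ.δ) * C.G Γ x / ‖x‖ ^ 2) := by
          simp only [rad, ← he, ← he']; ring
        rw [e3]
        linarith
      have herr : e ^ 2 * (l' ^ 2 * C.G Γ x * ∑ k, pd k C.sS x ^ 2
          + l * l' * ∑ k, pd k C.sS x * (pd k (C.G Γ) x - 2 * C.X0 Γ k x))
          ≤ {y | C.sS y ≤ ε}.indicator (C.err Γ D η) x := by
        by_cases hsε : C.sS x ≤ ε
        · rw [indicator_of_mem (show x ∈ {y | C.sS y ≤ ε} from hsε)]
          have hl'b : |l'| ≤ D / C.sS x := by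
            rw [hl', abs_div, abs_of_pos hε]
            exact div_le_div₀ hD (hDs _) hspos hsε
          unfold err
          refine mul_le_mul_of_nonneg_left (add_le_add ?_ ?_) (sq_nonneg _)
          · rw [Finset.mul_sum, Finset.mul_sum]
            refine Finset.sum_le_sum fun k _ => ?_
            have hsq : l' ^ 2 ≤ D ^ 2 / C.sS x ^ 2 := by
              rw [← div_pow, ← sq_abs]
              exact pow_le_pow_left₀ (abs_nonneg _) hl'b 2
            calc l' ^ 2 * C.G Γ x * pd k C.sS x ^ 2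
                ≤ D ^ 2 / C.sS x ^ 2 * C.G Γ x * pd k C.sS x ^ 2 := by gcongr
              _ = _ := by rw [abs_of_pos hG]; ring
          · rw [Finset.mul_sum, Finset.mul_sum]
            refine Finset.sum_le_sum fun k _ => ?_
            calc l * l' * (pd k C.sS x * (pd k (C.G Γ) x - 2 * C.X0 Γ k x))
                ≤ |l * l' * (pd k C.sS x * (pd k (C.G Γ) x - 2 * C.X0 Γ k x))| := le_abs_self _
              _ ≤ 1 * (D / C.sS x) * (|pd k C.sS x| * (|pd k (C.G Γ) x| + 2 * |C.X0 Γ k x|)) := by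
                  rw [abs_mul, abs_mul, abs_mul]
                  gcongr
                  · exact hl1.2
                  · exact (abs_sub _ _).trans (le_of_eq (by rw [abs_mul, abs_of_pos (two_pos (α := ℝ))]))
              _ = _ := by ring
        · have : l' = 0 := by
            rw [hl', deriv_step_zero_of_one_lt ((one_lt_div hε).2 (not_le.1 hsε)), zero_div]
          rw [indicator_of_notMem (show x ∉ {y | C.sS y ≤ ε} from hsε), this]
          simp
      linarith

end Cone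

end Vale.Agent.P098
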