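import Vale.Agent.P098.Homog

/-! The jet map, the certificate interface and the homogeneous bounds it yields. -/

noncomputable section

namespace Vale.Agent.P098

open MeasureTheory Set Filter Topology
open scoped ContDiff

/-- Second-order jets: scaled Hessian, gradient, and value over distance. -/
abbrev Jet (d : ℕ) : Type := (Fin d → Fin d → ℝ) × (Fin d → ℝ) × ℝ

variable {d : ℕ}

/-- Derivative of the jet in direction `k` at a unit point `x`. -/
def djet (x : Fin d → ℝ) (A : Fin d → Fin d → ℝ) (v : Fin d → ℝ) (T : Fin d → Fin d → Fin d → ℝ)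
    (w : ℝ) (k : Fin d) : Jet d :=
  (fun i j => x k * A i j + T k i j, fun j => A k j, v k - w * x k)

/-- Laplacian of the jet at a unit point. -/
def ljet (A : Fin d → Fin d → ℝ) (w : ℝ) : Jet d :=
  (((d : ℝ) - 3) • A, 0, -((d : ℝ) - 1) * w)

/-- A pointwise certificate excluding nonflat stable cones in dimension `d`. -/
structure Cert (d : ℕ) where
  /-- homogeneity exponent -/
  al : ℝ
  half_lt : 1 / 2 < al
  lt_one : al < 1
  /-- strictness -/
  δ : ℝ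
  δ_pos : 0 < δ
  /-- the test density -/
  K : Jet d → ℝ
  /-- the flux form -/
  om : Jet d → Jet d →L[ℝ] ℝ
  smooth_K : ContDiffOn ℝ 2 K {j | j.1 ≠ 0}
  smooth_om : ContDiffOn ℝ 1 om {j | j.1 ≠ 0}
  hom_K : ∀ (t : ℝ), 0 < t → ∀ j : Jet d, j.1 ≠ 0 →
    K (t • j.1, j.2) = t ^ (2 * al) * K j
  hom_om : ∀ (t : ℝ), 0 < t → ∀ j q : Jet d, j.1 ≠ 0 →
    om (t • j.1, j.2) (t • q.1, q.2) = t ^ (2 * al) * om j q
  pos : ∀ (x : Fin d → ℝ) (A : Fin d → Fin d → ℝ) (v : Fin d → ℝ) (w : ℝ),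
    ∑ i, x i ^ 2 = 1 → A ≠ 0 → (∀ i j, A i j = A j i) → ∑ i, A i i = 0 →
    (∀ j, ∑ i, x i * A i j = 0) → ∑ i, v i ^ 2 ≤ 1 → w = ∑ i, x i * v i → 0 ≤ w →
    0 < K (A, v, w)
  interior : ∀ (x : Fin d → ℝ) (A : Fin d → Fin d → ℝ) (v : Fin d → ℝ) (w : ℝ)
    (T : Fin d → Fin d → Fin d → ℝ),
    ∑ i, x i ^ 2 = 1 → A ≠ 0 → (∀ i j, A i j = A j i) → ∑ i, A i i = 0 →
    (∀ j, ∑ i, x i * A i j = 0) → ∑ i, v i ^ 2 ≤ 1 → w = ∑ i, x i * v i → 0 ≤ w →
    (∀ i j k, T i j k = T i k j) → (∀ i j k, T i j k = T j i k) → (∀ j, ∑ i, T j i i = 0) →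
    (∀ j k, ∑ i, x i * T i j k = -A j k) →
    ∑ k, fderiv ℝ K (A, v, w) (djet x A v T w k) ^ 2 / (4 * K (A, v, w))
        + ((((d : ℝ) - 2) / 2) ^ 2 + δ) * K (A, v, w)
      ≤ ∑ k, fderiv ℝ om (A, v, w) (djet x A v T w k) (djet x A v T w k)
        + om (A, v, w) (ljet A w)
  boundary : ∀ (x : Fin d → ℝ) (A : Fin d → Fin d → ℝ) (v z : Fin d → ℝ) (H : ℝ),
    ∑ i, x i ^ 2 = 1 → A ≠ 0 → (∀ i j, A i j = A j i) → ∑ i, A i i = 0 →
    (∀ j, ∑ i, x i * A i j = 0) → ∑ i, v i ^ 2 = 1 → ∑ i, x i * v i = 0 →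
    (∀ i, ∑ j, A i j * v j = -H * v i) → ∑ i, z i * v i = 0 → ∑ i, z i * x i = H → 0 ≤ H →
    0 ≤ om (A, v, 0)
        (fun j k => -(∑ l, A j l * A l k) - H * A j k + (∑ a, ∑ b, A a b ^ 2) * v j * v k
          + v j * z k + z j * v k, fun k => -H * v k, 1)
      + H * K (A, v, 0)

namespace Cert

variable (Γ : Cert d)

/-- Norm bound for jets with `‖A‖ = 1` and bounded lower order part, then scaled. -/
theorem bounds (R : ℝ) : ∃ B : ℝ, 0 ≤ B ∧ ∀ j : Jet d, j.1 ≠ 0 → ‖j.2‖ ≤ R →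
    |Γ.K j| ≤ B * ‖j.1‖ ^ (2 * Γ.al) ∧
    ∀ q : Jet d, |fderiv ℝ Γ.K j q| ≤ B * ‖j.1‖ ^ (2 * Γ.al) * (‖q.1‖ / ‖j.1‖ + ‖q.2‖) ∧
      |Γ.om j q| ≤ B * ‖j.1‖ ^ (2 * Γ.al) * (‖q.1‖ / ‖j.1‖ + ‖q.2‖) := by
  set S : Set (Jet d) := Metric.sphere (0 : Fin d → Fin d → ℝ) 1 ×ˢ Metric.closedBall 0 R
  have hS : IsCompact S := (isCompact_sphere _ _).prod (isCompact_closedBall _ _)
  have hO : IsOpen {j : Jet d | j.1 ≠ 0} := isOpen_ne_fun continuous_fst continuous_const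
  have hSO : S ⊆ {j : Jet d | j.1 ≠ 0} := fun j hj h => by
    have := hj.1
    simp [h] at this
  obtain ⟨B1, hB1⟩ := hS.exists_bound_of_continuousOn (Γ.smooth_K.continuousOn.mono hSO)
  obtain ⟨B2, hB2⟩ := hS.exists_bound_of_continuousOn
    ((Γ.smooth_K.continuousOn_fderiv_of_isOpen hO (by norm_num)).mono hSO)
  obtain ⟨B3, hB3⟩ := hS.exists_bound_of_continuousOn (Γ.smooth_om.continuousOn.mono hSO)
  set B := |B1| + |B2| + |B3|
  refine ⟨B, by positivity, fun j hj hR => ?_⟩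
  set t := ‖j.1‖ with ht
  have ht0 : 0 < t := norm_pos_iff.2 hj
  set j0 : Jet d := (t⁻¹ • j.1, j.2) with hj0
  have hmem : j0 ∈ S := ⟨by simp [j0, t, norm_smul, hj], by simpa [j0] using hR⟩
  have hne : j0.1 ≠ 0 := hSO hmem
  have hback : (t • j0.1, j0.2) = j := by simp [j0, smul_smul, ht0.ne']
  have hn : ∀ q : Jet d, ‖((t⁻¹ • q.1, q.2) : Jet d)‖ ≤ ‖q.1‖ / t + ‖q.2‖ := fun q => by
    rw [Prod.norm_def]
    refine max_le ?_ ?_
    · simp only [norm_smul, norm_inv, Real.norm_eq_abs, abs_of_pos ht0]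
      rw [inv_mul_eq_div]
      linarith [norm_nonneg q.2]
    · have : 0 ≤ ‖q.1‖ / t := by positivity
      simp only
      linarith
  have htp : 0 ≤ t ^ (2 * Γ.al) := Real.rpow_nonneg ht0.le _
  have hb1 : B1 ≤ B := le_trans (le_abs_self _) (by simp only [B]; linarith [abs_nonneg B2, abs_nonneg B3])
  have hb2 : B2 ≤ B := le_trans (le_abs_self _) (by simp only [B]; linarith [abs_nonneg B1, abs_nonneg B3])
  have hb3 : B3 ≤ B := le_trans (le_abs_self _) (by simp only [B]; linarith [abs_nonneg B1, abs_nonneg B2])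
  refine ⟨?_, fun q => ⟨?_, ?_⟩⟩
  · have := Γ.hom_K t ht0 j0 hne
    rw [hback] at this
    rw [this, abs_mul, abs_of_nonneg htp, mul_comm B]
    refine mul_le_mul_of_nonneg_left ?_ htp
    exact (hB1 j0 hmem).trans hb1
  · let S' : Jet d →L[ℝ] Jet d :=
      (t • ContinuousLinearMap.fst ℝ (Fin d → Fin d → ℝ) ((Fin d → ℝ) × ℝ)).prod
        (ContinuousLinearMap.snd ℝ (Fin d → Fin d → ℝ) ((Fin d → ℝ) × ℝ))
    have hev : (fun y => Γ.K (S' y)) =ᶠ[𝓝 j0] fun y => t ^ (2 * Γ.al) * Γ.K y :=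
      eventually_of_mem (hO.mem_nhds hne) fun y hy => by simpa [S'] using Γ.hom_K t ht0 y hy
    have hKd : ∀ y : Jet d, y.1 ≠ 0 → DifferentiableAt ℝ Γ.K y := fun y hy =>
      (Γ.smooth_K.contDiffAt (hO.mem_nhds hy)).differentiableAt two_ne_zero
    have hSj : S' j0 = j := by simp [S', j0, smul_smul, ht0.ne']
    have h1 : HasFDerivAt (fun y => Γ.K (S' y)) ((fderiv ℝ Γ.K j).comp S') j0 :=
      HasFDerivAt.comp (g := Γ.K) j0 (by rw [hSj]; exact (hKd j hj).hasFDerivAt) S'.hasFDerivAt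
    have h2 : fderiv ℝ (fun y => Γ.K (S' y)) j0 = t ^ (2 * Γ.al) • fderiv ℝ Γ.K j0 := by
      rw [hev.fderiv_eq, fderiv_const_mul (hKd j0 hne)]
    rw [h1.fderiv] at h2
    have h3 := congrArg (fun L : Jet d →L[ℝ] ℝ => L (t⁻¹ • q.1, q.2)) h2
    have hq : S' (t⁻¹ • q.1, q.2) = q := by simp [S', smul_smul, ht0.ne']
    simp only [ContinuousLinearMap.comp_apply, hq] at h3
    rw [h3, ContinuousLinearMap.smul_apply, smul_eq_mul, abs_mul, abs_of_nonneg htp,
      mul_comm B, mul_assoc]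
    refine mul_le_mul_of_nonneg_left ?_ htp
    calc _ ≤ ‖fderiv ℝ Γ.K j0‖ * ‖((t⁻¹ • q.1, q.2) : Jet d)‖ := by
          rw [← Real.norm_eq_abs]; exact ContinuousLinearMap.le_opNorm _ _
      _ ≤ B * (‖q.1‖ / t + ‖q.2‖) :=
          mul_le_mul ((hB2 j0 hmem).trans hb2) (hn q) (norm_nonneg _) (by positivity)
  · have := Γ.hom_om t ht0 j0 (t⁻¹ • q.1, q.2) hne
    simp only [smul_smul, mul_inv_cancel₀ ht0.ne', one_smul] at this
    have hb : (t • j0.1, j0.2) = j := hback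
    simp only [j0, smul_smul, mul_inv_cancel₀ ht0.ne', one_smul] at this
    rw [this, abs_mul, abs_of_nonneg htp, mul_comm B, mul_assoc]
    refine mul_le_mul_of_nonneg_left ?_ htp
    calc _ ≤ ‖Γ.om j0‖ * ‖((t⁻¹ • q.1, q.2) : Jet d)‖ := by
          rw [← Real.norm_eq_abs]; exact ContinuousLinearMap.le_opNorm _ _
      _ ≤ B * (‖q.1‖ / t + ‖q.2‖) :=
          mul_le_mul ((hB3 j0 hmem).trans hb3) (hn q) (norm_nonneg _) (by positivity)

end Cert

theorem pd_norm {x : EuclideanSpace ℝ (Fin d)} (hx : x ≠ 0) (k : Fin d) :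
    pd k (fun y => ‖y‖) x = x k / ‖x‖ := by
  have hn : DifferentiableAt ℝ (fun y : EuclideanSpace ℝ (Fin d) => ‖y‖) x :=
    (contDiffAt_norm ℝ hx (n := 1)).differentiableAt one_ne_zero
  have h : (fun y : EuclideanSpace ℝ (Fin d) => ‖y‖ * ‖y‖) = fun y => ∑ i, y i * y i := by
    funext y
    rw [← sq, EuclideanSpace.real_norm_sq_eq]
    simp only [sq]
  have e := pd_congr (i := k) (x := x) (Filter.EventuallyEq.of_eq h)
  have hd : ∀ i, DifferentiableAt ℝ (fun y : EuclideanSpace ℝ (Fin d) => y i) x := fun i =>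
    (EuclideanSpace.proj (𝕜 := ℝ) (ι := Fin d) i).differentiableAt
  rw [pd_mul hn hn, pd_sum _ (fun i _ => (hd i).fun_mul (hd i))] at e
  simp only [pd_mul (hd _) (hd _), pd_apply, mul_ite, mul_one, mul_zero, ite_mul, one_mul,
    zero_mul, Finset.sum_add_distrib, Finset.sum_ite_eq', Finset.mem_univ, if_true] at e
  rw [eq_div_iff (norm_ne_zero_iff.2 hx)]
  linarith

namespace Cone

variable (C : Cone d) {x : EuclideanSpace ℝ (Fin d)}

/-- The jet map. -/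
def jet (x : EuclideanSpace ℝ (Fin d)) : Jet d :=
  (fun i j => ‖x‖ * C.A i j x, fun i => C.P i x, C.U x / ‖x‖)

/-- The derivative of the jet map. -/
def jet' (k : Fin d) (x : EuclideanSpace ℝ (Fin d)) : Jet d :=
  (fun i j => x k / ‖x‖ * C.A i j x + ‖x‖ * C.T k i j x, fun j => C.A k j x,
    C.P k x / ‖x‖ - C.U x * x k / ‖x‖ ^ 3)

theorem ne_zero_N (hx : x ∈ C.N) : x ≠ 0 := fun h => C.zero_notMem (h ▸ hx)

theorem contDiffAt_jet {n : ℕ∞ω} (hx : x ∈ C.N) (hn6 : n ≤ 6) :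
    ContDiffAt ℝ n C.jet x := by
  have hn : ContDiffAt ℝ n (fun y : EuclideanSpace ℝ (Fin d) => ‖y‖) x :=
    contDiffAt_norm ℝ (C.ne_zero_N hx)
  have hat : ∀ {f : EuclideanSpace ℝ (Fin d) → ℝ}, ContDiffOn ℝ 6 f C.N → ContDiffAt ℝ n f x :=
    fun hf => (hf.contDiffAt (C.isOpen_N.mem_nhds hx)).of_le hn6
  refine (contDiffAt_pi.2 fun i => contDiffAt_pi.2 fun j => hn.mul (hat (C.contDiffOn_A i j))).prodMk
    ((contDiffAt_pi.2 fun i => hat ((C.contDiffOn_P i).of_le (by norm_num))).prodMk ?_)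
  exact (hat (C.smooth.of_le (by norm_num))).div hn (norm_ne_zero_iff.2 (C.ne_zero_N hx))

theorem fderiv_jet (hx : x ∈ C.N) (k : Fin d) :
    fderiv ℝ C.jet x (EuclideanSpace.single k 1) = C.jet' k x := by
  have hj := ((C.contDiffAt_jet (n := 1) hx (by norm_num)).differentiableAt one_ne_zero).hasFDerivAt
  have hne := C.ne_zero_N hx
  have hn : DifferentiableAt ℝ (fun y : EuclideanSpace ℝ (Fin d) => ‖y‖) x :=
    (contDiffAt_norm ℝ hne (n := 1)).differentiableAt one_ne_zero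
  refine Prod.ext ?_ (Prod.ext ?_ ?_)
  · funext i j
    have h := ((((ContinuousLinearMap.proj (R := ℝ) (φ := fun _ : Fin d => ℝ) j).comp
      (ContinuousLinearMap.proj (R := ℝ) (φ := fun _ : Fin d => Fin d → ℝ) i)).comp
      (ContinuousLinearMap.fst ℝ (Fin d → Fin d → ℝ) ((Fin d → ℝ) × ℝ))).hasFDerivAt.comp x hj).fderiv
    have h2 := congrArg (fun L => L (EuclideanSpace.single k 1)) h
    simp only [ContinuousLinearMap.comp_apply] at h2
    refine Eq.trans h2.symm ?_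
    show pd k (fun y => ‖y‖ * C.A i j y) x = _
    rw [pd_mul hn (C.diffAt (C.contDiffOn_A i j) hx (by simp)), pd_norm hne]
    show ‖x‖ * C.T k i j x + x k / ‖x‖ * C.A i j x = _
    simp only [jet']; ring
  · funext i
    have h := (((ContinuousLinearMap.proj (R := ℝ) (φ := fun _ : Fin d => ℝ) i).comp
      ((ContinuousLinearMap.fst ℝ (Fin d → ℝ) ℝ).comp
      (ContinuousLinearMap.snd ℝ (Fin d → Fin d → ℝ) ((Fin d → ℝ) × ℝ)))).hasFDerivAt.comp x hj).fderiv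
    have h2 := congrArg (fun L => L (EuclideanSpace.single k 1)) h
    simp only [ContinuousLinearMap.comp_apply] at h2
    refine Eq.trans h2.symm ?_
    rfl
  · have h := (((ContinuousLinearMap.snd ℝ (Fin d → ℝ) ℝ).comp
      (ContinuousLinearMap.snd ℝ (Fin d → Fin d → ℝ) ((Fin d → ℝ) × ℝ))).hasFDerivAt.comp x hj).fderiv
    have h2 := congrArg (fun L => L (EuclideanSpace.single k 1)) h
    simp only [ContinuousLinearMap.comp_apply] at h2
    refine Eq.trans h2.symm ?_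
    show pd k (fun y => C.U y / ‖y‖) x = _
    rw [pd_div' (C.diffAt C.smooth hx (by simp)) hn (norm_ne_zero_iff.2 hne), pd_norm hne]
    show (C.P k x * ‖x‖ - C.U x * (x k / ‖x‖)) / ‖x‖ ^ 2 = _
    simp only [jet']
    field_simp
where
  pd_div' {i : Fin d} {f g : EuclideanSpace ℝ (Fin d) → ℝ} {x : EuclideanSpace ℝ (Fin d)}
    (hf : DifferentiableAt ℝ f x) (hg : DifferentiableAt ℝ g x) (h0 : g x ≠ 0) :
      pd i (fun y => f y / g y) x = (pd i f x * g x - f x * pd i g x) / g x ^ 2 := by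
    have hi : DifferentiableAt ℝ (fun y => (g y)⁻¹) x := hg.inv h0
    simp only [div_eq_mul_inv]
    rw [pd_mul hf hi, pd_comp (φ := fun s : ℝ => s⁻¹) (differentiableAt_inv h0) hg, deriv_inv]
    field_simp
    ring

theorem U_smul (hx : x ∈ C.Ω) {r : ℝ} (hr : 0 < r) : C.U (r • x) = r * C.U x := by
  rw [C.eq_u _ (C.smul_mem hx hr), C.eq_u _ hx, C.homog r hr]

theorem A_smul (hx : x ∈ C.Ω) {r : ℝ} (hr : 0 < r) (i j : Fin d) :
    r * C.A i j (r • x) = C.A i j x := by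
  have hP : DifferentiableAt ℝ (C.P j) (r • x) :=
    C.diffAt (C.contDiffOn_P j) (C.Ω_sub (C.smul_mem hx hr)) (by simp)
  have hev : (fun y => C.P j (r • y)) =ᶠ[𝓝 x] C.P j :=
    eventually_of_mem (C.isOpen_Ω.mem_nhds hx) fun y hy => C.P_smul hy hr j
  have hs : HasFDerivAt (fun y : EuclideanSpace ℝ (Fin d) => r • y)
      (r • ContinuousLinearMap.id ℝ (EuclideanSpace ℝ (Fin d))) x :=
    (hasFDerivAt_id x).const_smul r
  have hc : HasFDerivAt (fun y => C.P j (r • y))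
      ((fderiv ℝ (C.P j) (r • x)).comp (r • ContinuousLinearMap.id ℝ _)) x :=
    HasFDerivAt.comp x hP.hasFDerivAt hs
  have h1 : pd i (fun y => C.P j (r • y)) x = r * C.A i j (r • x) := by
    simp [pd, hc.fderiv, Cone.A]
  rw [← h1, pd_congr hev]
  rfl

theorem jet_smul (hx : x ∈ C.Ω) {r : ℝ} (hr : 0 < r) : C.jet (r • x) = C.jet x := by
  refine Prod.ext ?_ (Prod.ext ?_ ?_)
  · funext i j
    simp only [jet, norm_smul, Real.norm_eq_abs, abs_of_pos hr]
    rw [← C.A_smul hx hr i j]; ring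
  · funext i; exact C.P_smul hx hr i
  · simp only [jet, norm_smul, Real.norm_eq_abs, abs_of_pos hr, C.U_smul hx hr]
    rw [mul_div_mul_left _ _ hr.ne']

theorem sum_smul_jet' (hx : x ∈ closure C.Ω) (hN : x ∈ C.N) : ∑ k, x k • C.jet' k x = 0 := by
  have hne := norm_ne_zero_iff.2 (C.ne_zero_N hN)
  have hsq : ∑ k, x k * x k = ‖x‖ ^ 2 := by
    rw [EuclideanSpace.real_norm_sq_eq]; simp only [sq]
  refine Prod.ext ?_ (Prod.ext ?_ ?_)
  · funext i j
    simp only [Prod.fst_sum, Prod.smul_fst, Finset.sum_apply, Pi.smul_apply, smul_eq_mul, jet',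
      Prod.fst_zero, Pi.zero_apply, mul_add, Finset.sum_add_distrib]
    rw [show ∑ k, x k * (x k / ‖x‖ * C.A i j x) = ‖x‖ * C.A i j x by
      rw [Finset.sum_congr rfl fun k _ => show x k * (x k / ‖x‖ * C.A i j x)
        = x k * x k * (C.A i j x / ‖x‖) by ring, ← Finset.sum_mul, hsq]
      field_simp,
      show ∑ k, x k * (‖x‖ * C.T k i j x) = ‖x‖ * -C.A i j x by
        rw [← C.euler2' hx hN i j, Finset.mul_sum]
        exact Finset.sum_congr rfl fun k _ => by ring]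
    ring
  · funext j
    simp only [Prod.snd_sum, Prod.smul_snd, Prod.fst_sum, Prod.smul_fst, Finset.sum_apply,
      Pi.smul_apply, smul_eq_mul, jet', Prod.snd_zero, Prod.fst_zero, Pi.zero_apply]
    exact C.euler1' hx hN j
  · simp only [Prod.snd_sum, Prod.smul_snd, smul_eq_mul, jet', Prod.snd_zero, mul_sub,
      Finset.sum_sub_distrib]
    rw [show ∑ k, x k * (C.P k x / ‖x‖) = C.U x / ‖x‖ by
      rw [← C.euler0' hx hN, Finset.sum_div]
      exact Finset.sum_congr rfl fun k _ => by ring,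
      show ∑ k, x k * (C.U x * x k / ‖x‖ ^ 3) = C.U x / ‖x‖ by
        rw [Finset.sum_congr rfl fun k _ => show x k * (C.U x * x k / ‖x‖ ^ 3)
          = x k * x k * (C.U x / ‖x‖ ^ 3) by ring, ← Finset.sum_mul, hsq]
        field_simp]
    ring

end Cone

end Vale.Agent.P098
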