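import Vale.Agent.P098.Half

/-! A cone with vanishing Hessian is zero or a flat solution. -/

noncomputable section

namespace Vale.Agent.P098

open MeasureTheory Set Filter Topology

variable {d : ℕ}

namespace Cone

variable (C : Cone d)

/-- **Flatness from a vanishing Hessian.** -/
theorem flat (hd : 2 ≤ d) (hA : ∀ x ∈ C.Ω, ∀ i j, C.A i j x = 0) :
    C.u = 0 ∨ ∃ e : EuclideanSpace ℝ (Fin d), ‖e‖ = 1 ∧
      ∀ x, C.u x = max (∑ i, x i * e i) 0 := by
  rcases C.Ω.eq_empty_or_nonempty with h | ⟨x0, hx0⟩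
  · left
    funext x
    exact C.u_eq_zero (by simp [h])
  right
  have hA' : ∀ a : EuclideanSpace ℝ (Fin d), ∀ y ∈ C.Ω, (∀ i, C.P i y = C.P i a) →
      ∀ᶠ z in 𝓝 y, ∀ i j, C.A i j z = 0 := fun _ y hy _ =>
    eventually_of_mem (C.isOpen_Ω.mem_nhds hy) fun z hz => hA z hz
  obtain ⟨z, hz0, hz⟩ := exists_orth hd fun i => C.P i x0
  obtain ⟨hzN, hzf, hzP⟩ := C.plane_frontier hx0 (hA' x0) hz hz0
  have hone : ∑ i, C.P i x0 ^ 2 = 1 := by
    rw [← C.sum_P_sq_frontier hzf hzN]
    exact Finset.sum_congr rfl fun i _ => by rw [hzP i]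
  have hin : ∀ y ∈ C.Ω, 0 < ∑ i, y i * C.P i x0 := by
    intro y hy
    by_contra hle
    have hyP : ∑ i, y i * C.P i y = C.u y := by rw [C.euler0 hy, C.eq_u y hy]
    have hne : ¬ ∀ i, C.P i y = C.P i x0 := by
      intro h
      rw [Finset.sum_congr rfl fun i _ => by rw [h i]] at hyP
      have : 0 < C.u y := hy
      linarith
    obtain ⟨w, hw0, hw⟩ := exists_orth hd fun i => C.P i y
    obtain ⟨hwN, hwf, hwP⟩ := C.plane_frontier hy (hA' y) hw hw0
    have hone' : ∑ i, C.P i y ^ 2 = 1 := by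
      rw [← C.sum_P_sq_frontier hwf hwN]
      exact Finset.sum_congr rfl fun i _ => by rw [hwP i]
    -- two half spaces with different constant gradients are disjoint
    let s : EuclideanSpace ℝ (Fin d) := WithLp.toLp 2 fun i => C.P i x0 + C.P i y
    have e1 : ∑ i, s i * C.P i x0 = 1 + ∑ i, C.P i x0 * C.P i y := by
      rw [← hone, ← Finset.sum_add_distrib]
      exact Finset.sum_congr rfl fun i _ => by simp [s]; ring
    have e2 : ∑ i, s i * C.P i y = 1 + ∑ i, C.P i x0 * C.P i y := by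
      rw [← hone', ← Finset.sum_add_distrib]
      exact Finset.sum_congr rfl fun i _ => by simp [s]; ring
    by_cases hc : 0 < 1 + ∑ i, C.P i x0 * C.P i y
    · refine hne fun i => ?_
      rw [← (C.half_space hy (hA' y) (e2 ▸ hc)).2 i, (C.half_space hx0 (hA' x0) (e1 ▸ hc)).2 i]
    · have e3 : ∑ i, (C.P i x0 + C.P i y) ^ 2 = 2 * (1 + ∑ i, C.P i x0 * C.P i y) := by
        calc _ = ∑ i, (C.P i x0 ^ 2 + C.P i y ^ 2 + 2 * (C.P i x0 * C.P i y)) :=
              Finset.sum_congr rfl fun i _ => by ring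
          _ = _ := by rw [Finset.sum_add_distrib, Finset.sum_add_distrib, hone, hone',
                ← Finset.mul_sum]; ring
      have h0 : ∑ i, (C.P i x0 + C.P i y) ^ 2 = 0 :=
        le_antisymm (by linarith) (Finset.sum_nonneg fun i _ => sq_nonneg _)
      have hneg : ∀ i, C.P i y = -C.P i x0 := fun i => by
        have := (Finset.sum_eq_zero_iff_of_nonneg fun j _ => sq_nonneg _).1 h0 i (Finset.mem_univ i)
        have h2 := pow_eq_zero_iff (two_ne_zero) |>.1 this
        linarith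
      obtain ⟨-, -, hzP'⟩ := C.plane_frontier hy (hA' y) (z := z) (by
        simp only [hneg, mul_neg, Finset.sum_neg_distrib, hz, neg_zero]) hz0
      exact hne fun i => (hzP' i).symm.trans (hzP i)
  refine ⟨WithLp.toLp 2 fun i => C.P i x0, ?_, fun y => ?_⟩
  · rw [EuclideanSpace.norm_eq]
    simp only [Real.norm_eq_abs, sq_abs]
    rw [hone, Real.sqrt_one]
  · simp only
    by_cases hy : 0 < ∑ i, y i * C.P i x0
    · obtain ⟨hyΩ, hP⟩ := C.half_space hx0 (hA' x0) hy
      rw [max_eq_left hy.le, ← C.eq_u y hyΩ, ← C.euler0 hyΩ]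
      exact Finset.sum_congr rfl fun i _ => by rw [hP i]
    · rw [max_eq_right (not_lt.1 hy), C.u_eq_zero fun h => hy (hin y h)]

end Cone

end Vale.Agent.P098
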