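import Vale.Agent.P098.Calc

/-! Integrals of radial times zero-homogeneous functions factor. -/

noncomputable section

namespace Vale.Agent.P098

open MeasureTheory Set Filter Topology

variable {d : ℕ}

theorem integral_volumeIoiPow (n : ℕ) (f : ℝ → ℝ) :
    ∫ r : Ioi (0 : ℝ), f r ∂Measure.volumeIoiPow n = ∫ r in Ioi (0 : ℝ), r ^ n * f r := by
  rw [Measure.volumeIoiPow, integral_withDensity_eq_integral_toReal_smul (by fun_prop)
    (Eventually.of_forall fun _ => ENNReal.ofReal_lt_top)]
  rw [← integral_subtype_comap measurableSet_Ioi fun r : ℝ => r ^ n * f r]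
  refine integral_congr_ae (Eventually.of_forall fun r => ?_)
  show (ENNReal.ofReal _).toReal • f r = _
  rw [ENNReal.toReal_ofReal (pow_nonneg (le_of_lt r.2) n), smul_eq_mul]

/-- Polar factorisation for zero-homogeneous functions. -/
theorem polar (hd : 0 < d) {g : EuclideanSpace ℝ (Fin d) → ℝ}
    (hg : ∀ r : ℝ, 0 < r → ∀ x, x ≠ 0 → g (r • x) = g x) :
    ∃ c : ℝ, ∀ f : ℝ → ℝ,
      ∫ x, f ‖x‖ * g x = c * ∫ r in Ioi (0 : ℝ), r ^ (d - 1) * f r := by
  have : Nontrivial (EuclideanSpace ℝ (Fin d)) := by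
    refine ⟨EuclideanSpace.single ⟨0, hd⟩ 1, 0, fun h => ?_⟩
    have := congrArg (fun v : EuclideanSpace ℝ (Fin d) => v ⟨0, hd⟩) h
    simp at this
  refine ⟨∫ w : Metric.sphere (0 : EuclideanSpace ℝ (Fin d)) 1, g w ∂volume.toSphere, fun f => ?_⟩
  calc ∫ x, f ‖x‖ * g x
      = ∫ x : ({0}ᶜ : Set (EuclideanSpace ℝ (Fin d))),
          f ‖(x : EuclideanSpace ℝ (Fin d))‖ * g x ∂(volume.comap Subtype.val) := by
        rw [integral_subtype_comap (measurableSet_singleton _).compl fun x => f ‖x‖ * g x,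
          restrict_compl_singleton]
    _ = ∫ p : Metric.sphere (0 : EuclideanSpace ℝ (Fin d)) 1 × Ioi (0 : ℝ),
          f p.2 * g p.1 ∂(volume.toSphere.prod
            (Measure.volumeIoiPow (Module.finrank ℝ (EuclideanSpace ℝ (Fin d)) - 1))) := by
        rw [← (Measure.measurePreserving_homeomorphUnitSphereProd volume).integral_comp
          (Homeomorph.measurableEmbedding _)
          fun p : Metric.sphere (0 : EuclideanSpace ℝ (Fin d)) 1 × Ioi (0 : ℝ) => f p.2 * g p.1]
        refine integral_congr_ae (Eventually.of_forall fun x => ?_)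
        have hx : (x : EuclideanSpace ℝ (Fin d)) ≠ 0 := x.2
        simp only [homeomorphUnitSphereProd_apply_fst_coe, homeomorphUnitSphereProd_apply_snd_coe]
        rw [hg _ (inv_pos.2 (norm_pos_iff.2 hx)) _ hx]
    _ = _ := by
        rw [show (fun p : Metric.sphere (0 : EuclideanSpace ℝ (Fin d)) 1 × Ioi (0 : ℝ) =>
          f p.2 * g p.1) = fun p => g p.1 * f p.2 from funext fun p => mul_comm _ _,
          integral_prod_mul (fun w : Metric.sphere (0 : EuclideanSpace ℝ (Fin d)) 1 => g w)
            (fun r : Ioi (0 : ℝ) => f r), integral_volumeIoiPow, finrank_euclideanSpace_fin]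

end Vale.Agent.P098
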