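import Vale.Agent.P098.Strip

/-! A radial test function beating the Hardy constant. -/

noncomputable section

namespace Vale.Agent.P098

open MeasureTheory Set Filter Topology
open scoped ContDiff

theorem exists_deriv_step_bound : ∃ B : ℝ, 0 ≤ B ∧ ∀ s ∈ Icc (-10 : ℝ) 10, |deriv step s| ≤ B := by
  obtain ⟨B, hB⟩ := (isCompact_Icc (a := (-10 : ℝ)) (b := 10)).exists_bound_of_continuousOn
    ((step_contDiff (n := 1)).continuous_deriv (by simp)).continuousOn
  exact ⟨max B 0, le_max_right _ _, fun s hs => le_trans (hB s hs) (le_max_left _ _)⟩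

/-- **A radial test function** with negative Hardy form for every constant above the critical one. -/
theorem exists_radial_test {d : ℕ} (hd : 2 ≤ d) {δ : ℝ} (hδ : 0 < δ) :
    ∃ η : ℝ → ℝ, ContDiff ℝ 2 η ∧
      (∃ a b, 0 < a ∧ a ≤ b ∧ ∀ r, r ∉ Icc a b → η r = 0) ∧
      ∫ r in Ioi (0 : ℝ), r ^ (d - 1) *
        ((deriv η r) ^ 2 - ((((d : ℝ) - 2) / 2) ^ 2 + δ) * η r ^ 2 / r ^ 2) < 0 := by
  obtain ⟨a, ha⟩ : ∃ a : ℝ, a = ((d : ℝ) - 2) / 2 := ⟨_, rfl⟩
  have ha0 : 0 ≤ a := by
    have : (2 : ℝ) ≤ d := by exact_mod_cast hd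
    rw [ha]; linarith
  obtain ⟨B, hB0, hB⟩ := exists_deriv_step_bound
  obtain ⟨c, hc⟩ : ∃ c, c = 2 * a * B + 2 * B ^ 2 := ⟨_, rfl⟩
  have hc0 : 0 ≤ c := hc ▸ by positivity
  obtain ⟨M, hM, hlog⟩ : ∃ M : ℝ, 8 ≤ M ∧ 3 * c < δ * Real.log (M / 4) := by
    refine ⟨max 8 (4 * Real.exp (3 * c / δ + 1)), le_max_left _ _, ?_⟩
    have h1 : 3 * c / δ + 1 ≤ Real.log (max 8 (4 * Real.exp (3 * c / δ + 1)) / 4) := by
      rw [Real.le_log_iff_exp_le (by positivity), le_div_iff₀ (by norm_num)]
      linarith [le_max_right (8 : ℝ) (4 * Real.exp (3 * c / δ + 1))]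
    have h2 := mul_le_mul_of_nonneg_left h1 hδ.le
    rw [mul_add, mul_div_cancel₀ _ hδ.ne', mul_one] at h2
    linarith
  let φ : ℝ → ℝ := fun r => step r * step (2 - r / M)
  let η : ℝ → ℝ := fun r => r ^ (-a) * φ r
  have hφc : ContDiff ℝ 2 φ :=
    (step_contDiff (n := 2)).mul ((step_contDiff (n := 2)).comp (by fun_prop))
  have hφd : ∀ r, HasDerivAt φ
      (deriv step r * step (2 - r / M) - step r * deriv step (2 - r / M) / M) r := by
    intro r
    have h1 : ∀ s, HasDerivAt step (deriv step s) s := fun s =>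
      ((step_contDiff (n := 1)).differentiable one_ne_zero s).hasDerivAt
    have h2 : HasDerivAt (fun s => 2 - s / M) (-(1 / M)) r := by
      simpa using ((hasDerivAt_id r).div_const M).const_sub 2
    have h3 : HasDerivAt (step ∘ fun s => 2 - s / M) (deriv step (2 - r / M) * -(1 / M)) r :=
      HasDerivAt.comp (h := fun s => 2 - s / M) (h₂ := step) r (h1 (2 - r / M)) h2
    exact ((h1 r).mul h3).congr_deriv (by simp only [Function.comp_apply]; ring)
  have hφ0 : ∀ r, r ∉ Icc (1 / 2 : ℝ) (2 * M) → φ r = 0 := by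
    intro r hr
    simp only [mem_Icc, not_and_or, not_le] at hr
    rcases hr with h | h
    · simp [φ, step_zero h.le]
    · have : 2 - r / M ≤ 1 / 2 := by
        have : 2 ≤ r / M := by rw [le_div_iff₀ (by linarith)]; linarith
        linarith
      simp [φ, step_zero this]
  have hφ01 : ∀ r, |φ r| ≤ 1 := fun r => by
    simp only [φ]
    rw [abs_of_nonneg (mul_nonneg (step_mem _).1 (step_mem _).1)]
    exact mul_le_one₀ (step_mem _).2 (step_mem _).1 (step_mem _).2
  have hts : tsupport η ⊆ Icc (1 / 2) (2 * M) := closure_minimal (fun r hr => by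
    by_contra h
    exact hr (by simp [η, hφ0 r h])) isClosed_Icc
  have hη2 : ContDiff ℝ 2 η := by
    refine contDiff_of_tsupport (isOpen_Ioi (a := 0)) ?_
      (hts.trans fun r hr => lt_of_lt_of_le (by norm_num) hr.1)
    intro r hr
    exact ((Real.contDiffAt_rpow_const_of_ne (ne_of_gt hr)).mul hφc.contDiffAt).contDiffWithinAt
  refine ⟨η, hη2,
    ⟨1 / 2, 2 * M, by norm_num, by linarith, fun r hr => by simp [η, hφ0 r hr]⟩, ?_⟩
  rw [← ha]
  obtain ⟨f, hf⟩ : ∃ f : ℝ → ℝ, ∀ r, f r =
      -(2 * a) * (φ r * deriv φ r) + r * deriv φ r ^ 2 - δ * φ r ^ 2 / r := ⟨_, fun r => rfl⟩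
  have heq : ∀ r ∈ Ioi (0 : ℝ),
      r ^ (d - 1) * ((deriv η r) ^ 2 - (a ^ 2 + δ) * η r ^ 2 / r ^ 2) = f r := by
    intro r hr
    have hr' : 0 < r := hr
    have hd1 : deriv η r = -a * r ^ (-a - 1) * φ r + r ^ (-a) * deriv φ r := by
      have h := (Real.hasDerivAt_rpow_const (x := r) (p := -a) (Or.inl hr'.ne')).mul
        (hφc.differentiable two_ne_zero r).hasDerivAt
      exact h.deriv
    have hp : r ^ (-a) = r * r ^ (-a - 1) := by
      rw [mul_comm, ← Real.rpow_add_one hr'.ne', sub_add_cancel]
    have hpow : r ^ (d - 1) * (r ^ (-a - 1)) ^ 2 = r⁻¹ := by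
      rw [← Real.rpow_natCast, ← Real.rpow_natCast (r ^ (-a - 1)), ← Real.rpow_mul hr'.le,
        ← Real.rpow_add hr', ← Real.rpow_neg_one r]
      congr 1
      rw [ha, Nat.cast_sub (by omega)]
      push_cast
      ring
    simp only [η] at hd1 ⊢
    rw [hd1, hp, hf]
    calc _ = r ^ (d - 1) * (r ^ (-a - 1)) ^ 2 *
          ((-a * φ r + r * deriv φ r) ^ 2 - (a ^ 2 + δ) * φ r ^ 2) := by field_simp
      _ = _ := by
          rw [hpow]
          field_simp
          ring
  rw [setIntegral_congr_fun measurableSet_Ioi heq]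
  have hfout : ∀ r ∈ Ioi (0 : ℝ) \ Ioc (1 / 2) (2 * M), f r = 0 := by
    intro r hr
    obtain ⟨-, hr2⟩ := hr
    simp only [mem_Ioc, not_and_or, not_lt, not_le] at hr2
    have hz : φ r = 0 ∧ deriv φ r = 0 := by
      rcases hr2 with h | h
      · refine ⟨by simp [φ, step_zero h], ?_⟩
        rw [(hφd r).deriv, step_zero h]
        have : deriv step r = 0 := by
          have hmin : IsLocalMin step r :=
            .of_forall fun s => (step_zero h).symm ▸ (step_mem s).1
          exact hmin.deriv_eq_zero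
        simp [this]
      · refine ⟨hφ0 r fun hh => not_lt.2 hh.2 h, ?_⟩
        have : φ =ᶠ[𝓝 r] fun _ => 0 := eventually_of_mem (Ioi_mem_nhds h) fun s hs =>
          hφ0 s fun hh => not_lt.2 hh.2 hs
        rw [this.deriv_eq]; simp
    simp [hf, hz.1, hz.2]
  rw [setIntegral_eq_of_subset_of_forall_sdiff_eq_zero measurableSet_Ioi
    (fun r hr => lt_trans (by norm_num) hr.1) hfout,
    ← intervalIntegral.integral_of_le (by linarith : (1 : ℝ) / 2 ≤ 2 * M)]
  have hfc : ContinuousOn f (Ioi 0) := by
    have hd' : Continuous (deriv φ) := hφc.continuous_deriv (by norm_num)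
    have : f = fun r => -(2 * a) * (φ r * deriv φ r) + r * deriv φ r ^ 2 - δ * φ r ^ 2 / r :=
      funext hf
    rw [this]
    refine ((continuous_const.mul (hφc.continuous.mul hd')).add
      (continuous_id.mul (hd'.pow 2))).continuousOn.sub ?_
    exact (continuous_const.mul (hφc.continuous.pow 2)).continuousOn.div continuousOn_id
      fun r hr => ne_of_gt hr
  have hint : ∀ p q : ℝ, 0 < p → p ≤ q → IntervalIntegrable f volume p q := fun p q hp hpq =>
    (hfc.mono fun r hr => by
      rw [uIcc_of_le hpq] at hr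
      exact lt_of_lt_of_le hp hr.1).intervalIntegrable
  have hup : ∀ r, 0 < r → ∀ e, 0 ≤ e → |deriv φ r| ≤ e → r * e ≤ 2 * B →
      f r ≤ 2 * a * e + 2 * B * e := by
    intro r hr e he he' hre
    rw [hf]
    have h1 : -(2 * a) * (φ r * deriv φ r) ≤ 2 * a * e := by
      have h : |φ r * deriv φ r| ≤ 1 * e := by
        rw [abs_mul]; exact mul_le_mul (hφ01 r) he' (abs_nonneg _) zero_le_one
      have := mul_le_mul_of_nonneg_left (neg_le.1 (neg_le_neg (le_trans (neg_le_abs _) h)))
        (mul_nonneg zero_le_two ha0)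
      linarith
    have h2 : r * deriv φ r ^ 2 ≤ 2 * B * e := by
      rw [← sq_abs]
      calc r * |deriv φ r| ^ 2 ≤ r * e ^ 2 :=
            mul_le_mul_of_nonneg_left (pow_le_pow_left₀ (abs_nonneg _) he' 2) hr.le
        _ = (r * e) * e := by ring
        _ ≤ _ := mul_le_mul_of_nonneg_right hre he
    have h3 : 0 ≤ δ * φ r ^ 2 / r := by positivity
    linarith
  have hleft : ∫ r in (1 / 2 : ℝ)..2, f r ≤ 3 / 2 * c := by
    have h := intervalIntegral.integral_mono_on (g := fun _ => c) (by norm_num)
      (hint (1 / 2) 2 (by norm_num) (by norm_num)) intervalIntegrable_const fun r hr => by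
        have hr0 : 0 < r := lt_of_lt_of_le (by norm_num) hr.1
        have h2 : deriv step (2 - r / M) = 0 := by
          refine deriv_step_zero_of_one_lt ?_
          have : r / M < 1 := by rw [div_lt_one (by linarith)]; linarith [hr.2]
          linarith
        have hd' : |deriv φ r| ≤ B := by
          rw [(hφd r).deriv, h2, mul_zero, zero_div, sub_zero, abs_mul]
          calc |deriv step r| * |step (2 - r / M)| ≤ B * 1 :=
                mul_le_mul (hB r ⟨by linarith [hr.1], by linarith [hr.2]⟩)
                  (by rw [abs_of_nonneg (step_mem _).1]; exact (step_mem _).2) (abs_nonneg _) hB0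
            _ = B := mul_one B
        refine (hup r hr0 B hB0 hd' ?_).trans_eq (by rw [hc]; ring)
        exact mul_le_mul_of_nonneg_right hr.2 hB0
    rw [intervalIntegral.integral_const, smul_eq_mul] at h
    linarith
  have hright : ∫ r in (M / 2)..(2 * M), f r ≤ 3 / 2 * c := by
    have h := intervalIntegral.integral_mono_on (g := fun _ => c / M) (by linarith)
      (hint (M / 2) (2 * M) (by linarith) (by linarith)) intervalIntegrable_const fun r hr => by
        have hr0 : 0 < r := lt_of_lt_of_le (by linarith) hr.1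
        have h1 : deriv step r = 0 := deriv_step_zero_of_one_lt (by linarith [hr.1])
        have hd' : |deriv φ r| ≤ B / M := by
          rw [(hφd r).deriv, h1, zero_mul, zero_sub, abs_neg, abs_div, abs_mul,
            abs_of_pos (show 0 < M by linarith)]
          refine div_le_div_of_nonneg_right ?_ (by linarith)
          have hmem : 2 - r / M ∈ Icc (-10 : ℝ) 10 := by
            have h1 : r / M ≤ 2 := by rw [div_le_iff₀ (by linarith)]; linarith [hr.2]
            have h2 : 0 ≤ r / M := by positivity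
            exact ⟨by linarith, by linarith⟩
          calc |step r| * |deriv step (2 - r / M)| ≤ 1 * B :=
                mul_le_mul (by rw [abs_of_nonneg (step_mem _).1]; exact (step_mem _).2)
                  (hB _ hmem) (abs_nonneg _) zero_le_one
            _ = B := one_mul B
        refine (hup r hr0 (B / M) (by positivity) hd' ?_).trans_eq (by rw [hc]; ring)
        rw [mul_div_assoc', div_le_iff₀ (by linarith)]
        calc r * B ≤ 2 * M * B := mul_le_mul_of_nonneg_right hr.2 hB0
          _ = _ := by ring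
    rw [intervalIntegral.integral_const, smul_eq_mul] at h
    have e : (2 * M - M / 2) * (c / M) = 3 / 2 * c := by
      have : M ≠ 0 := by linarith
      field_simp; ring
    linarith
  have hmid : ∫ r in (2 : ℝ)..(M / 2), f r = -(δ * Real.log (M / 4)) := by
    rw [intervalIntegral.integral_congr (g := fun r => -δ * (1 / r)) fun r hr => ?_,
      intervalIntegral.integral_const_mul, integral_one_div_of_pos (by norm_num) (by linarith),
      show M / 2 / 2 = M / 4 by ring, neg_mul]
    rw [uIcc_of_le (by linarith)] at hr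
    have hev : φ =ᶠ[𝓝 r] fun _ => 1 := by
      refine eventually_of_mem (Ioo_mem_nhds (show 1 < r by linarith [hr.1])
        (show r < M by linarith [hr.2])) fun s hs => ?_
      have : 1 ≤ 2 - s / M := by
        have : s / M ≤ 1 := by rw [div_le_one (by linarith)]; exact hs.2.le
        linarith
      simp [φ, step_one hs.1.le, step_one this]
    rw [hf, hev.eq_of_nhds, hev.deriv_eq]
    simp [div_eq_mul_inv]
  rw [← intervalIntegral.integral_add_adjacent_intervals (hint (1 / 2) (M / 2) (by norm_num)
    (by linarith)) (hint (M / 2) (2 * M) (by linarith) (by linarith)),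
    ← intervalIntegral.integral_add_adjacent_intervals (hint (1 / 2) 2 (by norm_num)
    (by norm_num)) (hint 2 (M / 2) (by norm_num) (by linarith))]
  linarith

end Vale.Agent.P098
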