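import Vale.Agent.P098.Core
import Vale.Agent.P098.Polar
import Vale.Agent.P098.Flat
import Vale.Agent.P098.Radial

/-! A certificate makes every cone flat. -/

noncomputable section

namespace Vale.Agent.P098

open MeasureTheory Set Filter Topology
open scoped ContDiff

variable {d : ℕ}

namespace Cone

variable (Γ : Cert d) (C : Cone d) {x : EuclideanSpace ℝ (Fin d)}

theorem shell_sub {a b : ℝ} (ha : 0 < a) :
    closure C.Ω ∩ {y | ‖y‖ ∈ Icc a b} ⊆ C.N := fun y hy =>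
  C.closure_sub y hy.1 (by rintro rfl; have := hy.2.1; simp at this; linarith)

theorem shell_compact (a b : ℝ) :
    IsCompact (closure C.Ω ∩ {y | ‖y‖ ∈ Icc a b}) :=
  (isCompact_closedBall (0 : EuclideanSpace ℝ (Fin d)) b).of_isClosed_subset
    (isClosed_closure.inter (isClosed_Icc.preimage continuous_norm))
    fun y hy => mem_closedBall_zero_iff.2 hy.2.2

/-- The flat part removed density is bounded on shells. -/
theorem G0_bound {a b : ℝ} (ha : 0 < a) :
    ∃ M, ∀ x ∈ C.Ω, ‖x‖ ∈ Icc a b → |C.G0 Γ x| ≤ M := by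
  obtain ⟨R, hR⟩ := (C.shell_compact a b).exists_bound_of_continuousOn
    (fun y hy => ((C.contDiffAt_jet (n := 0) (C.shell_sub ha hy) (by norm_num)).continuousAt).continuousWithinAt)
  obtain ⟨B, hB0, hB⟩ := Γ.bounds R
  refine ⟨B * max R 0 ^ (2 * Γ.al), fun x hx hxa => ?_⟩
  by_cases hs : C.sS x = 0
  · simp [G0, hs]; positivity
  · have hsh := hR x ⟨subset_closure hx, hxa⟩
    rw [G0, if_neg hs]
    refine ((hB _ (fst_ne_of_jsq hs) ((norm_snd_le _).trans hsh)).1).trans ?_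
    exact mul_le_mul_of_nonneg_left (Real.rpow_le_rpow (norm_nonneg _)
      (((norm_fst_le _).trans hsh).trans (le_max_left _ _)) (by linarith [Γ.half_lt])) hB0

/-- Algebra of the cutoff error. -/
theorem err_algebra {D B P z L0 c E : ℝ} {η : ℝ → ℝ} (hd0 : (0 : ℝ) ≤ d) (hD : 0 ≤ D) (hB : 0 ≤ B)
    (hP : 0 ≤ P) (hz : 0 ≤ z) (hc : 0 ≤ c) (hs : 0 < C.sS x)
    (hps : ∀ k, |pd k C.sS x| / C.sS x ≤ c * z)
    (hpG : ∀ k, |pd k (C.G Γ) x| ≤ B * P * (z + L0))
    (hpX : ∀ k, |C.X0 Γ k x| ≤ B * P * (z + L0))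
    (hGa : |C.G Γ x| ≤ B * P) (hE : η ‖x‖ ^ 2 ≤ |E| ^ 2) :
    C.err Γ D η x ≤ |E| ^ 2 * ((d : ℝ) * (D ^ 2 * B * c ^ 2 + 3 * D * c * B + 3 * D * c * B)) * (P * z ^ 2)
      + |E| ^ 2 * ((d : ℝ) * (D ^ 2 * B * c ^ 2 + 3 * D * c * B + 3 * D * c * B)) * (P * L0 ^ 2) := by
  have h1 : ∑ k, pd k C.sS x ^ 2 / C.sS x ^ 2 ≤ (d : ℝ) * (c * z) ^ 2 := by
    calc _ ≤ ∑ _k : Fin d, (c * z) ^ 2 := Finset.sum_le_sum fun k _ => by
          rw [← div_pow, ← sq_abs (pd k C.sS x / C.sS x), abs_div, abs_of_pos hs]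
          exact pow_le_pow_left₀ (div_nonneg (abs_nonneg _) hs.le) (hps k) 2
      _ = _ := by simp
  have h2 : ∑ k, |pd k C.sS x| / C.sS x * (|pd k (C.G Γ) x| + 2 * |C.X0 Γ k x|)
      ≤ (d : ℝ) * (c * z * (3 * (B * P * (z + L0)))) := by
    calc _ ≤ ∑ _k : Fin d, c * z * (3 * (B * P * (z + L0))) := Finset.sum_le_sum fun k _ =>
          mul_le_mul (hps k) (by linarith [hpG k, hpX k]) (by positivity) (by positivity)
      _ = _ := by simp
  refine (mul_le_mul hE (add_le_add (mul_le_mul (mul_le_mul_of_nonneg_left hGa (sq_nonneg D)) h1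
    (by positivity) (by positivity)) (mul_le_mul_of_nonneg_left h2 hD))
    (by positivity) (sq_nonneg _)).trans ?_
  have hzL : z * L0 ≤ z ^ 2 + L0 ^ 2 := by nlinarith [sq_nonneg (z - L0), sq_nonneg z, sq_nonneg L0]
  have hA1 : 0 ≤ |E| ^ 2 * (d : ℝ) * (3 * D * c * B * P) := by positivity
  have hA2 : 0 ≤ |E| ^ 2 * (d : ℝ) * (D ^ 2 * B * c ^ 2 + 3 * D * c * B) * P * L0 ^ 2 := by
    positivity
  have := mul_le_mul_of_nonneg_left hzL hA1
  linarith

/-- The weighted square of the jet derivative is controlled by the energy density. -/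
theorem weighted_bound (hx : x ∈ C.Ω) (hs : 0 < C.sS x) {a b al M : ℝ} (ha : 0 < a)
    (hxa : ‖x‖ ∈ Icc a b) (hα : 1 / 2 < al) (hα1 : al < 1) (hM : C.sA x ≤ M) :
    ‖(C.jet x).1‖ ^ (2 * al) * ((∑ k, ‖(C.jet' k x).1‖) / ‖(C.jet x).1‖) ^ 2
      ≤ 2 * ((a ^ 2) / (d : ℝ) ^ 2) ^ (al - 1) * ((|b| ^ 2 + 1) * (d : ℝ) ^ 2) * (C.sA x ^ (al - 1) * C.sT x)
        + 2 * ((a ^ 2) / (d : ℝ) ^ 2) ^ (al - 1) * ((|b| ^ 2 + 1) * (d : ℝ) ^ 2) * M ^ al := by
  have hN := C.Ω_sub hx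
  have hd0 : 0 < (d : ℝ) := by
    have : d ≠ 0 := by
      rintro rfl
      exact C.ne_zero_N hN (Subsingleton.elim _ _)
    exact_mod_cast Nat.pos_of_ne_zero this
  have hst : C.sS x ≤ (d : ℝ) ^ 2 * ‖(C.jet x).1‖ ^ 2 := jsq_le (C.jet x)
  obtain ⟨t, htdef⟩ : ∃ t, t = ‖(C.jet x).1‖ := ⟨_, rfl⟩
  rw [← htdef] at hst ⊢
  have ht : 0 < t := htdef ▸ norm_pos_iff.2 (fst_ne_of_jsq hs.ne')
  obtain ⟨Q, hQdef⟩ : ∃ Q, Q = ∑ k, ‖(C.jet' k x).1‖ := ⟨_, rfl⟩
  rw [← hQdef]
  have hQ0 : 0 ≤ Q := hQdef ▸ Finset.sum_nonneg fun _ _ => norm_nonneg _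
  have hsA : 0 < C.sA x := by
    by_contra h0
    have : C.sA x = 0 := le_antisymm (not_lt.1 h0) (C.sA_nonneg x)
    rw [C.sS_eq, this, mul_zero] at hs
    exact lt_irrefl _ hs
  have e1 : t ^ (2 * al) * (Q / t) ^ 2 = (t ^ 2) ^ (al - 1) * Q ^ 2 := by
    have e : (t ^ 2) ^ (al - 1) = t ^ (2 * al) / t ^ 2 := by
      rw [← Real.rpow_natCast t 2, ← Real.rpow_mul ht.le, ← Real.rpow_sub ht]
      congr 1
      push_cast; ring
    rw [e, div_pow]; ring
  set w := |b| ^ 2 + 1 with hw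
  have h1 : ∀ k, ‖(C.jet' k x).1‖ ≤ Real.sqrt (2 * w * (C.sA x + C.sT x)) := fun k => by
    refine (pi_norm_le_iff_of_nonneg (Real.sqrt_nonneg _)).2 fun i =>
      (pi_norm_le_iff_of_nonneg (Real.sqrt_nonneg _)).2 fun j => ?_
    rw [Real.norm_eq_abs, ← Real.sqrt_sq_eq_abs]
    refine Real.sqrt_le_sqrt ?_
    show (x k / ‖x‖ * C.A i j x + ‖x‖ * C.T k i j x) ^ 2 ≤ _
    have hq1 : (x k / ‖x‖) ^ 2 ≤ w := by
      rw [div_pow, div_le_iff₀ (pow_pos (norm_pos_iff.2 (C.ne_zero_N hN)) 2),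
        EuclideanSpace.real_norm_sq_eq]
      refine (Finset.single_le_sum (f := fun k => x k ^ 2) (fun _ _ => sq_nonneg _)
        (Finset.mem_univ k)).trans (le_mul_of_one_le_left (Finset.sum_nonneg fun _ _ => sq_nonneg _) ?_)
      rw [hw]; linarith [sq_nonneg |b|]
    have hq2 : ‖x‖ ^ 2 ≤ w :=
      (pow_le_pow_left₀ (norm_nonneg _) (hxa.2.trans (le_abs_self b)) 2).trans (by rw [hw]; linarith)
    have hA2 : C.A i j x ^ 2 ≤ C.sA x :=
      le_trans (Finset.single_le_sum (f := fun j => C.A i j x ^ 2) (fun _ _ => sq_nonneg _)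
        (Finset.mem_univ j)) (Finset.single_le_sum (f := fun i => ∑ j, C.A i j x ^ 2)
        (fun _ _ => Finset.sum_nonneg fun _ _ => sq_nonneg _) (Finset.mem_univ i))
    have hT2 : C.T k i j x ^ 2 ≤ C.sT x :=
      le_trans (Finset.single_le_sum (f := fun j => C.T k i j x ^ 2) (fun _ _ => sq_nonneg _)
        (Finset.mem_univ j)) (le_trans (Finset.single_le_sum
        (f := fun i => ∑ j, C.T k i j x ^ 2)
        (fun _ _ => Finset.sum_nonneg fun _ _ => sq_nonneg _) (Finset.mem_univ i))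
        (Finset.single_le_sum (f := fun k => ∑ i, ∑ j, C.T k i j x ^ 2)
        (fun _ _ => Finset.sum_nonneg fun _ _ => Finset.sum_nonneg fun _ _ => sq_nonneg _)
        (Finset.mem_univ k)))
    have t1 : (x k / ‖x‖ * C.A i j x) ^ 2 ≤ w * C.sA x := by
      rw [mul_pow]
      exact mul_le_mul hq1 hA2 (sq_nonneg _) (by positivity)
    have t2 : (‖x‖ * C.T k i j x) ^ 2 ≤ w * C.sT x := by
      rw [mul_pow]
      exact mul_le_mul hq2 hT2 (sq_nonneg _) (by positivity)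
    nlinarith [sq_nonneg (x k / ‖x‖ * C.A i j x - ‖x‖ * C.T k i j x)]
  have h2 : Q ≤ (d : ℝ) * Real.sqrt (2 * w * (C.sA x + C.sT x)) := by
    rw [hQdef]
    exact (Finset.sum_le_sum fun k _ => h1 k).trans (le_of_eq (by simp))
  have hQ2 : Q ^ 2 ≤ 2 * (w * (d : ℝ) ^ 2) * (C.sA x + C.sT x) := by
    refine (pow_le_pow_left₀ hQ0 h2 2).trans (le_of_eq ?_)
    rw [mul_pow, Real.sq_sqrt (by have := C.sT_nonneg x; positivity)]; ring
  obtain ⟨q, hqdef⟩ : ∃ q, q = ((a ^ 2) / (d : ℝ) ^ 2) ^ (al - 1) := ⟨_, rfl⟩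
  rw [← hqdef]
  have hqn : 0 ≤ q := hqdef ▸ Real.rpow_nonneg (by positivity) _
  have hq' : (t ^ 2) ^ (al - 1) ≤ q * C.sA x ^ (al - 1) := by
    rw [hqdef, ← Real.mul_rpow (by positivity) hsA.le]
    refine Real.rpow_le_rpow_of_nonpos (by positivity) ?_ (by linarith)
    rw [div_mul_eq_mul_div, div_le_iff₀ (by positivity)]
    have : a ^ 2 * C.sA x ≤ C.sS x := by
      rw [C.sS_eq]
      exact mul_le_mul_of_nonneg_right (pow_le_pow_left₀ ha.le hxa.1 2) hsA.le
    linarith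
  have hMA : C.sA x ^ al ≤ M ^ al := Real.rpow_le_rpow hsA.le hM (by linarith)
  have e2 : C.sA x ^ (al - 1) * C.sA x = C.sA x ^ al := by
    rw [← Real.rpow_add_one hsA.ne']; congr 1; ring
  rw [e1]
  calc (t ^ 2) ^ (al - 1) * Q ^ 2
      ≤ q * C.sA x ^ (al - 1) * (2 * (w * (d : ℝ) ^ 2) * (C.sA x + C.sT x)) :=
        mul_le_mul hq' hQ2 (sq_nonneg _) (mul_nonneg hqn (Real.rpow_nonneg hsA.le _))
    _ = 2 * q * (w * (d : ℝ) ^ 2) * (C.sA x ^ (al - 1) * C.sT x)
        + 2 * q * (w * (d : ℝ) ^ 2) * C.sA x ^ al := by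
        rw [← e2]; ring
    _ ≤ _ := by
        have := mul_le_mul_of_nonneg_left hMA
          (mul_nonneg (mul_nonneg zero_le_two hqn) (by positivity : 0 ≤ w * (d : ℝ) ^ 2))
        linarith

/-- The cutoff error has an integrable majorant. -/
theorem err_bound {D : ℝ} (hD : 0 ≤ D) {η : ℝ → ℝ} (hη : ContDiff ℝ 2 η) {a b : ℝ} (ha : 0 < a)
    (hsupp : ∀ r, r ∉ Icc a b → η r = 0) :
    ∃ B : EuclideanSpace ℝ (Fin d) → ℝ, IntegrableOn B C.Ω ∧ (∀ x, 0 ≤ B x) ∧
      ∀ x ∈ C.Ω, 0 < C.sS x → C.err Γ D η x ≤ B x := by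
  classical
  set S := closure C.Ω ∩ {y | ‖y‖ ∈ Icc a b}
  have hS : IsCompact S := C.shell_compact a b
  have hSN : S ⊆ C.N := C.shell_sub ha
  obtain ⟨R, hR⟩ := hS.exists_bound_of_continuousOn
    (fun y hy => ((C.contDiffAt_jet (n := 0) (hSN hy) (by norm_num)).continuousAt).continuousWithinAt)
  have hj' : ∀ k, ContinuousOn (C.jet' k) S := fun k y hy => by
    have h : ContinuousAt (fun z => fderiv ℝ C.jet z (EuclideanSpace.single k 1)) y :=
      (((C.contDiffAt_jet (n := 1) (hSN hy) (by norm_num)).fderiv_right (m := 0) le_rfl).continuousAt).clm_apply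
        continuousAt_const
    refine (h.congr ?_).continuousWithinAt
    filter_upwards [C.isOpen_N.mem_nhds (hSN hy)] with z hz
    exact C.fderiv_jet hz k
  obtain ⟨L0, hL0⟩ := hS.exists_bound_of_continuousOn (f := fun y => ∑ k, ‖C.jet' k y‖)
    (continuousOn_finsetSum _ fun k _ => (hj' k).norm)
  obtain ⟨B, hB0, hB⟩ := Γ.bounds R
  obtain ⟨χ, hχ, hχc, hχN, hχ01, hχ1⟩ := exists_cutoff hS C.isOpen_N hSN
  have hα := Γ.half_lt
  have hα1 := Γ.lt_one
  have hint := C.energy_bound hα hα1 (hχ.of_le (WithTop.coe_le_coe.2 le_top)) hχc hχN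
    (fun x => (hχ01 x).1)
  obtain ⟨E, hE⟩ := hη.continuous.bounded_above_of_compact_support
    (HasCompactSupport.intro isCompact_Icc hsupp)
  obtain ⟨M, hM⟩ := hS.exists_bound_of_continuousOn (C.contDiffOn_sA.continuousOn.mono hSN)
  set c := 2 * (d : ℝ) ^ 2 with hc
  set k0 := |E| ^ 2 * ((d : ℝ) * (D ^ 2 * B * c ^ 2 + 3 * D * c * B + 3 * D * c * B)) with hk0
  set q := ((a ^ 2) / (d : ℝ) ^ 2) ^ (Γ.al - 1) with hq
  set u := (|b| ^ 2 + 1) * (d : ℝ) ^ 2 with hu
  let Bd : EuclideanSpace ℝ (Fin d) → ℝ := fun x => 2 * k0 * q * u * (χ x * (C.sA x ^ (Γ.al - 1) * C.sT x))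
    + S.indicator (fun _ => 2 * k0 * q * u * |M| ^ Γ.al + k0 * max R 0 ^ (2 * Γ.al) * L0 ^ 2) x
  have hk0n : 0 ≤ k0 := by positivity
  have hqn : 0 ≤ q := Real.rpow_nonneg (by positivity) _
  refine ⟨Bd, ?_, ?_, fun x hx hs => ?_⟩
  · refine (hint.const_mul (2 * k0 * q * u)).add ?_
    exact ((integrableOn_const hS.measure_ne_top).integrable_indicator hS.measurableSet).integrableOn
  · intro x
    refine add_nonneg (mul_nonneg (by positivity) (mul_nonneg (hχ01 x).1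
      (mul_nonneg (Real.rpow_nonneg (C.sA_nonneg x) _) (C.sT_nonneg x)))) ?_
    exact indicator_nonneg (fun _ _ => by positivity) x
  · by_cases hxa : ‖x‖ ∈ Icc a b
    swap
    · have : C.err Γ D η x = 0 := by simp [err, hsupp _ hxa]
      rw [this]
      refine add_nonneg (mul_nonneg (by positivity) (mul_nonneg (hχ01 x).1
        (mul_nonneg (Real.rpow_nonneg (C.sA_nonneg x) _) (C.sT_nonneg x)))) ?_
      exact indicator_nonneg (fun _ _ => by positivity) x
    have hxS : x ∈ S := ⟨subset_closure hx, hxa⟩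
    have hN := hSN hxS
    have hd0 : 0 < (d : ℝ) := by
      have : d ≠ 0 := by
        rintro rfl
        exact C.ne_zero_N hN (Subsingleton.elim _ _)
      exact_mod_cast Nat.pos_of_ne_zero this
    have hA : (C.jet x).1 ≠ 0 := fst_ne_of_jsq hs.ne'
    obtain ⟨t, htdef⟩ : ∃ t, t = ‖(C.jet x).1‖ := ⟨_, rfl⟩
    have ht : 0 < t := htdef ▸ norm_pos_iff.2 hA
    obtain ⟨P, hPdef⟩ : ∃ P, P = t ^ (2 * Γ.al) := ⟨_, rfl⟩
    have hP : 0 ≤ P := hPdef ▸ Real.rpow_nonneg ht.le _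
    have hjR := hR x hxS
    have hb := hB _ hA ((norm_snd_le _).trans hjR)
    rw [← htdef, ← hPdef] at hb
    have hts : t ^ 2 ≤ C.sS x := htdef ▸ norm_sq_le_jsq (C.jet x)
    have hst : C.sS x ≤ (d : ℝ) ^ 2 * t ^ 2 := htdef ▸ jsq_le (C.jet x)
    have hL2 : ∀ k, ‖(C.jet' k x).2‖ ≤ L0 := fun k => by
      have h1 := hL0 x hxS
      rw [Real.norm_eq_abs, abs_of_nonneg (by positivity)] at h1
      exact ((norm_snd_le _).trans (Finset.single_le_sum (f := fun k => ‖C.jet' k x‖)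
        (fun _ _ => norm_nonneg _) (Finset.mem_univ k))).trans h1
    obtain ⟨Q, hQdef⟩ : ∃ Q, Q = ∑ k, ‖(C.jet' k x).1‖ := ⟨_, rfl⟩
    have hQk : ∀ k, ‖(C.jet' k x).1‖ ≤ Q := fun k => hQdef ▸
      Finset.single_le_sum (f := fun k => ‖(C.jet' k x).1‖) (fun _ _ => norm_nonneg _) (Finset.mem_univ k)
    have hQ0 : 0 ≤ Q := hQdef ▸ Finset.sum_nonneg fun _ _ => norm_nonneg _
    have hGd : DifferentiableAt ℝ Γ.K (C.jet x) :=
      (Γ.smooth_K.contDiffAt ((isOpen_ne_fun continuous_fst continuous_const).mem_nhds hA))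
        |>.differentiableAt two_ne_zero
    have hps : ∀ k, |pd k C.sS x| / C.sS x ≤ c * (Q / t) := fun k => by
      rw [show pd k C.sS x = fderiv ℝ jsq (C.jet x) (C.jet' k x) from
        C.pd_comp_jet hN ((contDiff_jsq (n := 1)).differentiable one_ne_zero _) k]
      rw [div_le_iff₀ hs]
      calc _ ≤ 2 * (d : ℝ) ^ 2 * (‖(C.jet x).1‖ * ‖(C.jet' k x).1‖) := abs_fderiv_jsq _ _
        _ ≤ c * (Q / t) * t ^ 2 := by
            rw [← htdef, hc]
            have : Q / t * t ^ 2 = t * Q := by field_simp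
            rw [mul_assoc _ (Q / t), this]
            gcongr
            exact hQk k
        _ ≤ _ := by gcongr
    have hpG : ∀ k, |pd k (C.G Γ) x| ≤ B * P * (Q / t + L0) := fun k => by
      rw [show pd k (C.G Γ) x = fderiv ℝ Γ.K (C.jet x) (C.jet' k x) from C.pd_comp_jet hN hGd k]
      refine (hb.2 _).1.trans ?_
      gcongr
      · exact hQk k
      · exact hL2 k
    have hpX : ∀ k, |C.X0 Γ k x| ≤ B * P * (Q / t + L0) := fun k => by
      refine (hb.2 _).2.trans ?_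
      gcongr
      · exact hQk k
      · exact hL2 k
    have hGa : |C.G Γ x| ≤ B * P := hb.1
    obtain ⟨z, hzdef⟩ : ∃ z, z = Q / t := ⟨_, rfl⟩
    rw [← hzdef] at hps hpG hpX
    have hz0 : 0 ≤ z := hzdef ▸ by positivity
    have hEη : η ‖x‖ ^ 2 ≤ |E| ^ 2 := by
      rw [← sq_abs]
      exact pow_le_pow_left₀ (abs_nonneg _) (((Real.norm_eq_abs _).symm.le.trans (hE _)).trans (le_abs_self E)) 2
    have he : C.err Γ D η x ≤ k0 * (P * z ^ 2) + k0 * (P * L0 ^ 2) := by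
      exact C.err_algebra Γ hd0.le hD hB0 hP hz0 (by rw [hc]; positivity) hs hps hpG hpX hGa hEη
    have hPz : P * z ^ 2 ≤ 2 * q * u * (C.sA x ^ (Γ.al - 1) * C.sT x) + 2 * q * u * |M| ^ Γ.al := by
      subst hPdef hzdef hQdef htdef
      exact C.weighted_bound hx hs ha hxa hα hα1 (((le_abs_self _).trans (hM x hxS)).trans (le_abs_self M))
    have hχx : χ x = 1 := hχ1.self_of_nhdsSet x hxS
    simp only [Bd, hχx, one_mul, indicator_of_mem hxS]
    have hPR : P ≤ max R 0 ^ (2 * Γ.al) := by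
      rw [hPdef]
      exact Real.rpow_le_rpow ht.le ((htdef ▸ (norm_fst_le _).trans hjR).trans (le_max_left _ _))
        (by linarith)
    have h3 := mul_le_mul_of_nonneg_left hPz hk0n
    have h4 := mul_le_mul_of_nonneg_left (mul_le_mul_of_nonneg_right hPR (sq_nonneg L0)) hk0n
    linarith

theorem G0_smul (hx : x ∈ C.Ω) {r : ℝ} (hr : 0 < r) : C.G0 Γ (r • x) = C.G0 Γ x := by
  unfold G0 sS G
  simp only [C.jet_smul hx hr]



theorem aestronglyMeasurable_G0 :
    AEStronglyMeasurable (C.G0 Γ) (volume.restrict C.Ω) := by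
  classical
  set W := {y | y ∈ C.N ∧ C.sS y ≠ 0}
  have hW : IsOpen W := C.isOpen_sS_ne
  have hc : ContinuousOn (C.G Γ) W := fun y hy =>
    (C.contDiffAt_G Γ hy.1 (fst_ne_of_jsq hy.2)).continuousAt.continuousWithinAt
  have h1 : AEStronglyMeasurable (W.indicator (C.G Γ)) (volume.restrict C.Ω) :=
    ((aestronglyMeasurable_indicator_iff hW.measurableSet).2
      (hc.aestronglyMeasurable hW.measurableSet)).restrict
  refine h1.congr ((ae_restrict_iff' C.isOpen_Ω.measurableSet).2 (Eventually.of_forall fun y hy => ?_))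
  by_cases h : C.sS y = 0
  · simp [W, h, G0]
  · simp [W, h, G0, C.Ω_sub hy]

theorem aestronglyMeasurable_lam (ε : ℝ) :
    AEStronglyMeasurable (C.lam ε) (volume.restrict C.Ω) :=
  ContinuousOn.aestronglyMeasurable
    (fun y hy => (C.contDiffAt_lam ε (C.Ω_sub hy)).continuousAt.continuousWithinAt)
    C.isOpen_Ω.measurableSet

theorem aestronglyMeasurable_err (D : ℝ) {η : ℝ → ℝ} (hη : ContDiff ℝ 2 η) (ε : ℝ) :
    AEStronglyMeasurable ({y | 0 < C.sS y ∧ C.sS y ≤ ε}.indicator (C.err Γ D η))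
      (volume.restrict C.Ω) := by
  classical
  set W := {y | y ∈ C.N ∧ C.sS y ≠ 0}
  have hW : IsOpen W := C.isOpen_sS_ne
  have hsc : ContinuousOn C.sS W := fun y hy =>
    (C.contDiffAt_sS (n := 0) hy.1 (by norm_num)).continuousAt.continuousWithinAt
  have hps : ∀ k, ContinuousOn (pd k C.sS) W := fun k y hy =>
    ((((C.contDiffAt_sS (n := 1) hy.1 (by norm_num)).fderiv_right (m := 0) le_rfl).continuousAt).clm_apply
      continuousAt_const).continuousWithinAt
  have hpG : ∀ k, ContinuousOn (pd k (C.G Γ)) W := fun k y hy =>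
    ((((C.contDiffAt_G Γ hy.1 (fst_ne_of_jsq hy.2)).fderiv_right (m := 0) (by norm_num)).continuousAt).clm_apply
      continuousAt_const).continuousWithinAt
  have hX : ∀ k, ContinuousOn (C.X0 Γ k) W := fun k y hy =>
    (C.contDiffAt_X0 Γ hy.1 (fst_ne_of_jsq hy.2) k).continuousAt.continuousWithinAt
  have hG : ContinuousOn (C.G Γ) W := fun y hy =>
    (C.contDiffAt_G Γ hy.1 (fst_ne_of_jsq hy.2)).continuousAt.continuousWithinAt
  have hec : ContinuousOn (C.err Γ D η) W := by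
    unfold err
    exact ((hη.continuous.comp continuous_norm).continuousOn.pow 2).mul
      (((continuousOn_const.mul hG.abs).mul (continuousOn_finsetSum _ fun k _ =>
        ((hps k).pow 2).div (hsc.pow 2) fun y hy => pow_ne_zero 2 hy.2)).add
      (continuousOn_const.mul (continuousOn_finsetSum _ fun k _ =>
        ((hps k).abs.div hsc fun y hy => hy.2).mul
          ((hpG k).abs.add (continuousOn_const.mul (hX k).abs)))))
  have h1 : AEStronglyMeasurable (W.indicator (C.err Γ D η)) (volume.restrict C.Ω) :=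
    ((aestronglyMeasurable_indicator_iff hW.measurableSet).2
      (hec.aestronglyMeasurable hW.measurableSet)).restrict
  have hsm : AEMeasurable C.sS (volume.restrict C.Ω) :=
    (ContinuousOn.aestronglyMeasurable
      (fun y hy => (C.contDiffAt_sS (n := 0) (C.Ω_sub hy) (by norm_num)).continuousAt.continuousWithinAt)
      C.isOpen_Ω.measurableSet).aemeasurable
  refine (h1.indicator₀ (nullMeasurableSet_le hsm (aemeasurable_const (b := ε)))).congr
    ((ae_restrict_iff' C.isOpen_Ω.measurableSet).2 (Eventually.of_forall fun y hy => ?_))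
  have hnn : 0 ≤ C.sS y := jsq_nonneg _
  by_cases h : C.sS y = 0
  · simp [W, h, indicator]
  · have : 0 < C.sS y := lt_of_le_of_ne hnn (Ne.symm h)
    simp [W, h, indicator, this, C.Ω_sub hy]

/-- The stability inequality in the limit of vanishing cutoff. -/
theorem limit_ineq (hd : 2 ≤ d) (hmin : LipMin C.u) {η : ℝ → ℝ} (hη : ContDiff ℝ 2 η) {a b : ℝ}
    (ha : 0 < a) (hsupp : ∀ r, r ∉ Icc a b → η r = 0) :
    0 ≤ ∫ x in C.Ω, rad Γ η ‖x‖ * C.G0 Γ x := by
  classical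
  obtain ⟨D, hD, hDs⟩ := deriv_step_bound
  obtain ⟨B, hBi, hB0, hB⟩ := C.err_bound Γ hD hη ha hsupp
  obtain ⟨M, hM⟩ := C.G0_bound Γ ha (b := b)
  set S := closure C.Ω ∩ {y | ‖y‖ ∈ Icc a b}
  have hS : IsCompact S := C.shell_compact a b
  have hzero : ∀ r, r ∉ Icc a b → rad Γ η r = 0 := fun r hr => by
    have hev : η =ᶠ[𝓝 r] fun _ => (0 : ℝ) :=
      eventually_of_mem (isClosed_Icc.isOpen_compl.mem_nhds hr) fun s hs => hsupp s hs
    simp [rad, hev.deriv_eq, hsupp r hr]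
  obtain ⟨F, hF⟩ := (isCompact_Icc (a := a) (b := b)).exists_bound_of_continuousOn (f := rad Γ η)
    (((hη.continuous_deriv (by norm_num)).continuousOn.pow 2).sub
      (((continuousOn_const.mul (hη.continuous.continuousOn.pow 2))).div
        (continuousOn_id.pow 2) fun r hr => pow_ne_zero 2 (by linarith [hr.1] : r ≠ 0)))
  have hradm : AEStronglyMeasurable (fun x : EuclideanSpace ℝ (Fin d) => rad Γ η ‖x‖)
      (volume.restrict C.Ω) := by
    unfold rad
    refine AEMeasurable.aestronglyMeasurable ?_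
    have h1 : Measurable (deriv η) := (hη.continuous_deriv (by norm_num)).measurable
    have h2 : Measurable η := hη.continuous.measurable
    fun_prop
  let e : ℕ → ℝ := fun n => 1 / ((n : ℝ) + 1)
  have he : ∀ n, 0 < e n := fun n => by positivity
  have helim : Tendsto e atTop (𝓝 0) := tendsto_one_div_add_atTop_nhds_zero_nat
  let main : ℕ → EuclideanSpace ℝ (Fin d) → ℝ := fun n x =>
    rad Γ η ‖x‖ * (C.lam (e n) x ^ 2 * C.G0 Γ x)
  let er : ℕ → EuclideanSpace ℝ (Fin d) → ℝ := fun n =>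
    {y | 0 < C.sS y ∧ C.sS y ≤ e n}.indicator (C.err Γ D η)
  let dom : EuclideanSpace ℝ (Fin d) → ℝ := S.indicator fun _ => |F| * |M|
  have hdomi : IntegrableOn dom C.Ω :=
    ((integrableOn_const hS.measure_ne_top).integrable_indicator hS.measurableSet).integrableOn
  have hmainb : ∀ n, ∀ x ∈ C.Ω, ‖main n x‖ ≤ dom x := fun n x hx => by
    by_cases hxa : ‖x‖ ∈ Icc a b
    · simp only [dom, indicator_of_mem (show x ∈ S from ⟨subset_closure hx, hxa⟩), main,
        Real.norm_eq_abs, abs_mul]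
      refine mul_le_mul (((Real.norm_eq_abs _).symm.le.trans (hF _ hxa)).trans (le_abs_self F)) ?_
        (by positivity) (abs_nonneg _)
      have h1 := step_mem (C.sS x / e n)
      have : |C.lam (e n) x ^ 2| ≤ 1 := by
        simp only [lam, abs_pow, abs_of_nonneg h1.1]
        exact pow_le_one₀ h1.1 h1.2
      exact (mul_le_of_le_one_left (abs_nonneg _) this).trans ((hM x hx hxa).trans (le_abs_self M))
    · simp only [main, hzero _ hxa, zero_mul, norm_zero, dom]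
      exact indicator_nonneg (fun _ _ => by positivity) x
  have hmainm : ∀ n, AEStronglyMeasurable (main n) (volume.restrict C.Ω) := fun n =>
    hradm.mul (((C.aestronglyMeasurable_lam (e n)).pow 2).mul (C.aestronglyMeasurable_G0 Γ))
  have herb : ∀ n, ∀ x ∈ C.Ω, ‖er n x‖ ≤ B x := fun n x hx => by
    simp only [er]
    by_cases h : x ∈ {y | 0 < C.sS y ∧ C.sS y ≤ e n}
    · rw [indicator_of_mem h, Real.norm_eq_abs, abs_of_nonneg (C.err_nonneg Γ hD)]
      exact hB x hx h.1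
    · rw [indicator_of_notMem h, norm_zero]; exact hB0 x
  have hall : ∀ {P : EuclideanSpace ℝ (Fin d) → Prop}, (∀ x ∈ C.Ω, P x) →
      ∀ᵐ x ∂(volume.restrict C.Ω), P x := fun h =>
    (ae_restrict_iff' C.isOpen_Ω.measurableSet).2 (Eventually.of_forall h)
  have key : ∀ n, 0 ≤ (∫ x in C.Ω, main n x) + ∫ x in C.Ω, er n x := fun n => by
    have hsub : S ⊆ C.good Γ (e n) := fun y hy =>
      C.closure_sub_good Γ hd (he n) hy.1 (C.shell_sub ha hy)
    obtain ⟨χ, hχ, hχc, hχs, _, hχ1⟩ := exists_cutoff hS (C.isOpen_good Γ (e n)) hsub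
    obtain ⟨hi, h0⟩ := C.tested Γ hd hmin (he n) hχ hχc hη hχs
    have hmi : IntegrableOn (main n) C.Ω := hdomi.mono' (hmainm n) (hall (hmainb n))
    have hei : IntegrableOn (er n) C.Ω :=
      hBi.mono' (C.aestronglyMeasurable_err Γ D hη (e n)) (hall (herb n))
    rw [← integral_add hmi hei]
    refine h0.trans (setIntegral_mono_on hi (hmi.add hei) C.isOpen_Ω.measurableSet fun x hx => ?_)
    refine (C.pointwise Γ hd (he n) hη hD hDs hsupp hx fun hxa =>
      hχ1.filter_mono (nhds_le_nhdsSet (show x ∈ S from ⟨subset_closure hx, hxa⟩))).trans ?_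
    refine add_le_add le_rfl ?_
    by_cases hs : C.sS x = 0
    · have : C.err Γ D η x = 0 := by
        simp [err, hs]
      simp [er, indicator, this]
    · have : 0 < C.sS x := lt_of_le_of_ne (jsq_nonneg _) (Ne.symm hs)
      simp [er, indicator, this]
  have l1 : Tendsto (fun n => ∫ x in C.Ω, main n x) atTop
      (𝓝 (∫ x in C.Ω, rad Γ η ‖x‖ * C.G0 Γ x)) := by
    refine tendsto_integral_of_dominated_convergence dom hmainm hdomi (fun n => hall (hmainb n))
      (hall fun x _ => ?_)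
    by_cases hs : C.sS x = 0
    · simp [main, G0, hs]
    · have hp : 0 < C.sS x := lt_of_le_of_ne (jsq_nonneg _) (Ne.symm hs)
      refine tendsto_const_nhds.congr' ?_
      filter_upwards [helim.eventually (gt_mem_nhds hp)] with n hn
      simp only [main, lam]
      rw [step_one (by rw [le_div_iff₀ (he n)]; linarith)]
      ring
  have l2 : Tendsto (fun n => ∫ x in C.Ω, er n x) atTop (𝓝 0) := by
    have h0 := tendsto_integral_of_dominated_convergence (f := fun _ => (0 : ℝ)) B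
      (fun n => C.aestronglyMeasurable_err Γ D hη (e n)) hBi (fun n => hall (herb n))
      (hall fun x _ => ?_)
    · simpa using h0
    · refine tendsto_const_nhds.congr' ?_
      by_cases hs : 0 < C.sS x
      · filter_upwards [helim.eventually (gt_mem_nhds hs)] with n hn
        simp [indicator, not_le.2 hn]
      · exact Eventually.of_forall fun n => by simp [indicator, hs]
  exact ge_of_tendsto' (by simpa using l1.add l2) key

theorem hessian_zero (Γ : Cert d) (hd : 2 ≤ d) (hmin : LipMin C.u) :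
    ∀ x ∈ C.Ω, ∀ i j, C.A i j x = 0 := by
  classical
  obtain ⟨η, hη, ⟨a, b, ha, _, hsupp⟩, hneg⟩ := exists_radial_test hd Γ.δ_pos
  have h0 := C.limit_ineq Γ hd hmin hη ha hsupp
  let g : EuclideanSpace ℝ (Fin d) → ℝ := C.Ω.indicator (C.G0 Γ)
  have hg : ∀ r : ℝ, 0 < r → ∀ x, x ≠ 0 → g (r • x) = g x := fun r hr x _ => by
    by_cases hx : x ∈ C.Ω
    · simp [g, hx, C.smul_mem hx hr, C.G0_smul Γ hx hr]
    · have : r • x ∉ C.Ω := fun h => hx (by
        have := C.smul_mem h (inv_pos.2 hr)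
        rwa [inv_smul_smul₀ hr.ne'] at this)
      simp [g, hx, this]
  obtain ⟨c, hc⟩ := polar (by omega) hg
  have hpol : ∀ f : ℝ → ℝ, ∫ x in C.Ω, f ‖x‖ * C.G0 Γ x
      = c * ∫ r in Ioi (0 : ℝ), r ^ (d - 1) * f r := fun f => by
    rw [← hc f, ← integral_indicator C.isOpen_Ω.measurableSet]
    exact integral_congr_ae (Eventually.of_forall fun x => by
      by_cases hx : x ∈ C.Ω <;> simp [g, hx])
  rw [hpol] at h0
  have hc0 : c ≤ 0 := by
    by_contra h
    have : c * (∫ r in Ioi (0 : ℝ), r ^ (d - 1) * rad Γ η r) < 0 :=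
      mul_neg_of_pos_of_neg (not_le.1 h) hneg
    linarith
  intro x hx
  by_contra hA
  have hsA : C.sS x ≠ 0 := fun h => hA fun i j => by
    have h1 : ‖x‖ ^ 2 * C.sA x = 0 := by rw [← C.sS_eq]; exact h
    have h2 : C.sA x = 0 :=
      (mul_eq_zero.1 h1).resolve_left (pow_ne_zero 2 (norm_ne_zero_iff.2 (C.ne_zero_of_mem hx)))
    have h3 := (Finset.sum_eq_zero_iff_of_nonneg (fun i _ =>
      Finset.sum_nonneg fun j _ => sq_nonneg (C.A i j x))).1 h2 i (Finset.mem_univ i)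
    simpa using (Finset.sum_eq_zero_iff_of_nonneg (fun j _ => sq_nonneg (C.A i j x))).1 h3 j
      (Finset.mem_univ j)
  set x1 := (3 / 2 * ‖x‖⁻¹) • x with hx1
  have hr : 0 < 3 / 2 * ‖x‖⁻¹ := by
    have := norm_pos_iff.2 (C.ne_zero_of_mem hx); positivity
  have hn1 : ‖x1‖ = 3 / 2 := by
    rw [hx1, norm_smul, Real.norm_eq_abs, abs_of_pos hr]
    field_simp [norm_ne_zero_iff.2 (C.ne_zero_of_mem hx)]
  set V := C.Ω ∩ {y | C.sS y ≠ 0} ∩ {y | ‖y‖ ∈ Ioo (1 : ℝ) 2}
  have hV : IsOpen V := by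
    refine IsOpen.inter ?_ (isOpen_Ioo.preimage continuous_norm)
    have : C.Ω ∩ {y | C.sS y ≠ 0} = C.Ω ∩ {y | y ∈ C.N ∧ C.sS y ≠ 0} := by
      ext y; exact ⟨fun h => ⟨h.1, C.Ω_sub h.1, h.2⟩, fun h => ⟨h.1, h.2.2⟩⟩
    rw [this]; exact C.isOpen_Ω.inter C.isOpen_sS_ne
  have hx1V : x1 ∈ V := ⟨⟨C.smul_mem hx hr, by
    show C.sS x1 ≠ 0
    simp only [sS, hx1, C.jet_smul hx hr]; exact hsA⟩, by
    show ‖x1‖ ∈ Ioo (1 : ℝ) 2
    rw [hn1]; norm_num⟩
  let f : ℝ → ℝ := (Ioo (1 : ℝ) 2).indicator 1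
  have hle : ∫ y in C.Ω, f ‖y‖ * C.G0 Γ y ≤ 0 := by
    rw [hpol]
    refine mul_nonpos_of_nonpos_of_nonneg hc0 (setIntegral_nonneg measurableSet_Ioi fun r hr => ?_)
    exact mul_nonneg (pow_nonneg (le_of_lt hr) _) (indicator_nonneg (fun _ _ => zero_le_one) r)
  have hpos : ∀ y ∈ C.Ω, C.sS y ≠ 0 → 0 < C.G0 Γ y := fun y hy h => by
    rw [G0, if_neg h]
    exact C.G_pos Γ hd (subset_closure hy) (C.Ω_sub hy) (fst_ne_of_jsq h)
  have hnn : ∀ y ∈ C.Ω, 0 ≤ f ‖y‖ * C.G0 Γ y := fun y hy => by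
    refine mul_nonneg (indicator_nonneg (fun _ _ => zero_le_one) _) ?_
    by_cases h : C.sS y = 0
    · simp [G0, h]
    · exact (hpos y hy h).le
  obtain ⟨M, hM⟩ := C.G0_bound Γ one_pos (b := 2)
  have hfi : IntegrableOn (fun y => f ‖y‖ * C.G0 Γ y) C.Ω := by
    have hd1 : IntegrableOn ((Metric.closedBall (0 : EuclideanSpace ℝ (Fin d)) 2).indicator
        fun _ => |M|) C.Ω :=
      ((integrableOn_const measure_closedBall_lt_top.ne).integrable_indicator
        measurableSet_closedBall).integrableOn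
    refine hd1.mono' (((measurable_const.indicator measurableSet_Ioo).comp measurable_norm
      ).aestronglyMeasurable.mul (C.aestronglyMeasurable_G0 Γ))
      ((ae_restrict_iff' C.isOpen_Ω.measurableSet).2 (Eventually.of_forall fun y hy => ?_))
    by_cases h : ‖y‖ ∈ Ioo (1 : ℝ) 2
    · rw [indicator_of_mem (mem_closedBall_zero_iff.2 h.2.le)]
      simp only [f, indicator_of_mem h, Pi.one_apply, one_mul, Real.norm_eq_abs]
      exact (hM y hy ⟨h.1.le, h.2.le⟩).trans (le_abs_self M)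
    · simp only [f, indicator_of_notMem h, zero_mul, norm_zero]
      exact indicator_nonneg (fun _ _ => abs_nonneg _) y
  have : 0 < ∫ y in C.Ω, f ‖y‖ * C.G0 Γ y := by
    rw [setIntegral_pos_iff_support_of_nonneg_ae
      ((ae_restrict_iff' C.isOpen_Ω.measurableSet).2 (Eventually.of_forall hnn)) hfi]
    refine lt_of_lt_of_le (hV.measure_pos volume ⟨x1, hx1V⟩) (measure_mono fun y hy => ?_)
    refine ⟨?_, hy.1.1⟩
    have hf1 : f ‖y‖ = 1 := indicator_of_mem hy.2 1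
    simp only [Function.mem_support, hf1, one_mul]
    exact (hpos y hy.1.1 hy.1.2).ne'
  linarith

end Cone

/-- A certificate in dimension `d` makes every smooth-section minimising cone flat. -/
theorem flat_of_cert (hd : 2 ≤ d) (Γ : Cert d)
    (u U : EuclideanSpace ℝ (Fin d) → ℝ) (N : Set (EuclideanSpace ℝ (Fin d)))
    (hc : Continuous u) (h0 : ∀ x, 0 ≤ u x) (hh : ∀ r : ℝ, 0 < r → ∀ x, u (r • x) = r * u x)
    (hmin : LipMin u) (hN : IsOpen N) (hcl : ∀ x ∈ closure {x | 0 < u x}, x ≠ 0 → x ∈ N)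
    (hs : ContDiffOn ℝ 8 U N) (he : ∀ x, 0 < u x → U x = u x)
    (hl : ∀ x, 0 < u x → ∑ i, pd i (pd i U) x = 0)
    (h1 : ∀ x ∈ frontier {x | 0 < u x}, x ≠ 0 → gradSq U x = 1) :
    u = 0 ∨ ∃ e : EuclideanSpace ℝ (Fin d), ‖e‖ = 1 ∧
      ∀ x, u x = max (∑ i, x i * e i) 0 :=
  (Cone.ofData hc h0 hh hN hcl hs he hl h1).flat hd
    ((Cone.ofData hc h0 hh hN hcl hs he hl h1).hessian_zero Γ hd hmin)

end Vale.Agent.P098
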