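import Vale.Agent.P098.Half

/-! Second and third order relations on the free boundary. -/

noncomputable section

namespace Vale.Agent.P098

open MeasureTheory Set Filter Topology
open scoped ContDiff

variable {d : ℕ}

theorem line_deriv {f : EuclideanSpace ℝ (Fin d) → ℝ} {x v : EuclideanSpace ℝ (Fin d)} {t : ℝ}
    (hf : DifferentiableAt ℝ f (x + t • v)) :
    HasDerivAt (fun s : ℝ => f (x + s • v)) (fderiv ℝ f (x + t • v) v) t := by
  have h : HasDerivAt (fun s : ℝ => x + s • v) v t := by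
    simpa using ((hasDerivAt_id t).smul_const v).const_add x
  exact hf.hasFDerivAt.comp_hasDerivAt t h

namespace Cone

variable (C : Cone d) {x : EuclideanSpace ℝ (Fin d)}

theorem fderiv_U_Pv (x z : EuclideanSpace ℝ (Fin d)) :
    fderiv ℝ C.U z (C.Pv x) = ∑ i, C.P i x * C.P i z := by
  rw [C.fderiv_U]; rfl

/-- Near a free boundary point, positive values of the extension lie in the positivity set and
zeros lie on the free boundary. -/
theorem local_structure (hx : x ∈ frontier C.Ω) (hN : x ∈ C.N) :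
    ∀ᶠ z in 𝓝 x, z ∈ C.N ∧ (0 < C.U z → z ∈ C.Ω) ∧ (C.U z = 0 → z ∈ frontier C.Ω) := by
  have hg : ContinuousOn (fun z => ∑ i, C.P i x * C.P i z) C.N :=
    continuousOn_finsetSum _ fun i _ => continuousOn_const.mul (C.contDiffOn_P i).continuousOn
  have hone := C.sum_P_sq_frontier hx hN
  have hgx : (1 : ℝ) / 2 < ∑ i, C.P i x * C.P i x := by
    simp only [← sq]; rw [hone]; norm_num
  obtain ⟨r, hr, hball⟩ := Metric.eventually_nhds_iff_ball.1 ((C.isOpen_N.eventually_mem hN).and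
    ((hg.continuousAt (C.isOpen_N.mem_nhds hN)).eventually (lt_mem_nhds hgx)))
  have hP1 : ‖C.Pv x‖ = 1 := by
    rw [EuclideanSpace.norm_eq]
    simp only [Real.norm_eq_abs, sq_abs, Pv_apply]
    rw [hone, Real.sqrt_one]
  obtain ⟨r', hr', hU⟩ := Metric.eventually_nhds_iff_ball.1
    ((C.smooth.continuousOn.continuousAt (C.isOpen_N.mem_nhds hN)).eventually
      (Metric.ball_mem_nhds (C.U x) (show 0 < r / 4 by linarith)))
  obtain ⟨ρ, hρ, hρr, hρr'⟩ : ∃ ρ, 0 < ρ ∧ ρ ≤ r / 4 ∧ ρ ≤ r' :=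
    ⟨min (r / 4) r', lt_min (by linarith) hr', min_le_left _ _, min_le_right _ _⟩
  have hin : ∀ z ∈ Metric.ball x ρ, ∀ t ∈ Icc (0 : ℝ) (r / 2),
      z + t • C.Pv x ∈ Metric.ball x r := by
    intro z hz t ht
    rw [Metric.mem_ball, dist_eq_norm] at hz ⊢
    calc ‖z + t • C.Pv x - x‖ = ‖(z - x) + t • C.Pv x‖ := by congr 1; abel
      _ ≤ ‖z - x‖ + ‖t • C.Pv x‖ := norm_add_le _ _
      _ < r := by
          rw [norm_smul, hP1, Real.norm_eq_abs, abs_of_nonneg ht.1]
          linarith [ht.2]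
  have hmono : ∀ z ∈ Metric.ball x ρ, ∀ t ∈ Icc (0 : ℝ) (r / 2),
      C.U z + t / 2 ≤ C.U (z + t • C.Pv x) := by
    intro z hz t ht
    have hd : ∀ s ∈ Icc (0 : ℝ) (r / 2), HasDerivAt (fun s => C.U (z + s • C.Pv x))
        (fderiv ℝ C.U (z + s • C.Pv x) (C.Pv x)) s := fun s hs =>
      line_deriv (C.diffAt C.smooth (hball _ (hin z hz s hs)).1 (by simp))
    have h := (convex_Icc (0 : ℝ) (r / 2)).mul_sub_le_image_sub_of_le_deriv
      (f := fun s => C.U (z + s • C.Pv x)) (C := 1 / 2)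
      (fun s hs => (hd s hs).continuousAt.continuousWithinAt)
      (fun s hs => ((hd s (interior_subset hs)).differentiableAt).differentiableWithinAt)
      (fun s hs => by
        rw [(hd s (interior_subset hs)).deriv, C.fderiv_U_Pv]
        exact (hball _ (hin z hz s (interior_subset hs))).2.le)
      0 ⟨le_rfl, by linarith⟩ t ht ht.1
    simp only [zero_smul, add_zero, sub_zero] at h
    linarith
  have hUsmall : ∀ z ∈ Metric.ball x ρ, -(r / 4) < C.U z := by
    intro z hz
    have h := hU z (Metric.ball_subset_ball hρr' hz)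
    rw [Real.dist_eq, C.U_frontier hx hN, sub_zero, abs_lt] at h
    exact h.1
  have hconn : ∀ S : Set (EuclideanSpace ℝ (Fin d)), IsPreconnected S →
      (∀ p ∈ S, p ∈ C.N ∧ 0 < C.U p) → (∃ p ∈ S, p ∈ C.Ω) → S ⊆ C.Ω := by
    rintro S hS hpos ⟨p, hp, hpΩ⟩
    refine hS.subset_of_closure_inter_subset C.isOpen_Ω ⟨p, hp, hpΩ⟩ ?_
    rintro q ⟨hq, hqS⟩
    show 0 < C.u q
    rw [← C.U_eq hq (hpos q hqS).1]
    exact (hpos q hqS).2
  let up : EuclideanSpace ℝ (Fin d) → Set (EuclideanSpace ℝ (Fin d)) := fun z =>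
    (fun t : ℝ => z + t • C.Pv x) '' Icc 0 (r / 2)
  have hupconn : ∀ z, IsPreconnected (up z) := fun z =>
    isPreconnected_Icc.image _ (Continuous.continuousOn (by fun_prop))
  have huppos : ∀ z ∈ Metric.ball x ρ, 0 < C.U z → ∀ p ∈ up z, p ∈ C.N ∧ 0 < C.U p := by
    rintro z hz hpos p ⟨t, ht, rfl⟩
    exact ⟨(hball _ (hin z hz t ht)).1, lt_of_lt_of_le (by linarith [ht.1]) (hmono z hz t ht)⟩
  obtain ⟨y0, hy0, hy0Ω⟩ : ∃ y, y ∈ Metric.ball x ρ ∧ y ∈ C.Ω :=
    mem_closure_iff_nhds.1 (frontier_subset_closure hx) _ (Metric.ball_mem_nhds x hρ)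
  have hy0U : 0 < C.U y0 := by rw [C.eq_u y0 hy0Ω]; exact hy0Ω
  have hs : (r / 2) ∈ Icc (0 : ℝ) (r / 2) := ⟨by linarith, le_rfl⟩
  let top : Set (EuclideanSpace ℝ (Fin d)) := (fun q => q + (r / 2) • C.Pv x) '' Metric.ball x ρ
  have htop : top ⊆ C.Ω := by
    refine hconn top ((convex_ball x ρ).isPreconnected.image _
      (Continuous.continuousOn (by fun_prop))) ?_ ?_
    · rintro p ⟨q, hq, rfl⟩
      exact ⟨(hball _ (hin q hq _ hs)).1,
        lt_of_lt_of_le (by linarith [hUsmall q hq]) (hmono q hq _ hs)⟩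
    · exact ⟨y0 + (r / 2) • C.Pv x, ⟨y0, hy0, rfl⟩,
        hconn (up y0) (hupconn y0) (huppos y0 hy0 hy0U)
          ⟨y0, ⟨0, ⟨le_rfl, by linarith⟩, by simp⟩, hy0Ω⟩ ⟨r / 2, hs, rfl⟩⟩
  have hinside : ∀ z ∈ Metric.ball x ρ, 0 < C.U z → z ∈ C.Ω := fun z hz hpos =>
    hconn (up z) (hupconn z) (huppos z hz hpos)
      ⟨z + (r / 2) • C.Pv x, ⟨r / 2, hs, rfl⟩, htop ⟨z, hz, rfl⟩⟩
      ⟨0, ⟨le_rfl, by linarith⟩, by simp⟩
  refine Metric.eventually_nhds_iff_ball.2 ⟨ρ, hρ, fun z hz => ⟨?_, hinside z hz, fun h0 => ?_⟩⟩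
  · simpa using (hball _ (hin z hz 0 ⟨le_rfl, by linarith⟩)).1
  · refine C.mem_frontier ?_ fun hzΩ => ?_
    · have hc : Tendsto (fun t : ℝ => z + t • C.Pv x) (𝓝[>] 0) (𝓝 z) := by
        have : ContinuousAt (fun t : ℝ => z + t • C.Pv x) 0 := by fun_prop
        simpa using this.tendsto.mono_left nhdsWithin_le_nhds
      refine mem_closure_of_tendsto hc ?_
      filter_upwards [Ioc_mem_nhdsGT (show (0 : ℝ) < r / 2 by linarith),
        hc.eventually (Metric.isOpen_ball.mem_nhds hz)] with t ht htb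
      exact hinside _ htb (lt_of_lt_of_le (by linarith [ht.1]) (hmono z hz t ⟨ht.1.le, ht.2⟩))
    · rw [C.eq_u z hzΩ] at h0
      have : 0 < C.u z := hzΩ
      linarith

/-- A function vanishing on the free boundary has gradient parallel to the normal there. -/
theorem tangential (hx : x ∈ frontier C.Ω) (hN : x ∈ C.N) {f : EuclideanSpace ℝ (Fin d) → ℝ}
    (hf : DifferentiableAt ℝ f x) (h0 : ∀ z ∈ C.N, z ∈ frontier C.Ω → f z = 0) (k : Fin d) :
    pd k f x = C.P k x * ∑ j, C.P j x * pd j f x := by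
  classical
  have hone := C.sum_P_sq_frontier hx hN
  let v : EuclideanSpace ℝ (Fin d) := EuclideanSpace.single k 1 - C.P k x • C.Pv x
  have hvU : fderiv ℝ C.U x v = 0 := by
    simp only [v, map_sub, map_smul, C.fderiv_U_Pv, smul_eq_mul]
    rw [show fderiv ℝ C.U x (EuclideanSpace.single k 1) = C.P k x from rfl]
    simp only [← sq, hone, mul_one, sub_self]
  have hPU : fderiv ℝ C.U x (C.Pv x) = 1 := by
    rw [C.fderiv_U_Pv]; simpa [sq] using hone
  have hUx : C.U x = 0 := C.U_frontier hx hN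
  have key : ∀ n : ℕ, ∃ t θ : ℝ, 0 < t ∧ t < 1 / ((n : ℝ) + 1) ∧ |θ| ≤ 1 / ((n : ℝ) + 1) ∧
      x + t • (v + θ • C.Pv x) ∈ frontier C.Ω ∧ x + t • (v + θ • C.Pv x) ∈ C.N := by
    intro n
    obtain ⟨δ, hδdef⟩ : ∃ δ : ℝ, δ = 1 / ((n : ℝ) + 1) := ⟨_, rfl⟩
    have hδ : 0 < δ := hδdef ▸ by positivity
    rw [← hδdef]
    have hlin : ∀ a : ℝ, Tendsto (fun t : ℝ => t⁻¹ * C.U (x + t • (v + a • C.Pv x))) (𝓝[>] 0)
        (𝓝 a) := by
      intro a
      have h : HasDerivAt (fun s : ℝ => C.U (x + s • (v + a • C.Pv x))) a 0 := by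
        have h := line_deriv (f := C.U) (x := x) (v := v + a • C.Pv x) (t := 0)
          (by simpa using C.diffAt C.smooth hN (by simp))
        simpa [map_add, map_smul, hvU, hPU] using h
      simpa [hUx] using h.tendsto_slope_zero_right
    obtain ⟨ρ, hρ, hloc⟩ := Metric.eventually_nhds_iff_ball.1 (C.local_structure hx hN)
    obtain ⟨M, hM⟩ : ∃ M, M = ‖v‖ + δ * ‖C.Pv x‖ + 1 := ⟨_, rfl⟩
    have hM0 : 0 < M := hM ▸ by positivity
    have hev : ∀ᶠ t : ℝ in 𝓝[>] 0, t < δ ∧ t < ρ / M ∧ 0 < t ∧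
        t⁻¹ * C.U (x + t • (v + (-δ) • C.Pv x)) < 0 ∧
        0 < t⁻¹ * C.U (x + t • (v + δ • C.Pv x)) := by
      filter_upwards [nhdsWithin_le_nhds (gt_mem_nhds hδ),
        nhdsWithin_le_nhds (gt_mem_nhds (div_pos hρ hM0)), self_mem_nhdsWithin,
        (hlin (-δ)).eventually (gt_mem_nhds (by linarith : -δ < 0)),
        (hlin δ).eventually (lt_mem_nhds hδ)] with t a b c e f'
      exact ⟨a, b, c, e, f'⟩
    obtain ⟨t, htδ, htρ, ht, hneg, hpos⟩ := hev.exists
    have hball : ∀ θ ∈ Icc (-δ) δ, x + t • (v + θ • C.Pv x) ∈ Metric.ball x ρ := by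
      intro θ hθ
      rw [Metric.mem_ball, dist_eq_norm, add_sub_cancel_left, norm_smul, Real.norm_eq_abs,
        abs_of_pos ht]
      rw [lt_div_iff₀ hM0] at htρ
      refine lt_of_le_of_lt (mul_le_mul_of_nonneg_left ?_ ht.le) htρ
      refine (norm_add_le _ _).trans ?_
      rw [norm_smul, Real.norm_eq_abs, hM]
      have := mul_le_mul_of_nonneg_right (abs_le.2 hθ) (norm_nonneg (C.Pv x))
      linarith
    have hcont : ContinuousOn (fun θ : ℝ => C.U (x + t • (v + θ • C.Pv x))) (Icc (-δ) δ) :=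
      C.smooth.continuousOn.comp (Continuous.continuousOn (by fun_prop))
        fun θ hθ => (hloc _ (hball θ hθ)).1
    obtain ⟨θ, hθ, hθ0⟩ := intermediate_value_Icc (by linarith : -δ ≤ δ) hcont
      (show (0 : ℝ) ∈ Icc _ _ from
        ⟨(neg_of_mul_neg_right hneg (inv_nonneg.2 ht.le)).le,
          (pos_of_mul_pos_right hpos (inv_nonneg.2 ht.le)).le⟩)
    exact ⟨t, θ, ht, htδ, abs_le.2 hθ, (hloc _ (hball θ hθ)).2.2 hθ0, (hloc _ (hball θ hθ)).1⟩
  choose t θ ht htb hθ hfr hmem using key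
  have ht0 : Tendsto t atTop (𝓝 0) :=
    squeeze_zero (fun n => (ht n).le) (fun n => (htb n).le)
      tendsto_one_div_add_atTop_nhds_zero_nat
  have hθ0 : Tendsto θ atTop (𝓝 0) :=
    squeeze_zero_norm (fun n => by rw [Real.norm_eq_abs]; exact hθ n)
      tendsto_one_div_add_atTop_nhds_zero_nat
  have hw : Tendsto (fun n => v + θ n • C.Pv x) atTop (𝓝 v) := by
    simpa using (hθ0.smul_const (C.Pv x)).const_add v
  have hd0 : Tendsto (fun n => t n • (v + θ n • C.Pv x)) atTop (𝓝 0) := by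
    simpa using ht0.smul hw
  have hlim := hf.hasFDerivAt.hasFDerivWithinAt (s := univ) |>.lim (c := fun n => (t n)⁻¹) hd0
    (.of_forall fun _ => mem_univ _)
    (hw.congr fun n => by rw [inv_smul_smul₀ (ht n).ne'])
  have hzero : fderiv ℝ f x v = 0 :=
    tendsto_nhds_unique hlim (tendsto_const_nhds.congr fun n => by
      rw [h0 _ (hmem n) (hfr n), h0 x hN hx, sub_zero, smul_zero])
  simp only [v, map_sub, map_smul, smul_eq_mul, sub_eq_zero] at hzero
  calc pd k f x = C.P k x * fderiv ℝ f x (C.Pv x) := hzero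
    _ = _ := by rw [fderiv_eq_sum_pd]; rfl

/-- Mean curvature of the free boundary, as minus the normal second derivative. -/
def Hf (y : EuclideanSpace ℝ (Fin d)) : ℝ := -∑ i, ∑ j, C.P i y * C.A i j y * C.P j y

/-- The gradient is an eigenvector of the Hessian on the free boundary. -/
theorem front_A (hx : x ∈ frontier C.Ω) (hN : x ∈ C.N) (i : Fin d) :
    ∑ j, C.A i j x * C.P j x = -C.Hf x * C.P i x := by
  have hd : ∀ j, DifferentiableAt ℝ (C.P j) x := fun j => C.diffAt (C.contDiffOn_P j) hN (by simp)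
  have hf : DifferentiableAt ℝ (fun y => ∑ j, C.P j y * C.P j y) x :=
    DifferentiableAt.fun_sum fun j _ => (hd j).fun_mul (hd j)
  have hp : ∀ a, pd a (fun y => (∑ j, C.P j y * C.P j y) - 1) x =
      2 * ∑ j, C.A a j x * C.P j x := by
    intro a
    rw [pd_sub hf (differentiableAt_const _), pd_const, sub_zero,
      pd_sum _ fun j _ => (hd j).fun_mul (hd j),
      Finset.sum_congr rfl fun j _ => pd_mul (hd j) (hd j), Finset.mul_sum]
    refine Finset.sum_congr rfl fun j _ => ?_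
    simp only [Cone.A]
    ring
  have h := C.tangential hx hN (hf.fun_sub (differentiableAt_const (1 : ℝ))) (fun z hzN hz => by
    have := C.sum_P_sq_frontier hz hzN
    simp only [← sq, this, sub_self]) i
  simp only [hp] at h
  have e : ∑ a, C.P a x * (2 * ∑ j, C.A a j x * C.P j x) = -(2 * C.Hf x) := by
    simp only [Hf, Finset.mul_sum, mul_neg, neg_neg]
    exact Finset.sum_congr rfl fun a _ => Finset.sum_congr rfl fun j _ => by ring
  rw [e] at h
  linarith

/-- The third derivative contracted with the gradient on the free boundary. -/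
theorem front_T (hx : x ∈ frontier C.Ω) (hN : x ∈ C.N) :
    ∃ z : Fin d → ℝ, ∑ i, z i * C.P i x = 0 ∧ ∑ i, z i * x i = C.Hf x ∧
      ∀ j k, ∑ i, C.P i x * C.T i j k x =
        -(∑ l, C.A j l x * C.A l k x) - C.Hf x * C.A j k x +
          (∑ a, ∑ b, C.A a b x ^ 2) * C.P j x * C.P k x + C.P j x * z k + z j * C.P k x := by
  have hxc := frontier_subset_closure hx
  have hone := C.sum_P_sq_frontier hx hN
  have hone' : ∑ i, C.P i x * C.P i x = 1 := by simpa [sq] using hone
  have hd : ∀ j, DifferentiableAt ℝ (C.P j) x := fun j => C.diffAt (C.contDiffOn_P j) hN (by simp)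
  have hdA : ∀ i j, DifferentiableAt ℝ (C.A i j) x := fun i j =>
    C.diffAt (C.contDiffOn_A i j) hN (by simp)
  have hHd : ContDiffOn ℝ 6 C.Hf C.N :=
    (ContDiffOn.sum fun i _ => ContDiffOn.sum fun j _ =>
      (((C.contDiffOn_P i).of_le (by norm_num)).mul (C.contDiffOn_A i j)).mul
        ((C.contDiffOn_P j).of_le (by norm_num))).neg
  have hH := C.diffAt hHd hN (by simp)
  obtain ⟨Hd, hHdef⟩ : ∃ Hd : Fin d → ℝ, ∀ k, pd k C.Hf x = Hd k := ⟨_, fun k => rfl⟩
  obtain ⟨Q, hQ⟩ : ∃ Q : Fin d → Fin d → ℝ, ∀ j k, ∑ i, C.P i x * C.T i j k x = Q j k :=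
    ⟨_, fun j k => rfl⟩
  obtain ⟨M, hM⟩ : ∃ M : Fin d → Fin d → ℝ, ∀ j k,
      M j k = Q j k + (∑ l, C.A j l x * C.A l k x) + C.Hf x * C.A j k x := ⟨_, fun j k => rfl⟩
  -- differentiate the eigenvector relation along the free boundary
  have hb : ∀ j, ∃ b : ℝ, ∀ k, M j k = C.P k x * b - Hd k * C.P j x := by
    intro j
    have hf : DifferentiableAt ℝ (fun y => (∑ i, C.A j i y * C.P i y) + C.Hf y * C.P j y) x :=
      (DifferentiableAt.fun_sum fun i _ => (hdA j i).fun_mul (hd i)).fun_add (hH.fun_mul (hd j))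
    refine ⟨∑ a, C.P a x * pd a (fun y => (∑ i, C.A j i y * C.P i y) + C.Hf y * C.P j y) x,
      fun k => ?_⟩
    rw [← C.tangential hx hN hf (fun z hzN hz => by rw [C.front_A hz hzN j]; ring) k,
      pd_add (DifferentiableAt.fun_sum fun i _ => (hdA j i).fun_mul (hd i)) (hH.fun_mul (hd j)),
      pd_sum _ (fun i _ => (hdA j i).fun_mul (hd i)),
      Finset.sum_congr rfl fun i _ => pd_mul (hdA j i) (hd i), pd_mul hH (hd j), hHdef, hM,
      ← hQ, Finset.sum_add_distrib]
    have e1 : ∑ i, pd k (C.A j i) x * C.P i x = ∑ i, C.P i x * C.T i j k x := by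
      refine Finset.sum_congr rfl fun i _ => ?_
      rw [show pd k (C.A j i) x = C.T k j i x from rfl, C.T_symm_right k j i hN,
        C.T_symm_left k i j hN, C.T_symm_right i k j hN, mul_comm]
    have e2 : ∑ i, C.A j i x * pd k (C.P i) x = ∑ l, C.A j l x * C.A l k x :=
      Finset.sum_congr rfl fun i _ => by
        rw [show pd k (C.P i) x = C.A k i x from rfl, C.A_symm k i hN]
    rw [e1, e2, show pd k (C.P j) x = C.A k j x from rfl, C.A_symm k j hN]
    ring
  choose b hb using hb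
  have hsym : ∀ j k, M j k = M k j := by
    intro j k
    have e1 : Q j k = Q k j := by
      rw [← hQ, ← hQ]
      exact Finset.sum_congr rfl fun i _ => by rw [C.T_symm_right i j k hN]
    have e2 : ∑ l, C.A j l x * C.A l k x = ∑ l, C.A k l x * C.A l j x :=
      Finset.sum_congr rfl fun l _ => by rw [C.A_symm j l hN, C.A_symm l k hN, mul_comm]
    rw [hM, hM, e1, e2, C.A_symm j k hN]
  obtain ⟨β, hβ⟩ : ∃ β, β = ∑ k, b k * C.P k x := ⟨_, rfl⟩
  obtain ⟨h, hh⟩ : ∃ h, h = ∑ k, Hd k * C.P k x := ⟨_, rfl⟩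
  have hbj : ∀ j, b j = (h + β) * C.P j x - Hd j := by
    intro j
    have h1 : ∑ k, M j k * C.P k x = b j * (∑ k, C.P k x * C.P k x) - h * C.P j x := by
      rw [hh, Finset.mul_sum, Finset.sum_mul, ← Finset.sum_sub_distrib]
      exact Finset.sum_congr rfl fun k _ => by rw [hb]; ring
    have h2 : ∑ k, M j k * C.P k x = β * C.P j x - Hd j * (∑ k, C.P k x * C.P k x) := by
      rw [hβ, Finset.mul_sum, Finset.sum_mul, ← Finset.sum_sub_distrib]
      exact Finset.sum_congr rfl fun k _ => by rw [hsym, hb]; ring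
    rw [hone'] at h1 h2
    linarith
  have hform : ∀ j k, M j k = (β - h) * C.P j x * C.P k x + C.P j x * (h * C.P k x - Hd k) +
      (h * C.P j x - Hd j) * C.P k x := fun j k => by rw [hb, hbj]; ring
  have hzP : ∑ i, (h * C.P i x - Hd i) * C.P i x = 0 := by
    simp only [sub_mul, Finset.sum_sub_distrib, mul_assoc, ← Finset.mul_sum, hone', mul_one,
      ← hh, sub_self]
  have htr : β - h = ∑ a, ∑ c, C.A a c x ^ 2 := by
    have h1 : ∑ j, M j j = β - h := by
      rw [hβ, hh, ← Finset.sum_sub_distrib]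
      exact Finset.sum_congr rfl fun j _ => by rw [hb]; ring
    rw [← h1, Finset.sum_congr rfl fun j _ => hM j j, Finset.sum_add_distrib,
      Finset.sum_add_distrib, ← Finset.mul_sum, C.trace_A hxc hN, mul_zero, add_zero,
      Finset.sum_congr rfl fun j _ => (hQ j j).symm, Finset.sum_comm,
      Finset.sum_eq_zero fun i _ => by rw [← Finset.mul_sum, C.trace_T hxc hN i, mul_zero],
      zero_add]
    exact Finset.sum_congr rfl fun j _ => Finset.sum_congr rfl fun l _ => by
      rw [C.A_symm l j hN, sq]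
  have hxP : ∑ i, x i * C.P i x = 0 := by rw [C.euler0' hxc hN, C.U_frontier hx hN]
  refine ⟨fun i => h * C.P i x - Hd i, hzP, ?_, fun j k => ?_⟩
  · have hxM : ∀ k, ∑ j, x j * M j k = C.Hf x * C.P k x := by
      intro k
      have h1 : ∑ j, x j * Q j k = C.Hf x * C.P k x := by
        calc ∑ j, x j * Q j k = ∑ i, C.P i x * ∑ j, x j * C.T j i k x := by
              simp only [← hQ, Finset.mul_sum]
              rw [Finset.sum_comm]
              exact Finset.sum_congr rfl fun i _ => Finset.sum_congr rfl fun j _ => by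
                rw [C.T_symm_left i j k hN]; ring
          _ = -∑ i, C.A k i x * C.P i x := by
              rw [← Finset.sum_neg_distrib]
              exact Finset.sum_congr rfl fun i _ => by
                rw [C.euler2' hxc hN i k, C.A_symm i k hN]; ring
          _ = _ := by rw [C.front_A hx hN k]; ring
      have h2 : ∑ j, x j * ∑ l, C.A j l x * C.A l k x = 0 := by
        simp only [Finset.mul_sum]
        rw [Finset.sum_comm]
        refine Finset.sum_eq_zero fun l _ => ?_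
        simp only [← mul_assoc]
        rw [← Finset.sum_mul, C.euler1' hxc hN l, zero_mul]
      have h3 : ∑ j, x j * (C.Hf x * C.A j k x) = 0 := by
        simp only [mul_left_comm (x _) (C.Hf x)]
        rw [← Finset.mul_sum, C.euler1' hxc hN k, mul_zero]
      simp only [hM, mul_add, Finset.sum_add_distrib, h1, h2, h3, add_zero]
    obtain ⟨S, hS⟩ : ∃ S, S = ∑ i, (h * C.P i x - Hd i) * x i := ⟨_, rfl⟩
    have hk : ∀ k, C.Hf x * C.P k x = S * C.P k x := by
      intro k
      rw [← hxM k, hS, Finset.sum_mul]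
      have : ∀ j, x j * M j k = (h * C.P j x - Hd j) * x j * C.P k x +
          ((β - h) * C.P k x + (h * C.P k x - Hd k)) * (x j * C.P j x) := fun j => by
        rw [hform]; ring
      rw [Finset.sum_congr rfl fun j _ => this j, Finset.sum_add_distrib, ← Finset.mul_sum, hxP,
        mul_zero, add_zero]
    have := congrArg (fun f : Fin d → ℝ => ∑ k, C.P k x * f k) (funext hk)
    simp only [mul_left_comm (C.P _ x), ← Finset.mul_sum, hone', mul_one] at this
    exact hS ▸ this.symm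
  · have h1 := hform j k
    rw [hM, htr] at h1
    rw [hQ]
    linarith

end Cone

end Vale.Agent.P098
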