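import Vale.Agent.P098.Homog

/-! Where the Hessian vanishes along a level set of the gradient, the positivity set contains a
half space with constant gradient. -/

noncomputable section

namespace Vale.Agent.P098

open MeasureTheory Set Filter Topology
open scoped ContDiff

variable {d : ℕ}

namespace Cone

variable (C : Cone d) {x : EuclideanSpace ℝ (Fin d)}

/-- The gradient as a vector. -/
def Pv (x : EuclideanSpace ℝ (Fin d)) : EuclideanSpace ℝ (Fin d) :=
  WithLp.toLp 2 fun i => C.P i x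

theorem Pv_apply (i : Fin d) : C.Pv x i = C.P i x := rfl

theorem fderiv_U (v : EuclideanSpace ℝ (Fin d)) :
    fderiv ℝ C.U x v = ∑ i, v i * C.P i x :=
  fderiv_eq_sum_pd _ _ _

theorem U_frontier (hx : x ∈ frontier C.Ω) (hN : x ∈ C.N) : C.U x = 0 := by
  rw [C.isOpen_Ω.frontier_eq] at hx
  rw [C.U_eq hx.1 hN, C.u_eq_zero hx.2]

theorem sum_P_sq_frontier (hx : x ∈ frontier C.Ω) (hN : x ∈ C.N) : ∑ i, C.P i x ^ 2 = 1 :=
  C.grad_one x hx fun h => C.zero_notMem (h ▸ hN)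

theorem P_locally_const {y : EuclideanSpace ℝ (Fin d)} (hy : y ∈ C.Ω)
    (hA : ∀ᶠ z in 𝓝 y, ∀ i j, C.A i j z = 0) : ∀ᶠ z in 𝓝 y, ∀ i, C.P i z = C.P i y := by
  obtain ⟨r, hr, hball⟩ :=
    Metric.eventually_nhds_iff_ball.1 ((C.isOpen_Ω.eventually_mem hy).and hA)
  refine Metric.eventually_nhds_iff_ball.2 ⟨r, hr, fun z hz i => ?_⟩
  have hd : ∀ w ∈ Metric.ball y r, DifferentiableAt ℝ (C.P i) w := fun w hw =>
    C.diffAt (C.contDiffOn_P i) (C.Ω_sub (hball w hw).1) (by simp)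
  have hb : ∀ w ∈ Metric.ball y r, ‖fderiv ℝ (C.P i) w‖ ≤ 0 := by
    intro w hw
    refine ContinuousLinearMap.opNorm_le_bound _ le_rfl fun v => ?_
    rw [fderiv_eq_sum_pd, Finset.sum_eq_zero]
    · simp
    · intro j _
      rw [show pd j (C.P i) w = C.A j i w from rfl, (hball w hw).2 j i, mul_zero]
  have h := (convex_ball y r).norm_image_sub_le_of_norm_fderiv_le hd hb
    (Metric.mem_ball_self hr) hz
  rw [zero_mul, norm_le_zero_iff, sub_eq_zero] at h
  exact h

/-- A half space with constant gradient. -/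
theorem half_space {x0 : EuclideanSpace ℝ (Fin d)} (hx0 : x0 ∈ C.Ω)
    (hA : ∀ y ∈ C.Ω, (∀ i, C.P i y = C.P i x0) → ∀ᶠ z in 𝓝 y, ∀ i j, C.A i j z = 0)
    {y : EuclideanSpace ℝ (Fin d)} (hy : 0 < ∑ i, y i * C.P i x0) :
    y ∈ C.Ω ∧ ∀ i, C.P i y = C.P i x0 := by
  let H : Set (EuclideanSpace ℝ (Fin d)) := {z | 0 < ∑ i, z i * C.P i x0}
  let W : Set (EuclideanSpace ℝ (Fin d)) := {z | z ∈ C.Ω ∧ ∀ i, C.P i z = C.P i x0}
  have hlin : IsLinearMap ℝ fun z : EuclideanSpace ℝ (Fin d) => ∑ i, z i * C.P i x0 := by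
    constructor
    · intro a b; simp [add_mul, Finset.sum_add_distrib]
    · intro c a; simp [Finset.mul_sum, mul_assoc]
  have hH : IsPreconnected H := (convex_halfSpace_gt hlin 0).isPreconnected
  have hWopen : IsOpen W := by
    rw [isOpen_iff_mem_nhds]
    rintro z ⟨hz, hP⟩
    filter_upwards [C.isOpen_Ω.mem_nhds hz, C.P_locally_const hz (hA z hz hP)] with w hw hw'
    exact ⟨hw, fun i => (hw' i).trans (hP i)⟩
  have hx0W : x0 ∈ W := ⟨hx0, fun _ => rfl⟩
  have hx0H : x0 ∈ H := by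
    show 0 < ∑ i, x0 i * C.P i x0
    rw [C.euler0 hx0, C.eq_u x0 hx0]
    exact hx0
  have hsub : H ⊆ W := by
    refine hH.subset_of_closure_inter_subset hWopen ⟨x0, hx0H, hx0W⟩ ?_
    rintro z ⟨hz, hzH⟩
    have hzne : z ≠ 0 := by
      rintro rfl
      simp [H] at hzH
    have hzc : z ∈ closure C.Ω := closure_mono (fun w hw => hw.1) hz
    have hzN : z ∈ C.N := C.closure_sub z hzc hzne
    have hP : ∀ i, C.P i z = C.P i x0 := by
      intro i
      have : (𝓝[W] z).NeBot := mem_closure_iff_nhdsWithin_neBot.1 hz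
      have h1 : Tendsto (C.P i) (𝓝[W] z) (𝓝 (C.P i z)) :=
        ((C.contDiffOn_P i).continuousOn.continuousAt (C.isOpen_N.mem_nhds hzN)).mono_left
          nhdsWithin_le_nhds
      exact tendsto_nhds_unique h1 (tendsto_const_nhds.congr'
        (eventually_nhdsWithin_of_forall fun w hw => (hw.2 i).symm))
    refine ⟨?_, hP⟩
    show 0 < C.u z
    rw [← C.U_eq hzc hzN, ← C.euler0' hzc hzN, Finset.sum_congr rfl fun i _ => by rw [hP i]]
    exact hzH
  exact hsub hy

/-- Nonzero points of the bounding hyperplane are free boundary points with the same gradient. -/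
theorem plane_frontier {x0 : EuclideanSpace ℝ (Fin d)} (hx0 : x0 ∈ C.Ω)
    (hA : ∀ y ∈ C.Ω, (∀ i, C.P i y = C.P i x0) → ∀ᶠ z in 𝓝 y, ∀ i j, C.A i j z = 0)
    {z : EuclideanSpace ℝ (Fin d)} (hz : ∑ i, z i * C.P i x0 = 0) (hz0 : z ≠ 0) :
    z ∈ C.N ∧ z ∈ frontier C.Ω ∧ ∀ i, C.P i z = C.P i x0 := by
  have hpos : 0 < ∑ i, x0 i * C.P i x0 := by
    rw [C.euler0 hx0, C.eq_u x0 hx0]
    exact hx0
  have hmem : ∀ n : ℕ, z + (1 / ((n : ℝ) + 1)) • x0 ∈ C.Ω ∧
      ∀ i, C.P i (z + (1 / ((n : ℝ) + 1)) • x0) = C.P i x0 := by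
    intro n
    refine C.half_space hx0 hA ?_
    have e : ∑ i, (z + (1 / ((n : ℝ) + 1)) • x0) i * C.P i x0 =
        (∑ i, z i * C.P i x0) + (1 / ((n : ℝ) + 1)) * ∑ i, x0 i * C.P i x0 := by
      simp [add_mul, Finset.sum_add_distrib, Finset.mul_sum, mul_assoc]
    rw [e, hz, zero_add]
    positivity
  have hlim : Tendsto (fun n : ℕ => z + (1 / ((n : ℝ) + 1)) • x0) atTop (𝓝 z) := by
    simpa using ((tendsto_one_div_add_atTop_nhds_zero_nat (𝕜 := ℝ)).smul_const x0).const_add z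
  have hzc : z ∈ closure C.Ω := mem_closure_of_tendsto hlim (.of_forall fun n => (hmem n).1)
  have hzN : z ∈ C.N := C.closure_sub z hzc hz0
  have hP : ∀ i, C.P i z = C.P i x0 := fun i =>
    tendsto_nhds_unique
      (((C.contDiffOn_P i).continuousOn.continuousAt (C.isOpen_N.mem_nhds hzN)).tendsto.comp hlim)
      (tendsto_const_nhds.congr fun n => ((hmem n).2 i).symm)
  refine ⟨hzN, C.mem_frontier hzc fun hzΩ => ?_, hP⟩
  have : 0 < C.u z := hzΩ
  rw [← C.U_eq hzc hzN, ← C.euler0' hzc hzN, Finset.sum_congr rfl fun i _ => by rw [hP i], hz]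
    at this
  exact lt_irrefl _ this

/-- A nonzero vector orthogonal to a given one, for `2 ≤ d`. -/
theorem exists_orth (hd : 2 ≤ d) (p : Fin d → ℝ) :
    ∃ z : EuclideanSpace ℝ (Fin d), z ≠ 0 ∧ ∑ i, z i * p i = 0 := by
  classical
  let a : Fin d := ⟨0, by omega⟩
  let b : Fin d := ⟨1, by omega⟩
  have hab : a ≠ b := by simp [a, b, Fin.ext_iff]
  by_cases h : p a = 0
  · refine ⟨EuclideanSpace.single a 1, fun e => ?_, by simp [h]⟩
    have := congrArg (fun v : EuclideanSpace ℝ (Fin d) => v a) e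
    simp at this
  · refine ⟨EuclideanSpace.single a (p b) - EuclideanSpace.single b (p a), fun e => h ?_, ?_⟩
    · have := congrArg (fun v : EuclideanSpace ℝ (Fin d) => v b) e
      simpa [hab.symm] using this
    · simp [sub_mul, Finset.sum_sub_distrib, ite_mul, mul_comm (p b)]

end Cone

end Vale.Agent.P098
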