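import Vale.Agent.P098.Homog

/-! The second inner variation as a Dirichlet term plus a divergence. -/

noncomputable section

namespace Vale.Agent.P098

open MeasureTheory Set Filter Topology
open scoped ContDiff

variable {d : ℕ}

theorem pd_div {i : Fin d} {f g : EuclideanSpace ℝ (Fin d) → ℝ} {x : EuclideanSpace ℝ (Fin d)}
    (hf : DifferentiableAt ℝ f x) (hg : DifferentiableAt ℝ g x) (h0 : g x ≠ 0) :
    pd i (fun y => f y / g y) x = (pd i f x * g x - f x * pd i g x) / g x ^ 2 := by
  have hi : DifferentiableAt ℝ (fun y => (g y)⁻¹) x := hg.inv h0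
  simp only [div_eq_mul_inv]
  rw [pd_mul hf hi, pd_comp (φ := fun s : ℝ => s⁻¹) (differentiableAt_inv h0) hg, deriv_inv]
  field_simp
  ring

theorem dvg_mul {x : EuclideanSpace ℝ (Fin d)} {φ : EuclideanSpace ℝ (Fin d) → ℝ}
    {V : Fin d → EuclideanSpace ℝ (Fin d) → ℝ} (hφ : DifferentiableAt ℝ φ x)
    (hV : ∀ i, DifferentiableAt ℝ (V i) x) :
    dvg (fun i y => φ y * V i y) x = ∑ i, pd i φ x * V i x + φ x * dvg V x := by
  simp only [dvg, Finset.mul_sum, ← Finset.sum_add_distrib]
  refine Finset.sum_congr rfl fun i _ => ?_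
  rw [pd_mul hφ (hV i)]; ring

namespace Cone

variable (C : Cone d) (X : Fin d → EuclideanSpace ℝ (Fin d) → ℝ)

/-- Jacobian of the variation field. -/
def bX (i j : Fin d) : EuclideanSpace ℝ (Fin d) → ℝ := pd j (X i)

/-- Divergence of the variation field, as the trace of its Jacobian. -/
def trX (x : EuclideanSpace ℝ (Fin d)) : ℝ := ∑ i, bX X i i x

/-- Normal component of the variation field. -/
def psiX (x : EuclideanSpace ℝ (Fin d)) : ℝ := ∑ i, C.P i x * X i x

/-- Hessian applied to the field. -/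
def mX (i : Fin d) (x : EuclideanSpace ℝ (Fin d)) : ℝ := ∑ j, C.A i j x * X j x

/-- Jacobian applied to the gradient. -/
def qX (i : Fin d) (x : EuclideanSpace ℝ (Fin d)) : ℝ := ∑ j, bX X i j x * C.P j x

/-- Transposed Jacobian applied to the gradient. -/
def rX (j : Fin d) (x : EuclideanSpace ℝ (Fin d)) : ℝ := ∑ i, bX X i j x * C.P i x

/-- Jacobian applied to the field. -/
def sX (i : Fin d) (x : EuclideanSpace ℝ (Fin d)) : ℝ := ∑ j, bX X i j x * X j x

/-- The contraction `p A X`. -/
def aX (x : EuclideanSpace ℝ (Fin d)) : ℝ := ∑ i, C.P i x * C.mX X i x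

/-- The contraction `X A X`. -/
def cX (x : EuclideanSpace ℝ (Fin d)) : ℝ := ∑ i, X i x * C.mX X i x

/-- Half of the second inner variation of the integrand. -/
def secondVar (x : EuclideanSpace ℝ (Fin d)) : ℝ :=
  ∑ j, C.rX X j x ^ 2 + 2 * ∑ i, C.rX X i x * C.qX X i x
    - 2 * trX X x * (∑ i, C.P i x * C.qX X i x)
    + (gradSq C.U x + 1) / 2 * (trX X x ^ 2 - ∑ i, ∑ j, bX X i j x * bX X j i x)

/-- The divergence potential of the second inner variation. -/
def zX (i : Fin d) (x : EuclideanSpace ℝ (Fin d)) : ℝ :=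
  (gradSq C.U x + 1) / 2 * (X i x * trX X x - sX X i x)
    + 2 * (C.psiX X x * C.qX X i x) - 2 * ((C.psiX X x * trX X x) * C.P i x)
    + C.aX X x * X i x - 2 * (C.psiX X x * C.mX X i x) - C.cX X x * C.P i x

variable {C X}
variable {x : EuclideanSpace ℝ (Fin d)}

theorem pd_gradSq (hx : x ∈ C.N) (k : Fin d) :
    pd k (gradSq C.U) x = 2 * ∑ i, C.A k i x * C.P i x := by
  have : gradSq C.U = fun y => ∑ i, C.P i y * C.P i y := by
    funext y; simp [gradSq, Cone.P, sq]
  rw [this, pd_sum _ (fun i _ => (C.diffAt (C.contDiffOn_P i) hx (by simp)).fun_mul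
    (C.diffAt (C.contDiffOn_P i) hx (by simp))), Finset.mul_sum]
  refine Finset.sum_congr rfl fun i _ => ?_
  rw [pd_mul (C.diffAt (C.contDiffOn_P i) hx (by simp)) (C.diffAt (C.contDiffOn_P i) hx (by simp))]
  show C.P i x * C.A k i x + C.A k i x * C.P i x = _
  ring

theorem dvg_P (hx : x ∈ C.Ω) : dvg C.P x = 0 := C.harmonic x hx

theorem secondVar_eq (hX : ∀ i, ContDiff ℝ 2 (X i)) (hx : x ∈ C.Ω) :
    C.secondVar X x = gradSq (C.psiX X) x + dvg (C.zX X) x := by
  have hN := C.Ω_sub hx
  have hc : x ∈ closure C.Ω := subset_closure hx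
  have dP : ∀ i, DifferentiableAt ℝ (C.P i) x := fun i => C.diffAt (C.contDiffOn_P i) hN (by simp)
  have dA : ∀ i j, DifferentiableAt ℝ (C.A i j) x := fun i j => C.diffAt (C.contDiffOn_A i j) hN (by simp)
  have dX : ∀ i, DifferentiableAt ℝ (X i) x := fun i => (hX i).differentiable two_ne_zero x
  have dB : ∀ i j, DifferentiableAt ℝ (bX X i j) x := fun i j =>
    (contDiff_pd (m := 1) (hX i) (by norm_num)).differentiable one_ne_zero x
  have dtr : DifferentiableAt ℝ (trX X) x := DifferentiableAt.fun_sum fun i _ => dB i i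
  have dpsi : DifferentiableAt ℝ (C.psiX X) x :=
    DifferentiableAt.fun_sum fun i _ => (dP i).fun_mul (dX i)
  have dm : ∀ i, DifferentiableAt ℝ (C.mX X i) x := fun i =>
    DifferentiableAt.fun_sum fun j _ => (dA i j).fun_mul (dX j)
  have dq : ∀ i, DifferentiableAt ℝ (C.qX X i) x := fun i =>
    DifferentiableAt.fun_sum fun j _ => (dB i j).fun_mul (dP j)
  have ds : ∀ i, DifferentiableAt ℝ (sX X i) x := fun i =>
    DifferentiableAt.fun_sum fun j _ => (dB i j).fun_mul (dX j)
  have da : DifferentiableAt ℝ (C.aX X) x :=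
    DifferentiableAt.fun_sum fun i _ => (dP i).fun_mul (dm i)
  have dc : DifferentiableAt ℝ (C.cX X) x :=
    DifferentiableAt.fun_sum fun i _ => (dX i).fun_mul (dm i)
  have dg : DifferentiableAt ℝ (gradSq C.U) x :=
    DifferentiableAt.fun_sum fun i _ => (dP i).fun_pow 2
  have hBcomm : ∀ i j k, pd k (bX X i j) x = pd j (bX X i k) x := fun i j k =>
    pd_comm (f := X i) (n := 2) isOpen_univ (hX i).contDiffOn (mem_univ x) le_rfl
  -- first derivatives
  have hpsi : ∀ k, pd k (C.psiX X) x = C.rX X k x + C.mX X k x := fun k => by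
    unfold psiX rX mX
    rw [pd_sum _ (fun i _ => (dP i).fun_mul (dX i)), ← Finset.sum_add_distrib]
    refine Finset.sum_congr rfl fun i _ => ?_
    rw [pd_mul (dP i) (dX i)]
    show C.P i x * bX X i k x + C.A k i x * X i x = _
    ring
  have htr : ∀ k, pd k (trX X) x = ∑ i, pd k (bX X i i) x := fun k =>
    pd_sum _ fun i _ => dB i i
  have hdX : dvg X x = trX X x := rfl
  have hds : dvg (sX X) x = ∑ i, pd i (trX X) x * X i x + ∑ i, ∑ j, bX X i j x * bX X j i x := by
    simp only [dvg]
    rw [Finset.sum_congr rfl fun i _ => show pd i (sX X i) x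
      = ∑ j, (bX X i j x * bX X j i x + pd i (bX X i j) x * X j x) by
        unfold sX
        rw [pd_sum _ (fun j _ => (dB i j).fun_mul (dX j))]
        refine Finset.sum_congr rfl fun j _ => ?_
        rw [pd_mul (dB i j) (dX j)]; rfl]
    simp only [Finset.sum_add_distrib]
    rw [add_comm]
    congr 1
    rw [Finset.sum_comm]
    refine Finset.sum_congr rfl fun j _ => ?_
    rw [htr, Finset.sum_mul]
    exact Finset.sum_congr rfl fun i _ => by rw [hBcomm]
  have hdq : dvg (C.qX X) x
      = ∑ i, pd i (trX X) x * C.P i x + ∑ i, ∑ j, bX X i j x * C.A i j x := by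
    simp only [dvg]
    rw [Finset.sum_congr rfl fun i _ => show pd i (C.qX X i) x
      = ∑ j, (bX X i j x * C.A i j x + pd i (bX X i j) x * C.P j x) by
        unfold qX
        rw [pd_sum _ (fun j _ => (dB i j).fun_mul (dP j))]
        refine Finset.sum_congr rfl fun j _ => ?_
        rw [pd_mul (dB i j) (dP j)]; rfl]
    simp only [Finset.sum_add_distrib]
    rw [add_comm]
    congr 1
    rw [Finset.sum_comm]
    refine Finset.sum_congr rfl fun j _ => ?_
    rw [htr, Finset.sum_mul]
    exact Finset.sum_congr rfl fun i _ => by rw [hBcomm]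
  have hdm : dvg (C.mX X) x = ∑ i, ∑ j, bX X i j x * C.A i j x := by
    simp only [dvg]
    rw [Finset.sum_congr rfl fun i _ => show pd i (C.mX X i) x
      = ∑ j, (C.A i j x * bX X j i x + C.T i i j x * X j x) by
        unfold mX
        rw [pd_sum _ (fun j _ => (dA i j).fun_mul (dX j))]
        refine Finset.sum_congr rfl fun j _ => ?_
        rw [pd_mul (dA i j) (dX j)]; rfl]
    simp only [Finset.sum_add_distrib]
    have h0 : ∑ i, ∑ j, C.T i i j x * X j x = 0 := by
      rw [Finset.sum_comm]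
      refine Finset.sum_eq_zero fun j _ => ?_
      rw [← Finset.sum_mul, Finset.sum_congr rfl fun i _ =>
        show C.T i i j x = C.T j i i x by
          rw [C.T_symm_right i i j hN, C.T_symm_left i j i hN], C.trace_T hc hN, zero_mul]
    rw [h0, add_zero, Finset.sum_comm]
    exact Finset.sum_congr rfl fun i _ => Finset.sum_congr rfl fun j _ => by
      rw [C.A_symm j i hN]; ring
  have hpm : ∀ k, pd k (C.aX X) x = ∑ i, C.A k i x * C.mX X i x
      + ∑ i, ∑ j, C.P i x * C.T k i j x * X j x
      + ∑ i, ∑ j, C.P i x * C.A i j x * bX X j k x := fun k => by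
    unfold aX
    rw [pd_sum _ (fun i _ => (dP i).fun_mul (dm i)), ← Finset.sum_add_distrib,
      ← Finset.sum_add_distrib]
    refine Finset.sum_congr rfl fun i _ => ?_
    rw [pd_mul (dP i) (dm i)]
    have : pd k (C.mX X i) x = ∑ j, (C.A i j x * bX X j k x + C.T k i j x * X j x) := by
      unfold mX
      rw [pd_sum _ (fun j _ => (dA i j).fun_mul (dX j))]
      refine Finset.sum_congr rfl fun j _ => ?_
      rw [pd_mul (dA i j) (dX j)]; rfl
    rw [this, Finset.mul_sum]
    show ∑ j, _ + C.A k i x * C.mX X i x = _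
    simp only [mul_add, Finset.sum_add_distrib, mul_assoc]
    ring
  have hpc : ∀ k, pd k (C.cX X) x = 2 * ∑ i, bX X i k x * C.mX X i x
      + ∑ i, ∑ j, X i x * C.T k i j x * X j x := fun k => by
    unfold cX
    rw [pd_sum _ (fun i _ => (dX i).fun_mul (dm i))]
    have h1 : ∀ i, pd k (fun y => X i y * C.mX X i y) x = bX X i k x * C.mX X i x
        + ∑ j, X i x * C.A i j x * bX X j k x + ∑ j, X i x * C.T k i j x * X j x := fun i => by
      rw [pd_mul (dX i) (dm i)]
      have : pd k (C.mX X i) x = ∑ j, (C.A i j x * bX X j k x + C.T k i j x * X j x) := by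
        unfold mX
        rw [pd_sum _ (fun j _ => (dA i j).fun_mul (dX j))]
        refine Finset.sum_congr rfl fun j _ => ?_
        rw [pd_mul (dA i j) (dX j)]; rfl
      rw [this, Finset.mul_sum]
      show ∑ j, _ + bX X i k x * C.mX X i x = _
      simp only [mul_add, Finset.sum_add_distrib, mul_assoc]
      ring
    rw [Finset.sum_congr rfl fun i _ => h1 i]
    simp only [Finset.sum_add_distrib]
    have : ∑ i, ∑ j, X i x * C.A i j x * bX X j k x = ∑ i, bX X i k x * C.mX X i x := by
      rw [Finset.sum_comm]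
      refine Finset.sum_congr rfl fun j _ => ?_
      rw [mX, Finset.mul_sum]
      exact Finset.sum_congr rfl fun i _ => by rw [C.A_symm i j hN]; ring
    rw [this]; ring
  -- the six divergences
  have h1 : dvg (fun i y => (gradSq C.U y + 1) / 2 * (X i y * trX X y - sX X i y)) x
      = ∑ i, (∑ l, C.A i l x * C.P l x) * (X i x * trX X x - sX X i x)
        + (gradSq C.U x + 1) / 2 * (trX X x ^ 2 - ∑ i, ∑ j, bX X i j x * bX X j i x) := by
    rw [dvg_mul (φ := fun y => (gradSq C.U y + 1) / 2) (V := fun i y => X i y * trX X y - sX X i y)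
      (by fun_prop) (fun i => ((dX i).fun_mul dtr).fun_sub (ds i))]
    congr 1
    · refine Finset.sum_congr rfl fun i _ => ?_
      congr 1
      rw [show (fun y => (gradSq C.U y + 1) / 2) = fun y => (fun s => (s + 1) / 2) (gradSq C.U y)
        from rfl, pd_comp (φ := fun s : ℝ => (s + 1) / 2) (by fun_prop) dg, pd_gradSq hN i]
      simp
    · congr 1
      have : dvg (fun i y => X i y * trX X y - sX X i y) x
          = (∑ i, X i x * pd i (trX X) x + dvg X x * trX X x) - dvg (sX X) x := by
        simp only [dvg, Finset.sum_mul, ← Finset.sum_add_distrib, ← Finset.sum_sub_distrib]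
        refine Finset.sum_congr rfl fun i _ => ?_
        rw [pd_sub ((dX i).fun_mul dtr) (ds i), pd_mul (dX i) dtr]
      rw [this, hds, hdX]
      simp only [mul_comm (X _ x)]
      ring
  have h2 : dvg (fun i y => C.psiX X y * C.qX X i y) x
      = ∑ i, (C.rX X i x + C.mX X i x) * C.qX X i x + C.psiX X x * dvg (C.qX X) x := by
    rw [dvg_mul dpsi dq]
    congr 1
    exact Finset.sum_congr rfl fun i _ => by rw [hpsi]
  have h3 : dvg (fun i y => (C.psiX X y * trX X y) * C.P i y) x
      = ∑ i, (C.rX X i x + C.mX X i x) * C.P i x * trX X x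
        + C.psiX X x * ∑ i, pd i (trX X) x * C.P i x := by
    rw [dvg_mul (dpsi.fun_mul dtr) dP, dvg_P hx, mul_zero, add_zero, Finset.mul_sum,
      ← Finset.sum_add_distrib]
    refine Finset.sum_congr rfl fun i _ => ?_
    rw [pd_mul dpsi dtr, hpsi]; ring
  have h4 : dvg (fun i y => C.aX X y * X i y) x
      = ∑ i, pd i (C.aX X) x * X i x + C.aX X x * trX X x := by
    rw [dvg_mul da dX, hdX]
  have h5 : dvg (fun i y => C.psiX X y * C.mX X i y) x
      = ∑ i, (C.rX X i x + C.mX X i x) * C.mX X i x + C.psiX X x * dvg (C.mX X) x := by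
    rw [dvg_mul dpsi dm]
    congr 1
    exact Finset.sum_congr rfl fun i _ => by rw [hpsi]
  have h6 : dvg (fun i y => C.cX X y * C.P i y) x = ∑ i, pd i (C.cX X) x * C.P i x := by
    rw [dvg_mul dc dP, dvg_P hx, mul_zero, add_zero]
  have hz : dvg (C.zX X) x
      = dvg (fun i y => (gradSq C.U y + 1) / 2 * (X i y * trX X y - sX X i y)) x
        + 2 * dvg (fun i y => C.psiX X y * C.qX X i y) x
        - 2 * dvg (fun i y => (C.psiX X y * trX X y) * C.P i y) x
        + dvg (fun i y => C.aX X y * X i y) x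
        - 2 * dvg (fun i y => C.psiX X y * C.mX X i y) x
        - dvg (fun i y => C.cX X y * C.P i y) x := by
    simp only [dvg, Finset.mul_sum, ← Finset.sum_add_distrib, ← Finset.sum_sub_distrib]
    refine Finset.sum_congr rfl fun i _ => ?_
    have e1 : DifferentiableAt ℝ (fun y => (gradSq C.U y + 1) / 2 * (X i y * trX X y - sX X i y)) x :=
      DifferentiableAt.fun_mul (by fun_prop) (((dX i).fun_mul dtr).fun_sub (ds i))
    have e2 : DifferentiableAt ℝ (fun y => C.psiX X y * C.qX X i y) x := dpsi.fun_mul (dq i)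
    have e3 : DifferentiableAt ℝ (fun y => (C.psiX X y * trX X y) * C.P i y) x :=
      (dpsi.fun_mul dtr).fun_mul (dP i)
    have e4 : DifferentiableAt ℝ (fun y => C.aX X y * X i y) x := da.fun_mul (dX i)
    have e5 : DifferentiableAt ℝ (fun y => C.psiX X y * C.mX X i y) x := dpsi.fun_mul (dm i)
    have e6 : DifferentiableAt ℝ (fun y => C.cX X y * C.P i y) x := dc.fun_mul (dP i)
    unfold zX
    rw [pd_sub ((((e1.fun_add (e2.const_mul 2)).fun_sub (e3.const_mul 2)).fun_add e4).fun_sub
        (e5.const_mul 2)) e6,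
      pd_sub (((e1.fun_add (e2.const_mul 2)).fun_sub (e3.const_mul 2)).fun_add e4) (e5.const_mul 2),
      pd_add ((e1.fun_add (e2.const_mul 2)).fun_sub (e3.const_mul 2)) e4,
      pd_sub (e1.fun_add (e2.const_mul 2)) (e3.const_mul 2), pd_add e1 (e2.const_mul 2),
      pd_const_mul 2 e2, pd_const_mul 2 e3, pd_const_mul 2 e5]
  rw [hz, h1, h2, h3, h4, h5, h6, hdq, hdm]
  -- contractions
  have k1 : ∑ i, (∑ l, C.A i l x * C.P l x) * X i x = C.aX X x := by
    simp only [aX, mX, Finset.sum_mul, Finset.mul_sum]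
    rw [Finset.sum_comm]
    exact Finset.sum_congr rfl fun i _ => Finset.sum_congr rfl fun j _ => by
      rw [C.A_symm j i hN]; ring
  have k2 : ∀ l, ∑ i, C.A l i x * C.P i x = ∑ i, C.P i x * C.A i l x := fun l =>
    Finset.sum_congr rfl fun i _ => by rw [C.A_symm l i hN]; ring
  have k3 : ∑ i, C.P i x * C.mX X i x = C.aX X x := rfl
  have k4 : ∑ i, C.rX X i x * C.P i x = ∑ i, C.P i x * C.qX X i x := by
    simp only [rX, qX, Finset.sum_mul, Finset.mul_sum]
    rw [Finset.sum_comm]
    exact Finset.sum_congr rfl fun i _ => Finset.sum_congr rfl fun j _ => by ring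
  have k5 : ∑ i, pd i (C.aX X) x * X i x = ∑ i, C.mX X i x ^ 2
      + ∑ k, (∑ i, ∑ j, C.P i x * C.T k i j x * X j x) * X k x
      + ∑ l, (∑ i, C.P i x * C.A i l x) * sX X l x := by
    simp only [hpm, add_mul, Finset.sum_add_distrib]
    congr 1
    · congr 1
      simp only [Finset.sum_mul]
      rw [Finset.sum_comm]
      refine Finset.sum_congr rfl fun i _ => ?_
      rw [sq]
      conv_rhs => rw [mX, Finset.mul_sum]
      exact Finset.sum_congr rfl fun k _ => by rw [C.A_symm k i hN]; simp only [mX]; ring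
    · simp only [sX, Finset.sum_mul, Finset.mul_sum]
      rw [Finset.sum_comm]
      conv_rhs => rw [Finset.sum_comm]; enter [2, j]; rw [Finset.sum_comm]
      rw [Finset.sum_comm]
      exact Finset.sum_congr rfl fun a _ => Finset.sum_congr rfl fun b _ =>
        Finset.sum_congr rfl fun c _ => by ring
  have k6 : ∑ i, pd i (C.cX X) x * C.P i x = 2 * ∑ i, C.qX X i x * C.mX X i x
      + ∑ k, (∑ i, ∑ j, C.P i x * C.T k i j x * X j x) * X k x := by
    simp only [hpc, add_mul, Finset.sum_add_distrib]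
    congr 1
    · simp only [qX, Finset.sum_mul, Finset.mul_sum]
      rw [Finset.sum_comm]
      exact Finset.sum_congr rfl fun i _ => Finset.sum_congr rfl fun j _ => by ring
    · simp only [Finset.sum_mul]
      rw [Finset.sum_comm]
      refine Finset.sum_congr rfl fun i _ => ?_
      refine Finset.sum_congr rfl fun k _ => Finset.sum_congr rfl fun j _ => ?_
      rw [C.T_symm_left k i j hN]; ring
  rw [k5, k6]
  simp only [gradSq, hpsi, secondVar]
  have k7 : ∑ i, (∑ l, C.A i l x * C.P l x) * (X i x * trX X x - sX X i x)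
      = C.aX X x * trX X x - ∑ l, (∑ i, C.P i x * C.A i l x) * sX X l x := by
    rw [← k1, Finset.sum_mul, ← Finset.sum_sub_distrib]
    exact Finset.sum_congr rfl fun i _ => by rw [← k2 i]; ring
  have k8 : ∑ i, (C.rX X i x + C.mX X i x) * C.P i x * trX X x
      = (∑ i, C.P i x * C.qX X i x + C.aX X x) * trX X x := by
    rw [← k4, ← k3, ← Finset.sum_add_distrib, Finset.sum_mul]
    exact Finset.sum_congr rfl fun i _ => by ring
  rw [k7, k8]
  simp only [add_mul, mul_add, add_sq, Finset.sum_add_distrib]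
  have k9 : ∑ i, C.qX X i x * C.mX X i x = ∑ i, C.mX X i x * C.qX X i x :=
    Finset.sum_congr rfl fun i _ => mul_comm _ _
  have k10 : ∑ i, 2 * C.rX X i x * C.mX X i x = 2 * ∑ i, C.rX X i x * C.mX X i x := by
    rw [Finset.mul_sum]; exact Finset.sum_congr rfl fun i _ => by ring
  have k11 : ∑ i, C.mX X i x * C.rX X i x = ∑ i, C.rX X i x * C.mX X i x :=
    Finset.sum_congr rfl fun i _ => mul_comm _ _
  simp only [sq, k9, k10]
  ring

/-- On the free boundary the potential only carries the curvature term. -/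
theorem zX_flux {ψ : EuclideanSpace ℝ (Fin d) → ℝ} (hN : x ∈ C.N) (hc : x ∈ closure C.Ω)
    (h1 : gradSq C.U x = 1) (hψ : DifferentiableAt ℝ ψ x)
    (hX : ∀ i, X i =ᶠ[𝓝 x] fun y => ψ y * (C.P i y / gradSq C.U y)) :
    ∑ i, C.zX X i x * C.P i x + ψ x ^ 2 * ∑ i, (∑ j, C.A i j x * C.P j x) * C.P i x = 0 := by
  have dP : ∀ i, DifferentiableAt ℝ (C.P i) x := fun i => C.diffAt (C.contDiffOn_P i) hN (by simp)
  have dg : DifferentiableAt ℝ (gradSq C.U) x :=
    DifferentiableAt.fun_sum fun i _ => (dP i).fun_pow 2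
  have h1' : ∑ i, C.P i x * C.P i x = 1 := by
    rw [← h1, C.gradSq_eq]; simp only [sq]
  set ap : Fin d → ℝ := fun i => ∑ j, C.A i j x * C.P j x with hap
  set κ : ℝ := ∑ i, ap i * C.P i x with hκ
  have hXx : ∀ i, X i x = ψ x * C.P i x := fun i => by
    rw [(hX i).self_of_nhds]; simp [h1]
  have hB : ∀ i j, bX X i j x
      = pd j ψ x * C.P i x + ψ x * (C.A j i x - 2 * C.P i x * ap j) := fun i j => by
    rw [bX, pd_congr (hX i), pd_mul hψ (by fun_prop (disch := exact C.grad_ne x hN)),
      pd_div (dP i) dg (C.grad_ne x hN), pd_gradSq hN j, h1]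
    show ψ x * ((C.A j i x * 1 - C.P i x * (2 * ap j)) / 1 ^ 2) + _ * (C.P i x / 1) = _
    ring
  have hpsi : C.psiX X x = ψ x := by
    simp only [psiX, hXx]
    rw [Finset.sum_congr rfl fun i _ => show C.P i x * (ψ x * C.P i x)
      = ψ x * (C.P i x * C.P i x) by ring, ← Finset.mul_sum, h1', mul_one]
  have hsum : ∑ i, pd i ψ x * C.P i x = ∑ i, pd i ψ x * C.P i x := rfl
  have htr : trX X x = ∑ i, pd i ψ x * C.P i x - 2 * ψ x * κ := by
    simp only [trX, hB, mul_sub, Finset.sum_add_distrib, Finset.sum_sub_distrib]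
    rw [← Finset.mul_sum, C.trace_A hc hN, hκ, Finset.mul_sum]
    rw [mul_zero, zero_sub, ← sub_eq_add_neg]
    congr 1
    exact Finset.sum_congr rfl fun i _ => by ring
  have hm : ∀ i, C.mX X i x = ψ x * ap i := fun i => by
    simp only [mX, hXx, hap, Finset.mul_sum]
    exact Finset.sum_congr rfl fun j _ => by ring
  have ha : C.aX X x = ψ x * κ := by
    simp only [aX, hm, hκ, Finset.mul_sum]
    exact Finset.sum_congr rfl fun j _ => by ring
  have hc2 : C.cX X x = ψ x ^ 2 * κ := by
    simp only [cX, hm, hXx, hκ, Finset.mul_sum]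
    exact Finset.sum_congr rfl fun j _ => by ring
  have hq : ∑ i, C.qX X i x * C.P i x = ∑ i, pd i ψ x * C.P i x - ψ x * κ := by
    have : ∀ i, C.qX X i x * C.P i x = (C.P i x * C.P i x) * ∑ j, pd j ψ x * C.P j x
        + ψ x * ((∑ j, C.A j i x * C.P j x) * C.P i x)
        - 2 * ψ x * ((C.P i x * C.P i x) * κ) := fun i => by
      simp only [qX, hB, hκ, Finset.sum_mul, Finset.mul_sum, ← Finset.sum_add_distrib,
        ← Finset.sum_sub_distrib]
      exact Finset.sum_congr rfl fun j _ => by ring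
    rw [Finset.sum_congr rfl fun i _ => this i, Finset.sum_sub_distrib, Finset.sum_add_distrib,
      ← Finset.sum_mul, h1', one_mul, ← Finset.mul_sum, ← Finset.mul_sum, ← Finset.sum_mul, h1',
      one_mul]
    have : ∑ i, (∑ j, C.A j i x * C.P j x) * C.P i x = κ :=
      Finset.sum_congr rfl fun i _ => congrArg (· * C.P i x)
        (Finset.sum_congr rfl fun j _ => by rw [C.A_symm j i hN])
    rw [this]; ring
  have hs : ∑ i, sX X i x * C.P i x = ψ x * ∑ i, C.qX X i x * C.P i x := by
    simp only [sX, qX, hXx, Finset.sum_mul, Finset.mul_sum]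
    exact Finset.sum_congr rfl fun i _ => Finset.sum_congr rfl fun j _ => by ring
  have hfin : ∑ i, C.zX X i x * C.P i x
      = (ψ x * trX X x - ∑ i, sX X i x * C.P i x) + 2 * ψ x * ∑ i, C.qX X i x * C.P i x
        - 2 * ψ x * trX X x + ψ x * C.aX X x - 2 * ψ x ^ 2 * κ - C.cX X x := by
    have : ∀ i, C.zX X i x * C.P i x = ψ x * trX X x * (C.P i x * C.P i x) - sX X i x * C.P i x
        + 2 * ψ x * (C.qX X i x * C.P i x) - 2 * ψ x * trX X x * (C.P i x * C.P i x)
        + ψ x * C.aX X x * (C.P i x * C.P i x) - 2 * ψ x ^ 2 * (ap i * C.P i x)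
        - C.cX X x * (C.P i x * C.P i x) := fun i => by
      simp only [zX, h1, hpsi, hXx, hm]; ring
    simp only [this, Finset.sum_sub_distrib, Finset.sum_add_distrib, ← Finset.mul_sum, h1', mul_one,
      hκ]
  rw [hfin, hs, hq, htr, ha, hc2]
  ring

end Cone

end Vale.Agent.P098
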