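import Vale.Agent.P098.Half

/-! The gradient of a cone has length at most one. -/

noncomputable section

namespace Vale.Agent.P098

open MeasureTheory Set Filter Topology
open scoped ContDiff

variable {d : ℕ}

theorem pd_normSq (i : Fin d) (x : EuclideanSpace ℝ (Fin d)) :
    pd i (fun y : EuclideanSpace ℝ (Fin d) => ∑ j, y j * y j) x = 2 * x i := by
  have hc : ∀ j, DifferentiableAt ℝ (fun y : EuclideanSpace ℝ (Fin d) => y j) x := fun j =>
    (Cone.contDiff_coord (n := 1) j).differentiable one_ne_zero x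
  rw [pd_sum _ fun j _ => (hc j).fun_mul (hc j),
    Finset.sum_congr rfl fun j _ => pd_mul (hc j) (hc j)]
  simp only [pd_apply, mul_ite, ite_mul, mul_one, one_mul, mul_zero, zero_mul,
    Finset.sum_add_distrib, Finset.sum_ite_eq', Finset.mem_univ, if_true]
  ring

theorem contDiff_normSq {n : ℕ∞ω} :
    ContDiff ℝ n fun y : EuclideanSpace ℝ (Fin d) => ∑ j, y j * y j :=
  ContDiff.sum fun j _ => (Cone.contDiff_coord j).mul (Cone.contDiff_coord j)

namespace Cone

variable (C : Cone d)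

/-- Excess of the squared gradient. -/
def exc (y : EuclideanSpace ℝ (Fin d)) : ℝ := gradSq C.U y - 1

theorem contDiffOn_exc : ContDiffOn ℝ 7 C.exc C.N :=
  (ContDiffOn.sum fun i _ => (C.contDiffOn_P i).pow 2).sub contDiffOn_const

theorem pd_exc (j : Fin d) {x : EuclideanSpace ℝ (Fin d)} (hx : x ∈ C.N) :
    pd j C.exc x = 2 * ∑ i, C.P i x * C.A j i x := by
  have hP : ∀ i, DifferentiableAt ℝ (C.P i) x := fun i => C.diffAt (C.contDiffOn_P i) hx (by simp)
  have h : C.exc = fun y => (∑ i, C.P i y * C.P i y) - 1 := by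
    funext y; simp [exc, C.gradSq_eq, sq]
  rw [h, pd_sub (DifferentiableAt.fun_sum fun i _ => (hP i).fun_mul (hP i)) (differentiableAt_const _),
    pd_const, pd_sum _ fun i _ => (hP i).fun_mul (hP i),
    Finset.sum_congr rfl fun i _ => pd_mul (hP i) (hP i), sub_zero, Finset.mul_sum]
  refine Finset.sum_congr rfl fun i _ => ?_
  simp only [Cone.A]
  ring

theorem lap_exc {x : EuclideanSpace ℝ (Fin d)} (hx : x ∈ C.Ω) :
    ∑ j, pd j (pd j C.exc) x = 2 * ∑ j, ∑ i, C.A j i x ^ 2 := by
  have hN := C.Ω_sub hx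
  have hP : ∀ i, DifferentiableAt ℝ (C.P i) x := fun i => C.diffAt (C.contDiffOn_P i) hN (by simp)
  have hA : ∀ j i, DifferentiableAt ℝ (C.A j i) x := fun j i => C.diffAt (C.contDiffOn_A j i) hN (by simp)
  have h : ∀ j, pd j (pd j C.exc) x =
      2 * ∑ i, (C.P i x * C.T j j i x + C.A j i x ^ 2) := by
    intro j
    have hev : pd j C.exc =ᶠ[𝓝 x] fun y => 2 * ∑ i, C.P i y * C.A j i y :=
      eventually_of_mem (C.isOpen_N.mem_nhds hN) fun y hy => C.pd_exc j hy
    rw [pd_congr hev, pd_const_mul 2 (DifferentiableAt.fun_sum fun i _ => (hP i).fun_mul (hA j i)),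
      pd_sum _ fun i _ => (hP i).fun_mul (hA j i),
      Finset.sum_congr rfl fun i _ => pd_mul (hP i) (hA j i)]
    congr 1
    refine Finset.sum_congr rfl fun i _ => ?_
    simp only [Cone.T, Cone.A]
    ring
  rw [Finset.sum_congr rfl fun j _ => h j, ← Finset.mul_sum]
  congr 1
  simp only [Finset.sum_add_distrib]
  rw [Finset.sum_comm, add_eq_right]
  refine Finset.sum_eq_zero fun i _ => ?_
  rw [← Finset.mul_sum]
  have : ∑ j, C.T j j i x = ∑ j, C.T i j j x :=
    Finset.sum_congr rfl fun j _ => by rw [C.T_symm_right j j i hN, C.T_symm_left j i j hN]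
  rw [this, C.trace_T (subset_closure hx) hN i, mul_zero]

theorem dot_exc {x : EuclideanSpace ℝ (Fin d)} (hx : x ∈ C.Ω) :
    ∑ j, x j * pd j C.exc x = 0 := by
  have hN := C.Ω_sub hx
  have : ∀ j, x j * pd j C.exc x = ∑ i, 2 * C.P i x * (x j * C.A j i x) := fun j => by
    rw [C.pd_exc j hN, Finset.mul_sum, Finset.mul_sum]
    exact Finset.sum_congr rfl fun i _ => by ring
  rw [Finset.sum_congr rfl fun j _ => this j, Finset.sum_comm]
  refine Finset.sum_eq_zero fun i _ => ?_
  rw [← Finset.mul_sum, C.euler1 hx i, mul_zero]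

/-- The Hessian vanishes wherever the gradient exceeds one. -/
theorem A_zero_of_exc_pos {x0 : EuclideanSpace ℝ (Fin d)} (hx0 : x0 ∈ C.Ω) (h0 : 0 < C.exc x0) :
    ∀ i j, C.A i j x0 = 0 := by
  classical
  obtain ⟨q, hq⟩ : ∃ q : ℝ, q = ∑ j, x0 j * x0 j := ⟨_, rfl⟩
  have hnorm : ∀ y : EuclideanSpace ℝ (Fin d), ∑ j, y j * y j = ‖y‖ ^ 2 := fun y => by
    rw [EuclideanSpace.norm_sq_eq]
    simp [sq]
  have hq0 : 0 < q := by
    rw [hq, hnorm]
    have := C.ne_zero_of_mem hx0
    positivity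
  obtain ⟨c, hc, hcx⟩ : ∃ c : ℝ, 0 < c ∧ c < C.exc x0 :=
    ⟨C.exc x0 / 2, by linarith, by linarith⟩
  let ψ : ℝ → ℝ := fun s => Real.smoothTransition (s - q / 2) * Real.smoothTransition (2 * q - s)
  let φ : ℝ → ℝ := fun s => Real.smoothTransition (s - c)
  have hψ : ContDiff ℝ ∞ ψ :=
    (Real.smoothTransition.contDiff.comp (by fun_prop)).mul
      (Real.smoothTransition.contDiff.comp (by fun_prop))
  have hφ : ContDiff ℝ ∞ φ := Real.smoothTransition.contDiff.comp (by fun_prop)
  have hψ0 : ∀ s, 0 ≤ ψ s := fun s =>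
    mul_nonneg (Real.smoothTransition.nonneg _) (Real.smoothTransition.nonneg _)
  have hψs : ∀ s, ψ s ≠ 0 → q / 2 ≤ s ∧ s ≤ 2 * q := by
    intro s hs
    constructor
    · by_contra h
      exact hs (by simp [ψ, Real.smoothTransition.zero_of_nonpos (by linarith : s - q / 2 ≤ 0)])
    · by_contra h
      exact hs (by simp [ψ, Real.smoothTransition.zero_of_nonpos (by linarith : 2 * q - s ≤ 0)])
  have hφs : ∀ s, φ s ≠ 0 → c ≤ s := by
    intro s hs
    by_contra h
    exact hs (Real.smoothTransition.zero_of_nonpos (by linarith))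
  let w : EuclideanSpace ℝ (Fin d) → ℝ := fun y => ψ (∑ j, y j * y j) * φ (C.exc y)
  let Y : Fin d → EuclideanSpace ℝ (Fin d) → ℝ :=
    fun i => C.Ω.indicator fun y => w y * pd i C.exc y
  let K : Set (EuclideanSpace ℝ (Fin d)) :=
    closure C.Ω ∩ {y | q / 2 ≤ ∑ j, y j * y j ∧ ∑ j, y j * y j ≤ 2 * q}
  have hKN : K ⊆ C.N := fun y hy =>
    C.closure_sub y hy.1 (by rintro rfl; have := hy.2.1; simp at this; linarith)
  have hKc : IsCompact K := by
    refine (isCompact_closedBall (0 : EuclideanSpace ℝ (Fin d)) (Real.sqrt (2 * q))).of_isClosed_subset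
      (isClosed_closure.inter ((isClosed_le continuous_const (contDiff_normSq (n := 0)).continuous).inter
        (isClosed_le (contDiff_normSq (n := 0)).continuous continuous_const))) ?_
    intro y hy
    rw [mem_closedBall_zero_iff, ← Real.sqrt_sq (norm_nonneg y)]
    exact Real.sqrt_le_sqrt ((hnorm y).symm.le.trans hy.2.2)
  let S : Set (EuclideanSpace ℝ (Fin d)) := K ∩ C.exc ⁻¹' Ici c
  have hSc : IsCompact S :=
    hKc.of_isClosed_subset (((C.contDiffOn_exc.continuousOn.mono hKN)).preimage_isClosed_of_isClosed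
      hKc.isClosed isClosed_Ici) inter_subset_left
  have hSΩ : S ⊆ C.Ω := by
    rintro y ⟨hyK, hy⟩
    by_contra h
    have h1 := C.sum_P_sq_frontier (C.mem_frontier hyK.1 h) (hKN hyK)
    simp only [mem_preimage, mem_Ici, exc, C.gradSq_eq, h1, sub_self] at hy
    linarith
  have hYs : ∀ i, tsupport (Y i) ⊆ S := fun i => closure_minimal (fun y hy => by
    simp only [Y, Function.mem_support, ne_eq, indicator_apply_eq_zero, Classical.not_imp] at hy
    obtain ⟨hyΩ, hy⟩ := hy
    have h1 := left_ne_zero_of_mul hy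
    exact ⟨⟨subset_closure hyΩ, hψs _ (left_ne_zero_of_mul h1)⟩,
      hφs _ (right_ne_zero_of_mul h1)⟩) hSc.isClosed
  have hwd : ContDiffOn ℝ 6 w C.N :=
    ((hψ.comp contDiff_normSq).of_le (WithTop.coe_le_coe.2 le_top)).contDiffOn.mul
      ((hφ.of_le (WithTop.coe_le_coe.2 le_top)).comp_contDiffOn (C.contDiffOn_exc.of_le (by norm_num)))
  have hGd : ∀ i, ContDiffOn ℝ 6 (fun y => w y * pd i C.exc y) C.N := fun i =>
    hwd.mul (contDiffOn_pd C.isOpen_N C.contDiffOn_exc (by norm_num))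
  have hY1 : ∀ i, ContDiff ℝ 1 (Y i) := fun i =>
    contDiff_of_tsupport C.isOpen_Ω
      ((((hGd i).mono C.Ω_sub).congr fun y hy => indicator_of_mem hy _).of_le
        (by norm_num)) ((hYs i).trans hSΩ)
  have hYc : ∀ i, HasCompactSupport (Y i) := fun i =>
    hSc.of_isClosed_subset isClosed_closure (hYs i)
  have hdiv : ∀ y ∈ C.Ω, 2 * w y * (∑ j, ∑ i, C.A j i y ^ 2) ≤ dvg Y y := by
    intro y hy
    have hN := C.Ω_sub hy
    have hev : ∀ i, Y i =ᶠ[𝓝 y] fun z => w z * pd i C.exc z := fun i =>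
      eventually_of_mem (C.isOpen_Ω.mem_nhds hy) fun z hz => indicator_of_mem hz _
    have hr : DifferentiableAt ℝ (fun z : EuclideanSpace ℝ (Fin d) => ∑ j, z j * z j) y :=
      contDiff_normSq.differentiable (n := 1) one_ne_zero y
    have he : DifferentiableAt ℝ C.exc y := C.diffAt C.contDiffOn_exc hN (by simp)
    have hψd : DifferentiableAt ℝ (fun z : EuclideanSpace ℝ (Fin d) => ψ (∑ j, z j * z j)) y :=
      DifferentiableAt.comp y (hψ.differentiable (by simp) _) hr
    have hφd : DifferentiableAt ℝ (fun z => φ (C.exc z)) y :=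
      DifferentiableAt.comp y (hφ.differentiable (by simp) _) he
    have hw : ∀ i, pd i w y = deriv ψ (∑ j, y j * y j) * (2 * y i) * φ (C.exc y) +
        ψ (∑ j, y j * y j) * (deriv φ (C.exc y) * pd i C.exc y) := fun i => by
      simp only [w]
      rw [pd_mul hψd hφd, pd_comp (hψ.differentiable (by simp) _) hr,
        pd_comp (hφ.differentiable (by simp) _) he, pd_normSq]
      ring
    have h1 : dvg Y y = deriv ψ (∑ j, y j * y j) * (2 * φ (C.exc y)) *
        (∑ i, y i * pd i C.exc y) + ψ (∑ j, y j * y j) * deriv φ (C.exc y) *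
          (∑ i, pd i C.exc y ^ 2) + w y * ∑ i, pd i (pd i C.exc) y := by
      simp only [dvg, Finset.mul_sum, ← Finset.sum_add_distrib]
      refine Finset.sum_congr rfl fun i _ => ?_
      rw [pd_congr (hev i), pd_mul (C.diffAt hwd hN (by simp))
        (C.diffAt (contDiffOn_pd (m := 6) C.isOpen_N C.contDiffOn_exc (by norm_num)) hN (by simp)), hw i]
      ring
    rw [h1, C.dot_exc hy, C.lap_exc hy, mul_zero, zero_add]
    have hmono : Monotone φ := fun a b h =>
      Real.smoothTransition.monotone (by linarith)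
    have : 0 ≤ ψ (∑ j, y j * y j) * deriv φ (C.exc y) * ∑ i, pd i C.exc y ^ 2 :=
      mul_nonneg (mul_nonneg (hψ0 _) hmono.deriv_nonneg) (Finset.sum_nonneg fun i _ => sq_nonneg _)
    linarith
  have hw0 : ∀ y, 0 ≤ w y := fun y => mul_nonneg (hψ0 _) (Real.smoothTransition.nonneg _)
  have hout : ∀ y, y ∉ C.Ω → dvg Y y = 0 := by
    intro y hy
    refine Finset.sum_eq_zero fun i _ => ?_
    rw [pd_congr (notMem_tsupport_iff_eventuallyEq.1 fun h => hy (hSΩ (hYs i h)))]
    exact pd_const 0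
  have hnn : ∀ y, 0 ≤ dvg Y y := by
    intro y
    by_cases hy : y ∈ C.Ω
    · exact le_trans (mul_nonneg (mul_nonneg zero_le_two (hw0 y)) (Finset.sum_nonneg fun j _ =>
        Finset.sum_nonneg fun i _ => sq_nonneg _)) (hdiv y hy)
    · exact (hout y hy).ge
  have hcont : Continuous (dvg Y) :=
    continuous_finsetSum _ fun i _ => (contDiff_pd (m := 0) (hY1 i) le_rfl).continuous
  have hint : Integrable (dvg Y) :=
    integrable_finsetSum _ fun i _ => (contDiff_pd (m := 0) (hY1 i) le_rfl).continuous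
      |>.integrable_of_hasCompactSupport (hasCompactSupport_pd (hYc i))
  have hzero : dvg Y = 0 :=
    (Continuous.ae_eq_iff_eq volume hcont continuous_const).1
      ((integral_eq_zero_iff_of_nonneg hnn hint).1 (integral_dvg_eq_zero hY1 hYc))
  have hwpos : 0 < w x0 := by
    simp only [w, ψ, φ, ← hq]
    exact mul_pos (mul_pos (Real.smoothTransition.pos_of_pos (by linarith))
      (Real.smoothTransition.pos_of_pos (by linarith)))
      (Real.smoothTransition.pos_of_pos (by linarith))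
  have h := hdiv x0 hx0
  rw [hzero] at h
  have hs : ∑ j, ∑ i, C.A j i x0 ^ 2 = 0 :=
    le_antisymm (nonpos_of_mul_nonpos_right h (by linarith)) (Finset.sum_nonneg fun j _ =>
      Finset.sum_nonneg fun i _ => sq_nonneg _)
  intro i j
  have h1 := (Finset.sum_eq_zero_iff_of_nonneg fun a _ => Finset.sum_nonneg fun b _ =>
    sq_nonneg (C.A a b x0)).1 hs i (Finset.mem_univ i)
  exact pow_eq_zero_iff two_ne_zero |>.1
    ((Finset.sum_eq_zero_iff_of_nonneg fun b _ => sq_nonneg _).1 h1 j (Finset.mem_univ j))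

/-- **The gradient bound.** -/
theorem gradSq_le_one (hd : 2 ≤ d) {x : EuclideanSpace ℝ (Fin d)} (hx : x ∈ closure C.Ω)
    (hN : x ∈ C.N) : gradSq C.U x ≤ 1 := by
  by_cases hxΩ : x ∈ C.Ω
  swap
  · exact le_of_eq (C.grad_one x (C.mem_frontier hx hxΩ) fun h => C.zero_notMem (h ▸ hN))
  by_contra hlt
  have h0 : 0 < C.exc x := by simp only [exc]; linarith [not_le.1 hlt]
  have hA : ∀ y ∈ C.Ω, (∀ i, C.P i y = C.P i x) → ∀ᶠ z in 𝓝 y, ∀ i j, C.A i j z = 0 := by
    intro y hy hP
    have hy0 : 0 < C.exc y := by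
      have : gradSq C.U y = gradSq C.U x := by
        simp only [C.gradSq_eq]
        exact Finset.sum_congr rfl fun i _ => by rw [hP i]
      simp only [exc] at h0 ⊢
      linarith
    filter_upwards [C.isOpen_Ω.mem_nhds hy,
      (C.contDiffOn_exc.continuousOn.continuousAt (C.isOpen_N.mem_nhds (C.Ω_sub hy))).eventually
        (lt_mem_nhds hy0)] with z hz hz0
    exact C.A_zero_of_exc_pos hz hz0
  obtain ⟨z, hz0, hz⟩ := exists_orth hd fun i => C.P i x
  obtain ⟨hzN, hzf, hzP⟩ := C.plane_frontier hxΩ hA hz hz0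
  have := C.sum_P_sq_frontier hzf hzN
  simp only [hzP, ← C.gradSq_eq] at this
  linarith

end Cone

end Vale.Agent.P098
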