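import Vale.Agent.P098.Jet
import Vale.Agent.P098.MaxGrad
import Vale.Agent.P098.Front

/-! The certificate evaluated along the jet map of a cone. -/

noncomputable section

namespace Vale.Agent.P098

open MeasureTheory Set Filter Topology
open scoped ContDiff

variable {d : ℕ}

namespace Cone

variable (Γ : Cert d) (C : Cone d) {x : EuclideanSpace ℝ (Fin d)}

/-- The test density along the cone. -/
def G (x : EuclideanSpace ℝ (Fin d)) : ℝ := Γ.K (C.jet x)

/-- The flux field along the cone. -/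
def X0 (k : Fin d) (x : EuclideanSpace ℝ (Fin d)) : ℝ := Γ.om (C.jet x) (C.jet' k x)

theorem sum_unit_sq (hN : x ∈ C.N) : ∑ i, (x i / ‖x‖) ^ 2 = 1 := by
  simp only [div_pow, ← Finset.sum_div]
  rw [← EuclideanSpace.real_norm_sq_eq, div_self (pow_ne_zero 2 (norm_ne_zero_iff.2 (C.ne_zero_N hN)))]

theorem sum_unit_A (hx : x ∈ closure C.Ω) (hN : x ∈ C.N) (j : Fin d) :
    ∑ i, x i / ‖x‖ * (‖x‖ * C.A i j x) = 0 := by
  rw [← C.euler1' hx hN j]
  exact Finset.sum_congr rfl fun i _ => by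
    rw [← mul_assoc, div_mul_cancel₀ _ (norm_ne_zero_iff.2 (C.ne_zero_N hN))]

theorem sum_unit_P (hx : x ∈ closure C.Ω) (hN : x ∈ C.N) :
    ∑ i, x i / ‖x‖ * C.P i x = C.U x / ‖x‖ := by
  rw [← C.euler0' hx hN, Finset.sum_div]
  exact Finset.sum_congr rfl fun i _ => by ring

theorem w_nonneg (hx : x ∈ closure C.Ω) (hN : x ∈ C.N) : 0 ≤ C.U x / ‖x‖ :=
  div_nonneg ((C.U_eq hx hN).symm ▸ C.nonneg x) (norm_nonneg _)

/-- **Positivity** of the density. -/
theorem G_pos (hd : 2 ≤ d) (hx : x ∈ closure C.Ω) (hN : x ∈ C.N) (hA : (C.jet x).1 ≠ 0) :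
    0 < C.G Γ x := by
  refine Γ.pos (fun i => x i / ‖x‖) _ _ _ (C.sum_unit_sq hN) hA (fun i j => ?_) ?_
    (C.sum_unit_A hx hN) ?_ (C.sum_unit_P hx hN).symm (C.w_nonneg hx hN)
  · simp only [C.A_symm i j hN]
  · rw [← Finset.mul_sum, C.trace_A hx hN, mul_zero]
  · exact (C.gradSq_eq ▸ C.gradSq_le_one hd hx hN :)

/-- The free boundary has nonnegative mean curvature. -/
theorem Hf_nonneg (hd : 2 ≤ d) (hx : x ∈ frontier C.Ω) (hN : x ∈ C.N) : 0 ≤ C.Hf x := by
  have hone := C.sum_P_sq_frontier hx hN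
  have hUx : C.U x = 0 := C.U_frontier hx hN
  have hg : HasDerivAt (fun t : ℝ => C.U (x + t • C.Pv x)) 1 0 := by
    have h := line_deriv (f := C.U) (x := x) (v := C.Pv x) (t := 0)
      (by simpa using C.diffAt C.smooth hN (by simp))
    rw [C.fderiv_U_Pv] at h
    simpa [sq, hone, zero_smul] using h.congr_deriv (by simp only [zero_smul, add_zero, ← sq]; exact hone)
  have hed : DifferentiableAt ℝ C.exc x := C.diffAt C.contDiffOn_exc hN (by simp)
  have hf : HasDerivAt (fun t : ℝ => C.exc (x + t • C.Pv x)) (-(2 * C.Hf x)) 0 := by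
    refine (line_deriv (f := C.exc) (x := x) (v := C.Pv x) (t := 0) (by simpa using hed)).congr_deriv ?_
    simp only [zero_smul, add_zero]
    rw [fderiv_eq_sum_pd]
    simp only [Pv_apply, C.pd_exc _ hN, Hf, mul_neg, neg_neg, Finset.mul_sum]
    exact Finset.sum_congr rfl fun i _ => Finset.sum_congr rfl fun j _ => by ring
  have hex : C.exc x = 0 := by
    simp only [exc, C.gradSq_eq, hone, sub_self]
  have hlim := hf.tendsto_slope_zero_right
  have hpos := hg.tendsto_slope_zero_right.eventually (lt_mem_nhds (show (0 : ℝ) < 1 by norm_num))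
  have hc : Tendsto (fun t : ℝ => x + t • C.Pv x) (𝓝[>] 0) (𝓝 x) := by
    have : ContinuousAt (fun t : ℝ => x + t • C.Pv x) 0 := by fun_prop
    simpa using this.tendsto.mono_left nhdsWithin_le_nhds
  have hev : ∀ᶠ t : ℝ in 𝓝[>] 0, t⁻¹ • (C.exc (x + (0 + t) • C.Pv x) - C.exc (x + (0 : ℝ) • C.Pv x)) ≤ 0 := by
    filter_upwards [hpos, self_mem_nhdsWithin, hc.eventually (C.local_structure hx hN)]
      with t ht (ht0 : 0 < t) hloc
    simp only [zero_add, zero_smul, add_zero, hUx, sub_zero, smul_eq_mul] at ht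
    have hU : 0 < C.U (x + t • C.Pv x) := pos_of_mul_pos_right ht (inv_nonneg.2 ht0.le)
    have hin := hloc.2.1 hU
    have h1 := C.gradSq_le_one hd (subset_closure hin) hloc.1
    simp only [zero_add, zero_smul, add_zero, hex, sub_zero, smul_eq_mul]
    refine mul_nonpos_of_nonneg_of_nonpos (inv_nonneg.2 ht0.le) ?_
    simp only [exc]
    linarith
  have := le_of_tendsto hlim hev
  linarith

/-- **The boundary inequality.** -/
theorem X0_boundary (hd : 2 ≤ d) (hx : x ∈ frontier C.Ω) (hN : x ∈ C.N) (hA : (C.jet x).1 ≠ 0) :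
    0 ≤ ∑ k, C.X0 Γ k x * C.P k x + C.Hf x * C.G Γ x := by
  have hc := frontier_subset_closure hx
  have hne := C.ne_zero_N hN
  have hr : 0 < ‖x‖ := norm_pos_iff.2 hne
  have hU := C.U_frontier hx hN
  obtain ⟨z, hz1, hz2, hz3⟩ := C.front_T hx hN
  obtain ⟨r, hrdef⟩ : ∃ r, r = ‖x‖ := ⟨_, rfl⟩
  have hxP : ∑ i, x i * C.P i x = 0 := by rw [C.euler0' hc hN, hU]
  have hb := Γ.boundary (fun i => x i / ‖x‖) (fun i j => ‖x‖ * C.A i j x) (fun i => C.P i x)
    (fun i => ‖x‖ ^ 2 * z i) (‖x‖ * C.Hf x) (C.sum_unit_sq hN) hA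
    (fun i j => by rw [C.A_symm i j hN]) (by rw [← Finset.mul_sum, C.trace_A hc hN, mul_zero])
    (C.sum_unit_A hc hN) (C.sum_P_sq_frontier hx hN)
    (by rw [C.sum_unit_P hc hN, hU, zero_div])
    (fun i => by
      rw [Finset.sum_congr rfl fun j _ => mul_assoc ‖x‖ (C.A i j x) (C.P j x), ← Finset.mul_sum,
        C.front_A hx hN i]
      ring)
    (by simp only [mul_assoc, ← Finset.mul_sum, hz1, mul_zero])
    (by
      rw [← hz2, Finset.mul_sum]
      refine Finset.sum_congr rfl fun i _ => ?_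
      field_simp)
    (mul_nonneg hr.le (C.Hf_nonneg hd hx hN))
  have hjet : C.jet x = ((fun i j => ‖x‖ * C.A i j x), (fun i => C.P i x), 0) := by
    simp [jet, hU]
  rw [← hjet] at hb
  have hsum : ∑ k, C.X0 Γ k x * C.P k x =
      Γ.om (C.jet x) (∑ k, C.P k x • C.jet' k x) := by
    simp only [X0, map_sum, map_smul, smul_eq_mul, mul_comm]
  let q : Jet d := (fun j k => -(∑ l, ‖x‖ * C.A j l x * (‖x‖ * C.A l k x))
      - ‖x‖ * C.Hf x * (‖x‖ * C.A j k x)
      + (∑ a, ∑ b, (‖x‖ * C.A a b x) ^ 2) * C.P j x * C.P k x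
      + C.P j x * (‖x‖ ^ 2 * z k) + ‖x‖ ^ 2 * z j * C.P k x,
    fun k => -(‖x‖ * C.Hf x) * C.P k x, 1)
  have hq : ∑ k, C.P k x • C.jet' k x = ‖x‖⁻¹ • q := by
    refine Prod.ext ?_ (Prod.ext ?_ ?_)
    · funext i j
      simp only [Prod.fst_sum, Prod.smul_fst, Finset.sum_apply, Pi.smul_apply, smul_eq_mul, jet', q,
        mul_add, Finset.sum_add_distrib]
      rw [show ∑ k, C.P k x * (x k / ‖x‖ * C.A i j x) = 0 by
          rw [Finset.sum_congr rfl fun k _ => show C.P k x * (x k / ‖x‖ * C.A i j x) =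
            x k * C.P k x * (C.A i j x / ‖x‖) by ring, ← Finset.sum_mul, hxP, zero_mul],
        show ∑ k, C.P k x * (‖x‖ * C.T k i j x) = ‖x‖ * ∑ k, C.P k x * C.T k i j x by
          rw [Finset.mul_sum]; exact Finset.sum_congr rfl fun k _ => by ring,
        hz3, zero_add,
        show ∑ l, ‖x‖ * C.A i l x * (‖x‖ * C.A l j x) = ‖x‖ ^ 2 * ∑ l, C.A i l x * C.A l j x by
          rw [Finset.mul_sum]; exact Finset.sum_congr rfl fun k _ => by ring,
        show ∑ a, ∑ b, (‖x‖ * C.A a b x) ^ 2 = ‖x‖ ^ 2 * ∑ a, ∑ b, C.A a b x ^ 2 by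
          simp only [Finset.mul_sum, mul_pow]]
      field_simp
    · funext j
      simp only [Prod.snd_sum, Prod.smul_snd, Prod.fst_sum, Prod.smul_fst, Finset.sum_apply,
        Pi.smul_apply, smul_eq_mul, jet', q]
      rw [Finset.sum_congr rfl fun k _ => show C.P k x * C.A k j x = C.A j k x * C.P k x by
        rw [C.A_symm j k hN]; ring, C.front_A hx hN j]
      field_simp
    · simp only [Prod.snd_sum, Prod.smul_snd, smul_eq_mul, jet', q, hU, zero_mul, zero_div,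
        sub_zero, mul_one]
      rw [Finset.sum_congr rfl fun k _ => show C.P k x * (C.P k x / ‖x‖) = C.P k x ^ 2 / ‖x‖ by
        ring, ← Finset.sum_div, C.sum_P_sq_frontier hx hN, one_div]
  rw [hsum, hq, map_smul, smul_eq_mul]
  have hb' : 0 ≤ Γ.om (C.jet x) q + ‖x‖ * C.Hf x * C.G Γ x := hb
  calc (0 : ℝ) ≤ ‖x‖⁻¹ * (Γ.om (C.jet x) q + ‖x‖ * C.Hf x * C.G Γ x) :=
        mul_nonneg (inv_nonneg.2 hr.le) hb'
    _ = _ := by field_simp

theorem sum_pd_T (hx : x ∈ C.Ω) (i j : Fin d) : ∑ k, pd k (C.T k i j) x = 0 := by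
  have hN := C.Ω_sub hx
  have h1 : ∀ k, pd k (C.T k i j) x = pd i (C.T k k j) x := fun k => by
    rw [pd_congr (g := C.T i k j) (eventually_of_mem (C.isOpen_N.mem_nhds hN) fun y hy =>
      C.T_symm_left k i j hy)]
    exact pd_comm C.isOpen_N (C.contDiffOn_A k j) hN (by norm_num)
  rw [Finset.sum_congr rfl fun k _ => h1 k,
    ← pd_sum _ (fun k _ => C.diffAt (C.contDiffOn_T k k j) hN (by simp)),
    pd_congr (g := fun _ => 0) (eventually_of_mem (C.isOpen_Ω.mem_nhds hx) fun y hy => ?_)]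
  · exact pd_const 0
  · show ∑ k, C.T k k j y = 0
    rw [← C.trace_T (subset_closure hy) (C.Ω_sub hy) j]
    exact Finset.sum_congr rfl fun k _ => by
      rw [C.T_symm_right k k j (C.Ω_sub hy), C.T_symm_left k j k (C.Ω_sub hy)]

theorem contDiffAt_jet' (hN : x ∈ C.N) (k : Fin d) : ContDiffAt ℝ 1 (C.jet' k) x := by
  have hne := C.ne_zero_N hN
  have hn : ContDiffAt ℝ 1 (fun y : EuclideanSpace ℝ (Fin d) => ‖y‖) x := contDiffAt_norm ℝ hne
  have hc : ∀ i, ContDiffAt ℝ 1 (fun y : EuclideanSpace ℝ (Fin d) => y i) x := fun i =>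
    (contDiff_coord (n := 1) i).contDiffAt
  have hat : ∀ {f : EuclideanSpace ℝ (Fin d) → ℝ}, ∀ {m : ℕ∞ω}, ContDiffOn ℝ m f C.N → 1 ≤ m → ContDiffAt ℝ 1 f x :=
    fun hf hm => (hf.contDiffAt (C.isOpen_N.mem_nhds hN)).of_le hm
  refine (contDiffAt_pi.2 fun i => contDiffAt_pi.2 fun j =>
      (((hc k).div hn (norm_ne_zero_iff.2 hne)).mul (hat (C.contDiffOn_A i j) (by norm_num))).add
        (hn.mul (hat (C.contDiffOn_T k i j) (by norm_num)))).prodMk
    ((contDiffAt_pi.2 fun i => hat (C.contDiffOn_A k i) (by norm_num)).prodMk ?_)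
  exact ((hat (C.contDiffOn_P k) (by norm_num)).div hn (norm_ne_zero_iff.2 hne)).sub
    (((hat C.smooth (by norm_num)).mul (hc k)).div (hn.pow 3) (pow_ne_zero 3 (norm_ne_zero_iff.2 hne)))

theorem clm_fderiv {F : Type*} [NormedAddCommGroup F] [NormedSpace ℝ F]
    {f : EuclideanSpace ℝ (Fin d) → F} (L : F →L[ℝ] ℝ) (hf : DifferentiableAt ℝ f x) (k : Fin d) :
    L (fderiv ℝ f x (EuclideanSpace.single k 1)) = pd k (fun y => L (f y)) x := by
  rw [pd, show (fun y => L (f y)) = L ∘ f from rfl,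
    (L.hasFDerivAt.comp x hf.hasFDerivAt).fderiv, ContinuousLinearMap.comp_apply]

theorem pd_pow3 {f : EuclideanSpace ℝ (Fin d) → ℝ} (hf : DifferentiableAt ℝ f x) (k : Fin d) :
    pd k (fun y => f y ^ 3) x = 3 * f x ^ 2 * pd k f x := by
  rw [pd_comp (φ := fun s : ℝ => s ^ 3) (differentiableAt_id.pow 3) hf]
  simp

theorem diff_div {f g : EuclideanSpace ℝ (Fin d) → ℝ} (hf : DifferentiableAt ℝ f x)
    (hg : DifferentiableAt ℝ g x) (h0 : g x ≠ 0) : DifferentiableAt ℝ (fun y => f y / g y) x := by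
  simp only [div_eq_mul_inv]
  exact hf.fun_mul (hg.inv h0)

/-- The Laplacian of the jet map. -/
theorem sum_fderiv_jet' (hx : x ∈ C.Ω) :
    ∑ k, fderiv ℝ (C.jet' k) x (EuclideanSpace.single k 1) =
      (‖x‖⁻¹) ^ 2 • ljet (fun i j => ‖x‖ * C.A i j x) (C.U x / ‖x‖) := by
  have hN := C.Ω_sub hx
  have hc := subset_closure hx
  have hne := C.ne_zero_N hN
  have hr : ‖x‖ ≠ 0 := norm_ne_zero_iff.2 hne
  have hd : ∀ k, DifferentiableAt ℝ (C.jet' k) x := fun k =>
    (C.contDiffAt_jet' hN k).differentiableAt one_ne_zero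
  have hn : DifferentiableAt ℝ (fun y : EuclideanSpace ℝ (Fin d) => ‖y‖) x :=
    (contDiffAt_norm ℝ hne (n := 1)).differentiableAt one_ne_zero
  have hco : ∀ k, DifferentiableAt ℝ (fun y : EuclideanSpace ℝ (Fin d) => y k) x := fun k =>
    (contDiff_coord (n := 1) k).differentiable one_ne_zero x
  have hsq : ∑ k, x k * x k = ‖x‖ ^ 2 := by
    rw [EuclideanSpace.real_norm_sq_eq]; simp only [sq]
  refine Prod.ext ?_ (Prod.ext ?_ ?_)
  · funext i j
    have h : ∀ k, (fderiv ℝ (C.jet' k) x (EuclideanSpace.single k 1)).1 i j =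
        (1 / ‖x‖ - x k * x k / ‖x‖ ^ 3) * C.A i j x + 2 * (x k * C.T k i j x / ‖x‖) +
          ‖x‖ * pd k (C.T k i j) x := by
      intro k
      have h := clm_fderiv ((((ContinuousLinearMap.proj (R := ℝ) (φ := fun _ : Fin d => ℝ) j).comp
        (ContinuousLinearMap.proj (R := ℝ) (φ := fun _ : Fin d => Fin d → ℝ) i)).comp
        (ContinuousLinearMap.fst ℝ (Fin d → Fin d → ℝ) ((Fin d → ℝ) × ℝ)))) (hd k) k
      refine h.trans ?_
      show pd k (fun y => y k / ‖y‖ * C.A i j y + ‖y‖ * C.T k i j y) x = _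
      have hq : DifferentiableAt ℝ (fun y : EuclideanSpace ℝ (Fin d) => y k / ‖y‖) x :=
        diff_div (hco k) hn hr
      rw [pd_add (hq.fun_mul (C.diffAt (C.contDiffOn_A i j) hN (by simp)))
          (hn.fun_mul (C.diffAt (C.contDiffOn_T k i j) hN (by simp))),
        pd_mul hq (C.diffAt (C.contDiffOn_A i j) hN (by simp)), pd_mul hn (C.diffAt (C.contDiffOn_T k i j) hN (by simp)),
        fderiv_jet.pd_div' (hco k) hn hr, pd_norm hne, pd_apply, if_pos rfl]
      simp only [Cone.T]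
      field_simp
      ring
    simp only [Prod.fst_sum, Finset.sum_apply, Prod.smul_fst, Pi.smul_apply, smul_eq_mul, ljet, h,
      sub_mul, Finset.sum_add_distrib, Finset.sum_sub_distrib, ← Finset.mul_sum, ← Finset.sum_mul,
      ← Finset.sum_div, hsq, C.euler2 hx i j, C.sum_pd_T hx i j, Finset.sum_const, Finset.card_univ,
      Fintype.card_fin, nsmul_eq_mul]
    field_simp
    ring
  · funext j
    have h : ∀ k, (fderiv ℝ (C.jet' k) x (EuclideanSpace.single k 1)).2.1 j = C.T k k j x :=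
      fun k => clm_fderiv (((ContinuousLinearMap.proj (R := ℝ) (φ := fun _ : Fin d => ℝ) j).comp
        ((ContinuousLinearMap.fst ℝ (Fin d → ℝ) ℝ).comp
        (ContinuousLinearMap.snd ℝ (Fin d → Fin d → ℝ) ((Fin d → ℝ) × ℝ))))) (hd k) k
    simp only [Prod.snd_sum, Prod.fst_sum, Finset.sum_apply, Prod.smul_snd, Prod.smul_fst,
      Pi.smul_apply, smul_eq_mul, ljet, h, Pi.zero_apply, mul_zero]
    rw [← C.trace_T hc hN j]
    exact Finset.sum_congr rfl fun k _ => by rw [C.T_symm_right k k j hN, C.T_symm_left k j k hN]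
  · have h : ∀ k, (fderiv ℝ (C.jet' k) x (EuclideanSpace.single k 1)).2.2 =
        C.A k k x / ‖x‖ - C.P k x * x k / ‖x‖ ^ 3 - (x k * C.P k x + C.U x) / ‖x‖ ^ 3 +
          3 * C.U x * (x k * x k) / ‖x‖ ^ 5 := by
      intro k
      have h := clm_fderiv (((ContinuousLinearMap.snd ℝ (Fin d → ℝ) ℝ).comp
        (ContinuousLinearMap.snd ℝ (Fin d → Fin d → ℝ) ((Fin d → ℝ) × ℝ)))) (hd k) k
      refine h.trans ?_
      show pd k (fun y => C.P k y / ‖y‖ - C.U y * y k / ‖y‖ ^ 3) x = _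
      have hPd := C.diffAt (C.contDiffOn_P k) hN (by simp)
      have hUd := C.diffAt C.smooth hN (by simp)
      rw [pd_sub (diff_div hPd hn hr) (diff_div (hUd.fun_mul (hco k)) (hn.fun_pow 3) (pow_ne_zero 3 hr)),
        fderiv_jet.pd_div' hPd hn hr,
        fderiv_jet.pd_div' (hUd.fun_mul (hco k)) (hn.fun_pow 3) (pow_ne_zero 3 hr),
        pd_pow3 hn, pd_mul hUd (hco k), pd_norm hne, pd_apply, if_pos rfl]
      simp only [Cone.A, Cone.P]
      field_simp
      ring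
    have hxP : ∑ k, C.P k x * x k = C.U x := by
      rw [← C.euler0 hx]; exact Finset.sum_congr rfl fun k _ => by ring
    simp only [Prod.snd_sum, Prod.smul_snd, smul_eq_mul, ljet, h, Finset.sum_add_distrib,
      Finset.sum_sub_distrib, ← Finset.sum_div, ← Finset.mul_sum, hxP, C.euler0 hx, hsq,
      C.trace_A hc hN, Finset.sum_const, Finset.card_univ, Fintype.card_fin, nsmul_eq_mul]
    field_simp
    ring

/-- **The interior inequality.** -/
theorem X0_interior (hd : 2 ≤ d) (hx : x ∈ C.Ω) (hA : (C.jet x).1 ≠ 0) :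
    ∑ k, pd k (C.G Γ) x ^ 2 / (4 * C.G Γ x) +
        ((((d : ℝ) - 2) / 2) ^ 2 + Γ.δ) * C.G Γ x / ‖x‖ ^ 2 ≤ dvg (C.X0 Γ) x := by
  have hN := C.Ω_sub hx
  have hc := subset_closure hx
  have hne := C.ne_zero_N hN
  have hr : ‖x‖ ≠ 0 := norm_ne_zero_iff.2 hne
  have hO : IsOpen {j : Jet d | j.1 ≠ 0} := isOpen_ne_fun continuous_fst continuous_const
  have hjd : DifferentiableAt ℝ C.jet x := (C.contDiffAt_jet (n := 1) hN (by norm_num)).differentiableAt one_ne_zero
  have hK : DifferentiableAt ℝ Γ.K (C.jet x) :=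
    (Γ.smooth_K.contDiffAt (hO.mem_nhds hA)).differentiableAt two_ne_zero
  have hom : DifferentiableAt ℝ Γ.om (C.jet x) :=
    (Γ.smooth_om.contDiffAt (hO.mem_nhds hA)).differentiableAt one_ne_zero
  obtain ⟨xh, hxh⟩ : ∃ xh : Fin d → ℝ, ∀ i, xh i = x i / ‖x‖ := ⟨_, fun i => rfl⟩
  obtain ⟨Th, hTh⟩ : ∃ Th : Fin d → Fin d → Fin d → ℝ, ∀ i j k, Th i j k = ‖x‖ ^ 2 * C.T i j k x :=
    ⟨_, fun i j k => rfl⟩
  have hint := Γ.interior xh (fun i j => ‖x‖ * C.A i j x) (fun i => C.P i x) (C.U x / ‖x‖) Th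
    (by simp only [hxh]; exact C.sum_unit_sq hN) hA (fun i j => by rw [C.A_symm i j hN])
    (by rw [← Finset.mul_sum, C.trace_A hc hN, mul_zero])
    (fun j => by simp only [hxh]; exact C.sum_unit_A hc hN j)
    (C.gradSq_eq ▸ C.gradSq_le_one hd hc hN :)
    (by simp only [hxh]; exact (C.sum_unit_P hc hN).symm) (C.w_nonneg hc hN)
    (fun i j k => by rw [hTh, hTh, C.T_symm_right i j k hN])
    (fun i j k => by rw [hTh, hTh, C.T_symm_left i j k hN])
    (fun j => by simp only [hTh]; rw [← Finset.mul_sum, C.trace_T hc hN j, mul_zero])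
    (fun j k => by
      simp only [hxh, hTh]
      rw [Finset.sum_congr rfl fun i _ => show x i / ‖x‖ * (‖x‖ ^ 2 * C.T i j k x) =
        ‖x‖ * (x i * C.T i j k x) by field_simp, ← Finset.mul_sum, C.euler2 hx j k]
      ring)
  obtain ⟨D, hD⟩ : ∃ D : Fin d → Jet d, ∀ k, djet xh (fun i j => ‖x‖ * C.A i j x)
      (fun i => C.P i x) Th (C.U x / ‖x‖) k = D k := ⟨_, fun k => rfl⟩
  simp only [hD] at hint
  have hjet' : ∀ k, C.jet' k x = ‖x‖⁻¹ • D k := by
    intro k
    rw [← hD]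
    refine Prod.ext ?_ (Prod.ext ?_ ?_)
    · funext i j
      simp only [jet', djet, hxh, hTh, Prod.smul_fst, Pi.smul_apply, smul_eq_mul]
      field_simp
    · funext j
      simp only [jet', djet, Prod.smul_snd, Prod.smul_fst, Pi.smul_apply, smul_eq_mul]
      field_simp
    · simp only [jet', djet, hxh, Prod.smul_snd, smul_eq_mul]
      field_simp
  have hjet : C.jet x = ((fun i j => ‖x‖ * C.A i j x), (fun i => C.P i x), C.U x / ‖x‖) := rfl
  rw [← hjet] at hint
  have hG : ∀ k, pd k (C.G Γ) x = ‖x‖⁻¹ * fderiv ℝ Γ.K (C.jet x) (D k) := by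
    intro k
    have h : HasFDerivAt (C.G Γ) ((fderiv ℝ Γ.K (C.jet x)).comp (fderiv ℝ C.jet x)) x :=
      hK.hasFDerivAt.comp x hjd.hasFDerivAt
    rw [pd, h.fderiv, ContinuousLinearMap.comp_apply, C.fderiv_jet hN, hjet', map_smul, smul_eq_mul]
  have hX : ∀ k, pd k (C.X0 Γ k) x =
      ‖x‖⁻¹ ^ 2 * fderiv ℝ Γ.om (C.jet x) (D k) (D k) +
        Γ.om (C.jet x) (fderiv ℝ (C.jet' k) x (EuclideanSpace.single k 1)) := by
    intro k
    have h1 : HasFDerivAt (fun y => Γ.om (C.jet y))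
        ((fderiv ℝ Γ.om (C.jet x)).comp (fderiv ℝ C.jet x)) x :=
      hom.hasFDerivAt.comp x hjd.hasFDerivAt
    have h2 : HasFDerivAt (C.jet' k) (fderiv ℝ (C.jet' k) x) x :=
      ((C.contDiffAt_jet' hN k).differentiableAt one_ne_zero).hasFDerivAt
    have h3 := h1.clm_apply h2
    have h4 : HasFDerivAt (C.X0 Γ k) _ x := h3
    rw [pd, h4.fderiv]
    simp only [ContinuousLinearMap.add_apply, ContinuousLinearMap.comp_apply,
      ContinuousLinearMap.flip_apply, C.fderiv_jet hN, hjet', map_smul,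
      ContinuousLinearMap.smul_apply, smul_eq_mul]
    ring
  simp only [dvg, hX, hG, Finset.sum_add_distrib, ← map_sum, C.sum_fderiv_jet' hx, map_smul,
    smul_eq_mul, ← Finset.mul_sum, ← mul_add]
  have hGdef : C.G Γ x = Γ.K (C.jet x) := rfl
  calc _ = ‖x‖⁻¹ ^ 2 * (∑ k, fderiv ℝ Γ.K (C.jet x) (D k) ^ 2 / (4 * Γ.K (C.jet x)) +
        ((((d : ℝ) - 2) / 2) ^ 2 + Γ.δ) * Γ.K (C.jet x)) := by
        rw [hGdef, mul_add, Finset.mul_sum]
        congr 1
        · exact Finset.sum_congr rfl fun k _ => by ring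
        · ring
    _ ≤ _ := mul_le_mul_of_nonneg_left hint (sq_nonneg _)

end Cone

end Vale.Agent.P098
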